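import Claimed.Agent.R323.Defs
import Claimed.Agent.Lib.Gmt.HsM
import Claimed.Agent.Lib.Gmt.QmCompact

/-!
# Row 323, block D(7) ALLARD-LITE (architect: helper281).   File 0: DEFINITIONS.

GOAL OF THE BLOCK (`Rg/AlMain.lean`): `rga_main`: a stationary boundary `S` (`RgaSt`) one of whose blow-ups at `x` WITHOUT LOSS OF MASS is a half space is regular at `x`.
ROUTE: everything is glue on the frozen `Lib/Gmt/Fl*` (improvement of flatness at unit scale `fl_unit_step` needs only `FlUnit`: Gauss-Green pair, first variation bound with `κ = 0`,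
density bounds, flatness and the EXCESS bound `μ(C_1) ≤ ω_n + δ`) and `Lib/Gmt/Hr*` (graph ⇒ smooth).   Minimality is replaced by the class
`RgaN δ S x R`: smoothed density ratios `gmtI S z ρ ≤ (1+δ) rgaH n` at all boundary points `z ∈ ball x R`, all `ρ ≤ R` (from monotonicity + continuity of `z ↦ gmtI S z R`).
Files: `Al0` definitions, `Al0a` rotations, `Al0b` dilations, `Al0c` density of a plane, `Al1` inputs (monotonicity, lower density: helper36), `Al2` the class `RgaN`, `Al3a` flux, `Al3b` excess,
`Al4` unit scale hypotheses, `Al5a` step, `Al5b` iteration + decay, `Al5c` graph, `Al6a`, `Al6b` initial data from the blow-up, `Al7a`, `Al7b` graph ⇒ regular, `AlMain`.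
RULE: `Lib/**` is frozen: import only; copy text under new names (prefix `rga_`) if a proof has to be adapted.
-/

set_option autoImplicit false
open scoped ContDiff ENNReal NNReal RealInnerProductSpace Topology
open MeasureTheory Metric Set Filter

namespace Claimed.Agent.R323

open Claimed.Agent.Gmt

variable {m n : ℕ}

/-- stationary boundaries in `E m`. -/
structure RgaSt (S : Set (E m)) : Prop where
  lf : GmtLF S univ
  stat : ∀ X, GmtTestS univ X → gmtDelta S X = 0

/-- conjugation of a field by a linear isometry. -/
noncomputable def rgaConj (O : E m ≃ₗᵢ[ℝ] E m) (X : E m → E m) (x : E m) : E m := O.symm (X (O x))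

/-- `∫_{E n} φ(|z|) dz`: the smoothed density ratio of a hyperplane of `E (n+1)`. -/
noncomputable def rgaH (n : ℕ) : ℝ := ∫ z : E n, gmtPhi ‖z‖

/-- stationary boundaries with smoothed density ratios `≤ (1+δ)·(plane)` at the boundary points of `ball x R`, at all scales `≤ R`. -/
structure RgaN (δ : ℝ) (S : Set (E (n + 1))) (x : E (n + 1)) (R : ℝ) : Prop where
  st : RgaSt S
  up : ∀ z ∈ gmtBd S, z ∈ ball x R → ∀ ρ, 0 < ρ → ρ ≤ R → gmtI S z ρ ≤ (1 + δ) * rgaH n

end Claimed.Agent.R323
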