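import Claimed.Agent.R323.Rg.Al0

/-!
# Row 323, block D(7) ALLARD-LITE (architect: helper281).   File 0a = LEAF L-RGA-ROT: stationary boundaries are invariant under rotations.

* `rga_integral_rot`: `integral_gmtMu_gmtBlow O 0 one_pos hS` applied to `g ∘ O` (`gmtRot O S = gmtBlow O.toContinuousLinearEquiv 0 1 S` by definition, `gmtAff _ 0 1 y = O.symm y`: `simp [gmtAff]`, `1 ^ (m-1) = 1`).
* `rga_conj_div`: `gmtDiv T x = ∑ i, (fderiv ℝ T x (eb i)) i`: the trace; it is invariant under conjugation (`LinearMap.trace_conj'`, or: `∑ i ⟪A (b i), b i⟫` is the same for the two orthonormal bases `eb i` and `O (eb i)`: `LinearMap.trace_eq_sum_inner`).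
* `rga_nu_rot`: COPY of the proof of `gmtNu_gmtDil` (`Lib/Gmt/GgMeas.lean`): `gmtMu_gmtNu_unique` with `U = univ`, `μ = gmtMu (gmtRot O S)`, `ν y = O (gmtNu S (O.symm y))`.
  unit length: `norm_gmtNu_ae isOpen_univ hS` transported by `rga_integral_rot`-type change of variables (or `gmtMu (gmtRot O S) = map O (gmtMu S)`: prove this first from `rga_integral_rot` / from the proof of `integral_gmtMu_gmtBlow`).
  Gauss-Green: for `T` a test field `T̂ = rgaConj O T`: `∫_S div T̂ = ∫ ⟪T̂, ν_S⟫ dμ_S` (`gmt_gauss_green`), `∫_S (div T)(O x) dx = ∫_{gmtRot O S} div T` (`O.measurePreserving`), `⟪O.symm a, b⟫ = ⟪a, O b⟫`.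
* `rga_delta_rot`: unfold `gmtDelta`; `integral_congr_ae` with `rga_nu_rot`; `rga_integral_rot`; `rga_conj_div`, `rga_conj_fderiv`.
-/

set_option autoImplicit false
open scoped ContDiff ENNReal NNReal RealInnerProductSpace Topology
open MeasureTheory Metric Set Filter

namespace Claimed.Agent.R323

open Claimed.Agent.Gmt

variable {m n : ℕ}

theorem rga_conj_fderiv (O : E m ≃ₗᵢ[ℝ] E m) {X : E m → E m} (hX : Differentiable ℝ X) (x v : E m) :
    fderiv ℝ (rgaConj O X) x v = O.symm (fderiv ℝ X (O x) (O v)) := by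
  have h : HasFDerivAt (rgaConj O X)
      ((O.symm.toContinuousLinearEquiv : E m →L[ℝ] E m).comp
        ((fderiv ℝ X (O x)).comp (O.toContinuousLinearEquiv : E m →L[ℝ] E m))) x :=
    (O.symm.toContinuousLinearEquiv : E m →L[ℝ] E m).hasFDerivAt.comp x
      (((hX (O x)).hasFDerivAt).comp x (O.toContinuousLinearEquiv : E m →L[ℝ] E m).hasFDerivAt)
  rw [h.fderiv]
  rfl

theorem rga_div_eq_trace (A : E m →L[ℝ] E m) :
    ∑ i : Fin m, A (eb i) i = LinearMap.trace ℝ (E m) (A : E m →ₗ[ℝ] E m) := by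
  rw [LinearMap.trace_eq_sum_inner (A : E m →ₗ[ℝ] E m) (EuclideanSpace.basisFun (Fin m) ℝ)]
  refine Finset.sum_congr rfl fun i _ => ?_
  simp [EuclideanSpace.basisFun_apply, EuclideanSpace.inner_single_left]

theorem rga_inner_symm (O : E m ≃ₗᵢ[ℝ] E m) (a b : E m) : ⟪a, O.symm b⟫ = ⟪O a, b⟫ := by
  conv_lhs => rw [← O.inner_map_map a (O.symm b), O.apply_symm_apply]

theorem rga_conj_div (O : E m ≃ₗᵢ[ℝ] E m) {X : E m → E m} (hX : Differentiable ℝ X) (x : E m) :
    gmtDiv (rgaConj O X) x = gmtDiv X (O x) := by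
  unfold gmtDiv
  rw [rga_div_eq_trace (fderiv ℝ X (O x)),
    LinearMap.trace_eq_sum_inner _ ((EuclideanSpace.basisFun (Fin m) ℝ).map O)]
  refine Finset.sum_congr rfl fun i _ => ?_
  rw [rga_conj_fderiv O hX]
  have h1 : ∀ w : E m, w i = ⟪eb i, w⟫ := by
    intro w
    simp [EuclideanSpace.inner_single_left]
  rw [h1, OrthonormalBasis.map_apply, EuclideanSpace.basisFun_apply, rga_inner_symm]
  rfl

theorem rga_conj_eq (O : E m ≃ₗᵢ[ℝ] E m) (X : E m → E m) :
    rgaConj O X = O.symm ∘ (X ∘ O.toHomeomorph) := rfl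

theorem rga_conj_cpt (O : E m ≃ₗᵢ[ℝ] E m) {X : E m → E m} (hX : HasCompactSupport X) :
    HasCompactSupport (rgaConj O X) := by
  rw [rga_conj_eq]
  exact (hX.comp_homeomorph O.toHomeomorph).comp_left (map_zero _)

theorem rga_conj_test (O : E m ≃ₗᵢ[ℝ] E m) {X : E m → E m} (hX : GmtTest univ X) :
    GmtTest univ (rgaConj O X) :=
  ⟨O.symm.contDiff.comp (hX.c1.comp O.contDiff), rga_conj_cpt O hX.cpt, subset_univ _⟩

theorem rga_conj_testS (O : E m ≃ₗᵢ[ℝ] E m) {X : E m → E m} (hX : GmtTestS univ X) :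
    GmtTestS univ (rgaConj O X) :=
  ⟨O.symm.contDiff.comp (hX.smooth.comp O.contDiff), rga_conj_cpt O hX.cpt, subset_univ _⟩

/-- the perimeter measure of a rotated set is the image measure. -/
theorem rga_mu_rot (O : E m ≃ₗᵢ[ℝ] E m) {S : Set (E m)} (hS : MeasurableSet S) :
    gmtMu (gmtRot O S) = Measure.map O.toHomeomorph (gmtMu S) := by
  have hspec : GmtPerMSpec (fun _ => gmtEu m) (gmtRot O S)
      (Measure.map O.toHomeomorph (gmtMu S)) := by
    have : (gmtMu S).OuterRegular := (gmtPerM_spec _ _).1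
    refine ⟨Measure.OuterRegular.map O.toHomeomorph (gmtMu S), ?_⟩
    intro U hU
    have hU' : IsOpen (O.toHomeomorph ⁻¹' U) := hU.preimage O.toHomeomorph.continuous
    rw [Measure.map_apply O.toHomeomorph.continuous.measurable hU.measurableSet, gmtMu_open _ hU']
    unfold gmtP
    rw [gmtPer_gmtBlow O.toContinuousLinearEquiv 0 one_pos _ hS, gmtBlowA_eu, one_pow,
      ENNReal.ofReal_one, one_mul]
    have e : gmtBlow O.toContinuousLinearEquiv 0 1 (O.toHomeomorph ⁻¹' U) = U := by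
      ext y
      simp [gmtBlow, gmtAff]
    rw [e]
    rfl
  exact (gmtPerM_unique hspec).symm

/-- change of variables for the perimeter measure of a rotated set. -/
theorem rga_integral_rot (O : E m ≃ₗᵢ[ℝ] E m) {S : Set (E m)} (hS : MeasurableSet S) (g : E m → ℝ) :
    ∫ y, g y ∂(gmtMu (gmtRot O S)) = ∫ x, g (O x) ∂(gmtMu S) := by
  rw [rga_mu_rot O hS, O.toHomeomorph.measurableEmbedding.integral_map]
  rfl

theorem rga_lf_rot (O : E m ≃ₗᵢ[ℝ] E m) {S : Set (E m)} (hS : GmtLF S univ) : GmtLF (gmtRot O S) univ := by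
  have h := gmtLF_gmtBlow O.toContinuousLinearEquiv 0 one_pos hS
  rw [gmtBlow_univ] at h
  exact h

/-- the normal of a rotated set. -/
theorem rga_nu_rot (O : E m ≃ₗᵢ[ℝ] E m) {S : Set (E m)} (hS : GmtLF S univ) :
    gmtNu (gmtRot O S) =ᵐ[gmtMu (gmtRot O S)] fun y => O (gmtNu S (O.symm y)) := by
  have hν : Measurable fun y => O (gmtNu S (O.symm y)) :=
    O.continuous.measurable.comp ((measurable_gmtNu S).comp O.symm.continuous.measurable)
  have hLF := rga_lf_rot O hS
  have key := gmtMu_gmtNu_unique (μ := gmtMu (gmtRot O S))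
    (ν := fun y => O (gmtNu S (O.symm y))) isOpen_univ (measurableSet_gmtRot O hS.1) hν ?_ ?_ ?_ ?_
  · exact key.2.2.symm
  · have h1 := norm_gmtNu_ae isOpen_univ hS
    rw [Measure.restrict_univ] at h1
    rw [rga_mu_rot O hS.1,
      ae_map_iff O.toHomeomorph.continuous.aemeasurable
        (measurableSet_eq_fun hν.norm measurable_const)]
    filter_upwards [h1] with x hx
    have e : O.symm (O.toHomeomorph x) = x := O.symm_apply_apply x
    rw [e, O.norm_map, hx]
  · simp
  · intro K hK _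
    exact gmtMu_compact_ne_top isOpen_univ hLF hK (subset_univ _)
  · intro T hT
    have hgg := gmt_gauss_green isOpen_univ hS (rga_conj_test O hT)
    simp only [rga_conj_div O hT.differentiable] at hgg
    rw [rga_integral_rot O hS.1]
    have e1 : ∫ x in gmtRot O S, gmtDiv T x = ∫ x in S, gmtDiv T (O x) := by
      have hpre : (O : E m → E m) ⁻¹' (gmtRot O S) = S := by
        ext x
        rw [mem_preimage, mem_gmtRot, O.symm_apply_apply]
      have h2 := (O.measurePreserving).setIntegral_preimage_emb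
        O.toHomeomorph.measurableEmbedding (fun y => gmtDiv T y) (gmtRot O S)
      rw [hpre] at h2
      exact h2.symm
    rw [e1, hgg]
    refine integral_congr_ae (Eventually.of_forall fun x => ?_)
    show ⟪O.symm (T (O x)), gmtNu S x⟫ = ⟪T (O x), O (gmtNu S (O.symm (O x)))⟫
    rw [O.symm_apply_apply, real_inner_comm, rga_inner_symm, real_inner_comm]

theorem rga_delta_rot (O : E m ≃ₗᵢ[ℝ] E m) {S : Set (E m)} (hS : GmtLF S univ) {X : E m → E m}
    (hX : GmtTestS univ X) : gmtDelta (gmtRot O S) X = gmtDelta S (rgaConj O X) := by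
  have hd : Differentiable ℝ X := hX.smooth.differentiable (by simp)
  unfold gmtDelta
  have h1 : ∫ y, (gmtDiv X y - ⟪gmtNu (gmtRot O S) y, fderiv ℝ X y (gmtNu (gmtRot O S) y)⟫)
        ∂(gmtMu (gmtRot O S)) =
      ∫ y, (gmtDiv X y - ⟪O (gmtNu S (O.symm y)), fderiv ℝ X y (O (gmtNu S (O.symm y)))⟫)
        ∂(gmtMu (gmtRot O S)) := by
    refine integral_congr_ae ?_
    filter_upwards [rga_nu_rot O hS] with y hy
    rw [hy]
  rw [h1, rga_integral_rot O hS.1]
  refine integral_congr_ae (Eventually.of_forall fun x => ?_)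
  show gmtDiv X (O x) - ⟪O (gmtNu S (O.symm (O x))), fderiv ℝ X (O x) (O (gmtNu S (O.symm (O x))))⟫ =
    gmtDiv (rgaConj O X) x - ⟪gmtNu S x, fderiv ℝ (rgaConj O X) x (gmtNu S x)⟫
  rw [O.symm_apply_apply, rga_conj_div O hd, rga_conj_fderiv O hd, rga_inner_symm]

theorem RgaSt.rot {S : Set (E m)} (h : RgaSt S) (O : E m ≃ₗᵢ[ℝ] E m) : RgaSt (gmtRot O S) :=
  ⟨rga_lf_rot O h.lf, fun X hX => by rw [rga_delta_rot O h.lf hX]; exact h.stat _ (rga_conj_testS O hX)⟩

end Claimed.Agent.R323
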