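import Claimed.Agent.R323.Rg.Al0

/-!
# Row 323, block D(7) ALLARD-LITE (architect: helper281).   File 0b = LEAF L-RGA-DIL: stationary boundaries are invariant under dilations and translations.

* `RgaSt.dil`: `lf`: `GmtLF.gmtDil` (`gmtDil x ρ univ = univ`).   `stat`: COPY of the proof of `gmtqc_fv_dil` (`Lib/Gmt/QmCompact.lean`, l.70 ff) with `= 0` instead of the inequality:
  `Y z = X (ρ⁻¹ • (z - x))` is a test field (`gmtqc_testS_dil`), `gmtDelta S Y = 0`; `integral_gmtMu_gmtDil`, `gmtDiv_dil`, `gmtqc_fderiv_dil`, `gmtNu_gmtDil isOpen_univ`.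
* `rga_blow_eq`: `ext y; simp [gmtBlow, gmtAff, gmtRot, gmtDil]`.
-/

set_option autoImplicit false
open scoped ContDiff ENNReal NNReal RealInnerProductSpace Topology
open MeasureTheory Metric Set Filter

namespace Claimed.Agent.R323

open Claimed.Agent.Gmt

variable {m n : ℕ}

theorem rga_dil_univ (x : E m) (ρ : ℝ) : gmtDil x ρ (univ : Set (E m)) = univ := by
  ext y
  simp [gmtDil]

theorem RgaSt.dil {S : Set (E m)} (h : RgaSt S) (x : E m) {ρ : ℝ} (hρ : 0 < ρ) : RgaSt (gmtDil x ρ S) := by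
  have hlf : GmtLF (gmtDil x ρ S) univ := by
    have := h.lf.gmtDil x hρ
    rwa [rga_dil_univ] at this
  refine ⟨hlf, fun X hX => ?_⟩
  have hSm := h.lf.1
  have hX' : GmtTestS (gmtDil x ρ (univ : Set (E m))) X := by rwa [rga_dil_univ]
  have hY := gmtqc_testS_dil hρ hX'
  have hfv := h.stat _ hY
  have hXd : Differentiable ℝ X := hX.smooth.differentiable (by simp)
  have e : ∀ y : E m, ρ⁻¹ • (x + ρ • y - x) = y := fun y => by
    rw [add_sub_cancel_left, smul_smul, inv_mul_cancel₀ hρ.ne', one_smul]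
  have c1 := integral_gmtMu_gmtDil hSm x hρ (fun z => gmtDiv (fun z => X (ρ⁻¹ • (z - x))) z -
    ⟪gmtNu S z, fderiv ℝ (fun z => X (ρ⁻¹ • (z - x))) z (gmtNu S z)⟫)
  have i1 : ∫ y, (gmtDiv (fun z => X (ρ⁻¹ • (z - x))) (x + ρ • y) -
      ⟪gmtNu S (x + ρ • y), fderiv ℝ (fun z => X (ρ⁻¹ • (z - x))) (x + ρ • y)
        (gmtNu S (x + ρ • y))⟫) ∂(gmtMu (gmtDil x ρ S)) =
      ρ⁻¹ * ∫ y, (gmtDiv X y - ⟪gmtNu S (x + ρ • y), fderiv ℝ X y (gmtNu S (x + ρ • y))⟫)
        ∂(gmtMu (gmtDil x ρ S)) := by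
    rw [← integral_const_mul]
    refine integral_congr_ae (Eventually.of_forall fun y => ?_)
    simp only [gmtDiv_dil hXd, gmtqc_fderiv_dil hXd, e, _root_.smul_apply, inner_smul_right]
    ring
  rw [i1] at c1
  have hν := gmtNu_gmtDil isOpen_univ h.lf x hρ
  rw [rga_dil_univ, Measure.restrict_univ] at hν
  have i3 : ∫ y, (gmtDiv X y - ⟪gmtNu (gmtDil x ρ S) y,
      fderiv ℝ X y (gmtNu (gmtDil x ρ S) y)⟫) ∂(gmtMu (gmtDil x ρ S)) =
      ∫ y, (gmtDiv X y - ⟪gmtNu S (x + ρ • y), fderiv ℝ X y (gmtNu S (x + ρ • y))⟫)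
        ∂(gmtMu (gmtDil x ρ S)) := by
    refine integral_congr_ae ?_
    filter_upwards [hν] with y hy
    rw [hy]
  unfold gmtDelta at hfv ⊢
  rw [i3]
  rw [hfv, mul_zero] at c1
  have hc : ρ ^ m * ρ⁻¹ ≠ 0 := by positivity
  rw [← mul_assoc] at c1
  exact (mul_eq_zero.1 c1).resolve_left hc

theorem rga_blow_eq (O : E m ≃ₗᵢ[ℝ] E m) (z : E m) (r : ℝ) (S : Set (E m)) :
    gmtBlow O.toContinuousLinearEquiv z r S = gmtRot O (gmtDil z r S) := by
  ext y
  simp [gmtBlow, gmtAff, gmtRot, gmtDil]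

end Claimed.Agent.R323
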