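import Claimed.Agent.R323.Rg.Al0

/-!
# Row 323, block D(7) ALLARD-LITE (architect: helper281).   File 0c = LEAF L-RGA-H: the smoothed density ratio of a hyperplane.

* `rga_H_pos`: `gmtPhi ‖z‖` is continuous, `≥ 0`, compactly supported (`closedBall 0 1`), `= 1` at `0`: `Continuous.integral_pos_of_hasCompactSupport_nonneg_nonzero`.
* `rga_H_scale`: `Measure.integral_comp_smul` / `integral_comp_inv_smul` with `‖ρ⁻¹ • z‖ = ‖z‖/ρ`, `finrank = n`.
* `rga_I_half`: `J : E n →L E (n+1)` isometric with `⟪J z, e⟫ = 0`: `J = L.symm ∘ flInc n` with `L e = gmtEn n` (`fl_exists_rot he`; `⟪flInc n z, gmtEn n⟫ = gmtVer (flInc n z) = 0`: `fl_ver_eq_inner`, `fl_inc_apply`, `fl_ver_join`; `fl_norm_inc`);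
  `gmtMu_gmtHalf_eq hJ he hJe : gmtMu (gmtHalf 0 e) = Measure.map J volume`; `integral_map`; `‖J z - 0‖ = ‖z‖`; `rga_H_scale`; `(n+1) - 1 = n`.
-/

set_option autoImplicit false
open scoped ContDiff ENNReal NNReal RealInnerProductSpace Topology
open MeasureTheory Metric Set Filter

namespace Claimed.Agent.R323

open Claimed.Agent.Gmt

variable {m n : ℕ}

theorem rga_H_pos (n : ℕ) : 0 < rgaH n := by
  have hc : Continuous fun z : E n => gmtPhi ‖z‖ := gmtPhi_contDiff.continuous.comp continuous_norm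
  have hs : HasCompactSupport fun z : E n => gmtPhi ‖z‖ := by
    refine HasCompactSupport.intro (isCompact_closedBall (0 : E n) 1) fun z hz => ?_
    rw [mem_closedBall, dist_zero_right, not_le] at hz
    exact gmtPhi_eq_zero hz.le
  refine hc.integral_pos_of_hasCompactSupport_nonneg_nonzero hs (fun z => gmtPhi_nonneg _)
    (x := 0) ?_
  rw [norm_zero, gmtPhi_eq_one (by norm_num)]
  exact one_ne_zero

/-- scaling. -/
theorem rga_H_scale (n : ℕ) {ρ : ℝ} (hρ : 0 < ρ) : ∫ z : E n, gmtPhi (‖z‖ / ρ) = ρ ^ n * rgaH n := by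
  have h1 := Measure.integral_comp_inv_smul (volume : Measure (E n)) (fun z : E n => gmtPhi ‖z‖) ρ
  have h2 : ∀ z : E n, ‖ρ⁻¹ • z‖ = ‖z‖ / ρ := fun z => by
    rw [norm_smul, norm_inv, Real.norm_eq_abs, abs_of_pos hρ, div_eq_inv_mul]
  simp only [h2] at h1
  rw [h1, finrank_euclideanSpace_fin, abs_of_pos (pow_pos hρ n), smul_eq_mul, rgaH]

/-- the smoothed density ratios of a half space at a boundary point. -/
theorem rga_I_half {e : E (n + 1)} (he : ‖e‖ = 1) {ρ : ℝ} (hρ : 0 < ρ) :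
    gmtI (gmtHalf (0 : E (n + 1)) e) 0 ρ = rgaH n := by
  obtain ⟨L, hL⟩ := fl_exists_rot he
  set J : E n →L[ℝ] E (n + 1) :=
    (L.symm.toContinuousLinearEquiv : E (n + 1) →L[ℝ] E (n + 1)).comp (flInc n) with hJdef
  have hJa : ∀ z, J z = L.symm (flInc n z) := fun z => rfl
  have hJ : ∀ z, ‖J z‖ = ‖z‖ := fun z => by
    rw [hJa, LinearIsometryEquiv.norm_map, fl_norm_inc]
  have hJe : ∀ z, ⟪J z, e⟫ = 0 := fun z => by
    have h1 : e = L.symm (gmtEn n) := by rw [← hL, L.symm_apply_apply]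
    rw [hJa, h1, LinearIsometryEquiv.inner_map_map, ← fl_ver_eq_inner, fl_inc_apply, fl_ver_join]
  have hmu := gmtMu_gmtHalf_eq hJ he hJe
  have hc : Continuous fun y : E (n + 1) => gmtPhi (‖y - 0‖ / ρ) := gmtMoB_kernel_continuous 0 ρ
  unfold gmtI
  rw [hmu, integral_map J.continuous.aemeasurable hc.aestronglyMeasurable]
  simp only [sub_zero, hJ]
  rw [rga_H_scale n hρ, Nat.add_sub_cancel, ← mul_assoc, inv_mul_cancel₀ (pow_pos hρ n).ne', one_mul]

end Claimed.Agent.R323
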