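import Claimed.Agent.R323.Rg.Al0

/-!
# Row 323, block D: entire STATIONARY sets of locally finite perimeter (`RgaSt`, defined in `Al0`).   Architect: helper36.

Monotonicity, density, rigidity, cones: the statements of `Lib/Gmt/MoC`, `CoA`, `CoC` with "minimiser" replaced by "stationary"
(the proofs there use minimality only through the first variation).  New: the LOWER DENSITY BOUND `rg_lo` (soft proof, no De Giorgi structure theorem):
* `x ∈ gmtBd S`, `η, s₀ > 0`: by the Lebesgue density theorem there are `y₁, y₀ ∈ B_η(x)` and `s ≤ s₀` with `|S ∩ B_s(y₁)| > 3/4 |B_s|`, `|S ∩ B_s(y₀)| < 1/4 |B_s|`;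
  `y ↦ |S ∩ B_s(y)|` is continuous, so `|S ∩ B_s(y)| = |B_s|/2` for some `y` of the segment (`rg_half_ball`);
* `gmt_rel_iso_weak`: `μ_S(B_s(y)) ≥ c s^{n-1}`; `ball_le_gmtI`: `gmtI S y (2s) ≥ c'`; monotonicity: `gmtI S y ρ ≥ c'` for `ρ ≥ 2 s₀`; `η → 0` and `gmtI_continuous`.
-/

set_option autoImplicit false
open scoped ContDiff ENNReal NNReal RealInnerProductSpace Topology
open MeasureTheory Metric Set Filter

namespace Claimed.Agent.R323

open Claimed.Agent.Gmt

variable {n : ℕ}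

theorem RgaSt.meas {S : Set (E n)} (h : RgaSt S) : MeasurableSet S := h.lf.1

theorem rg_mu_congr {S S' : Set (E n)} (hS : MeasurableSet S) (hS' : MeasurableSet S') (h : S =ᵐ[volume] S') :
    gmtMu S = gmtMu S' := by
  have := gmtMu_restrict_congr isOpen_univ hS hS' (by simpa using h)
  simpa using this

theorem rg_lf_congr {S S' : Set (E n)} (hS : GmtLF S univ) (hS' : MeasurableSet S') (h : S =ᵐ[volume] S') :
    GmtLF S' univ := by
  refine ⟨hS', fun W hW => ?_⟩
  rw [← gmtMu_open S' hW.1, ← rg_mu_congr hS.1 hS' h, gmtMu_open S hW.1]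
  exact hS.2 W hW

theorem RgaSt.congr {S S' : Set (E n)} (hS : RgaSt S) (hS' : MeasurableSet S') (h : S =ᵐ[volume] S') : RgaSt S' := by
  refine ⟨rg_lf_congr hS.lf hS' h, fun X hX => ?_⟩
  rw [← hS.stat X hX]
  unfold gmtDelta
  rw [← rg_mu_congr hS.meas hS' h]
  have hν := gmtNu_congr isOpen_univ hS.lf hS' (by simpa using h)
  rw [Measure.restrict_univ] at hν
  refine integral_congr_ae ?_
  filter_upwards [hν] with y hy
  rw [hy]

/-! ### monotonicity -/

theorem rg_I_deriv (hn : 1 ≤ n) {S : Set (E n)} (hS : RgaSt S) (x : E n) {ρ : ℝ} (hρ : 0 < ρ) :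
    HasDerivAt (gmtI S x) ((ρ ^ n)⁻¹ * gmtDef S x ρ) ρ := by
  have h1 := gmtI_hasDerivAt hn (hS.lf.mono (subset_univ (ball x (ρ + 1)))) hρ (by linarith)
  have h3 := gmtRad_test x hρ (show ρ < ρ + 1 by linarith)
  have h2 : gmtDelta S (gmtRad x ρ) = 0 := hS.stat _ ⟨h3.smooth, h3.cpt, subset_univ _⟩
  rwa [h2, sub_zero] at h1

theorem rg_I_mono (hn : 1 ≤ n) {S : Set (E n)} (hS : RgaSt S) (x : E n) : MonotoneOn (gmtI S x) (Ioi 0) := by
  refine monotoneOn_of_deriv_nonneg (convex_Ioi 0)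
    (fun ρ hρ => (rg_I_deriv hn hS x hρ).continuousAt.continuousWithinAt) ?_ ?_
  · rw [interior_Ioi]
    exact fun ρ hρ => (rg_I_deriv hn hS x hρ).differentiableAt.differentiableWithinAt
  · rw [interior_Ioi]
    intro ρ hρ
    rw [(rg_I_deriv hn hS x hρ).deriv]
    exact mul_nonneg (inv_nonneg.2 (pow_nonneg (le_of_lt hρ) _)) (gmtDef_nonneg S x hρ)

theorem rg_Th_spec (hn : 1 ≤ n) {S : Set (E n)} (hS : RgaSt S) (x : E n) :
    Tendsto (gmtI S x) (𝓝[>] 0) (𝓝 (gmtTh S x)) ∧ 0 ≤ gmtTh S x ∧ ∀ ρ, 0 < ρ → gmtTh S x ≤ gmtI S x ρ := by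
  have key : ∀ R : ℝ, 0 < R → ∃ θ : ℝ, Tendsto (gmtI S x) (𝓝[>] 0) (𝓝 θ) ∧ 0 ≤ θ ∧ ∀ ρ ∈ Ioo 0 R, θ ≤ gmtI S x ρ := by
    intro R hR
    obtain ⟨θ, h1, h2, h3⟩ := gmt_almost_mono_limit (g := gmtI S x) (C := 0) hR
      (fun ρ hρ => gmtI_nonneg S x hρ.1)
      (by simpa using (rg_I_mono hn hS x).mono (fun ρ hρ => hρ.1))
    exact ⟨θ, h1, h2, fun ρ hρ => by simpa using h3 ρ hρ⟩
  obtain ⟨θ, h1, h2, -⟩ := key 1 one_pos
  have e : gmtTh S x = θ := h1.limUnder_eq
  refine ⟨e ▸ h1, e ▸ h2, fun ρ hρ => ?_⟩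
  obtain ⟨θ', h1', -, h3'⟩ := key (ρ + 1) (by linarith)
  rw [e, tendsto_nhds_unique h1 h1']
  exact h3' ρ ⟨hρ, by linarith⟩

theorem rg_Th_tendsto (hn : 1 ≤ n) {S : Set (E n)} (hS : RgaSt S) (x : E n) :
    Tendsto (gmtI S x) (𝓝[>] 0) (𝓝 (gmtTh S x)) := (rg_Th_spec hn hS x).1

theorem rg_Th_le (hn : 1 ≤ n) {S : Set (E n)} (hS : RgaSt S) (x : E n) {ρ : ℝ} (hρ : 0 < ρ) :
    gmtTh S x ≤ gmtI S x ρ := (rg_Th_spec hn hS x).2.2 ρ hρ

/-- RIGIDITY: constant density ratio forces the normal to be orthogonal to the radial direction. -/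
theorem rg_const_radial (hn : 1 ≤ n) {S : Set (E n)} (hS : RgaSt S) {x : E n} {c : ℝ}
    (hc : ∀ ρ, 0 < ρ → gmtI S x ρ = c) : ∀ᵐ y ∂(gmtMu S), ⟪y - x, gmtNu S y⟫ = 0 := by
  have hdef : ∀ ρ, 0 < ρ → gmtDef S x ρ = 0 := by
    intro ρ hρ
    have h1 := rg_I_deriv hn hS x hρ
    have h3 : HasDerivAt (gmtI S x) 0 ρ := by
      refine (hasDerivAt_const ρ c).congr_of_eventuallyEq ?_
      filter_upwards [Ioi_mem_nhds hρ] with σ hσ
      exact hc σ hσ
    have h4 := h1.unique h3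
    have h5 : (ρ ^ n)⁻¹ ≠ 0 := inv_ne_zero (pow_pos hρ _).ne'
    exact (mul_eq_zero.1 h4).resolve_left h5
  have hae : ∀ q : ℚ, ∀ᵐ y ∂(gmtMu S), 0 < (q : ℝ) →
      -deriv gmtPhi (‖y - x‖ / q) * ⟪y - x, gmtNu S y⟫ ^ 2 / (q * ‖y - x‖) = 0 := by
    intro q
    by_cases hq : 0 < (q : ℝ)
    · have hlf : GmtLF S (ball x ((q : ℝ) + 1)) := hS.lf.mono (subset_univ _)
      have hint := gmtDef_integrable hlf hq (by linarith : (q : ℝ) < q + 1)
      have hnn : 0 ≤ fun y => -deriv gmtPhi (‖y - x‖ / q) * ⟪y - x, gmtNu S y⟫ ^ 2 /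
          (q * ‖y - x‖) := by
        intro y
        have := gmtPhi_deriv_nonpos (‖y - x‖ / q)
        simp only [Pi.zero_apply]
        apply div_nonneg (mul_nonneg (by linarith) (sq_nonneg _))
        positivity
      have := (integral_eq_zero_iff_of_nonneg hnn hint).1 (hdef q hq)
      filter_upwards [this] with y hy _
      exact hy
    · exact Eventually.of_forall fun y h => absurd h hq
  rw [← ae_all_iff] at hae
  filter_upwards [hae] with y hy
  by_cases hyx : y = x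
  · simp [hyx]
  have hn' : 0 < ‖y - x‖ := norm_pos_iff.2 (sub_ne_zero.2 hyx)
  obtain ⟨q, hq1, hq2⟩ := exists_rat_btwn (show ‖y - x‖ < 2 * ‖y - x‖ by linarith)
  have hq0 : 0 < (q : ℝ) := hn'.trans hq1
  have h1 := hy q hq0
  have h2 : deriv gmtPhi (‖y - x‖ / q) < 0 := by
    apply gmtPhi_deriv_neg
    · rw [lt_div_iff₀ hq0]; linarith
    · rw [div_lt_one hq0]; exact hq1
  rw [div_eq_zero_iff] at h1
  rcases h1 with h1 | h1
  · rcases mul_eq_zero.1 h1 with h3 | h3
    · linarith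
    · exact pow_eq_zero_iff (two_ne_zero) |>.1 h3
  · exact absurd h1 (mul_pos hq0 hn').ne'

theorem rg_cone_of_const (hn : 1 ≤ n) {S : Set (E n)} (hS : RgaSt S) {x : E n} {c : ℝ}
    (hc : ∀ ρ, 0 < ρ → gmtI S x ρ = c) : GmtCone (gmtDil x 1 S) :=
  gmt_cone_of_radial hS.lf (rg_const_radial hn hS hc)

/-- in a stationary cone the density ratio is maximal at the vertex. -/
theorem rg_I_cone_le (hn : 1 ≤ n) {C : Set (E n)} (hC : RgaSt C) (hc : GmtCone C) (w : E n)
    {σ : ℝ} (hσ : 0 < σ) : gmtI C w σ ≤ gmtI C 0 1 := by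
  have hlf : GmtLF C univ := hC.lf
  have hmono := rg_I_mono hn hC w
  have h1 : ∀ σ' : ℝ, σ ≤ σ' → gmtI C w σ ≤ gmtI C (σ'⁻¹ • w) 1 := by
    intro σ' h
    have hσ' : 0 < σ' := hσ.trans_le h
    have h2 := gmtI_cone_scale hlf.1 hc (σ'⁻¹ • w) hσ' 1
    rw [smul_smul, mul_inv_cancel₀ hσ'.ne', one_smul, mul_one] at h2
    rw [← h2]
    exact hmono hσ hσ' h
  have h2 : Tendsto (fun σ' : ℝ => gmtI C (σ'⁻¹ • w) 1) atTop (𝓝 (gmtI C 0 1)) := by
    have hc1 := (gmtI_continuous hlf one_pos).tendsto 0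
    have h3 : Tendsto (fun σ' : ℝ => σ'⁻¹ • w) atTop (𝓝 0) := by
      have := (tendsto_inv_atTop_zero (𝕜 := ℝ)).smul_const w
      simpa using this
    exact hc1.comp h3
  exact ge_of_tendsto h2 ((eventually_ge_atTop σ).mono h1)

/-- points of maximal density of a stationary cone belong to the spine. -/
theorem rg_cone_inv (hn : 1 ≤ n) {C : Set (E n)} (hC : RgaSt C) (hc : GmtCone C) {w : E n}
    (hw : ∀ σ, 0 < σ → gmtI C 0 1 ≤ gmtI C w σ) : w ∈ gmtSpine C :=
  gmt_two_vertices hc (rg_cone_of_const hn hC (c := gmtI C 0 1)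
    fun ρ hρ => le_antisymm (rg_I_cone_le hn hC hc w hρ) (hw ρ hρ))

/-! ### blow-ups -/

theorem rg_blow_congr {S S' S'' : Set (E n)} {x : E n} {r : ℕ → ℝ} (hb : BlowTo S x r S') (hS' : MeasurableSet S')
    (hS'' : MeasurableSet S'') (h : S' =ᵐ[volume] S'') : BlowTo S x r S'' := by
  obtain ⟨φ, hφ, h1, h2⟩ := hb
  refine ⟨φ, hφ, fun K hK hKU => ?_, by rw [← rg_mu_congr hS' hS'' h]; exact h2⟩
  refine (h1 K hK hKU).congr fun i => measure_congr ?_
  have : (symmDiff (gmtDil x (r (φ i)) S) S' : Set (E n)) =ᵐ[volume] symmDiff (gmtDil x (r (φ i)) S) S'' :=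
    (ae_eq_refl _).symmDiff h
  exact this.inter (ae_eq_refl _)

/-- the smoothed ratios of a blow-up. -/
theorem rg_blow_I {S S' : Set (E n)} (hS : MeasurableSet S) {x : E n} {r : ℕ → ℝ} (hr : ∀ j, 0 < r j)
    (hb : BlowTo S x r S') : ∃ φ : ℕ → ℕ, StrictMono φ ∧ ∀ (w : E n) (σ : ℝ), 0 < σ →
      Tendsto (fun j => gmtI S (x + r (φ j) • w) (r (φ j) * σ)) atTop (𝓝 (gmtI S' w σ)) := by
  obtain ⟨φ, hφ, -, h2⟩ := hb
  refine ⟨φ, hφ, fun w σ hσ => ?_⟩
  have := gmtI_wk h2 w hσ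
  simpa only [gmtI_gmtDil x (hr _) hS] using this

/-- blow-ups (without loss of mass) of stationary sets are cones. -/
theorem rg_blow_cone (hn : 1 ≤ n) {S S' : Set (E n)} (hS : RgaSt S) (hS' : RgaSt S') {x : E n} {r : ℕ → ℝ}
    (hr : ∀ j, 0 < r j) (hr0 : Tendsto r atTop (𝓝 0)) (hb : BlowTo S x r S') :
    GmtCone S' ∧ ∀ σ, 0 < σ → gmtI S' 0 σ = gmtTh S x := by
  obtain ⟨φ, hφ, h⟩ := rg_blow_I hS.meas hr hb
  have h1 : ∀ σ, 0 < σ → gmtI S' 0 σ = gmtTh S x := by
    intro σ hσ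
    have h2 := h 0 σ hσ
    simp only [smul_zero, add_zero] at h2
    have h3 : Tendsto (fun j => r (φ j) * σ) atTop (𝓝[>] 0) := by
      rw [tendsto_nhdsWithin_iff]
      refine ⟨?_, Eventually.of_forall fun j => mul_pos (hr _) hσ⟩
      simpa using (hr0.comp hφ.tendsto_atTop).mul_const σ
    exact tendsto_nhds_unique h2 ((rg_Th_tendsto hn hS x).comp h3)
  refine ⟨?_, h1⟩
  have := rg_cone_of_const hn hS' h1
  have e : gmtDil (0 : E n) 1 S' = S' := by
    ext y
    simp [gmtDil]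
  rwa [e] at this

/-- blow-ups of a stationary cone at `z` are invariant along `z`. -/
theorem rg_blow_spine (hn : 1 ≤ n) {C C' : Set (E n)} (hC : RgaSt C) (hc : GmtCone C) (hC' : RgaSt C') {z : E n}
    {r : ℕ → ℝ} (hr : ∀ j, 0 < r j) (hr0 : Tendsto r atTop (𝓝 0)) (hb : BlowTo C z r C') : z ∈ gmtSpine C' := by
  obtain ⟨hc', hI⟩ := rg_blow_cone hn hC hC' hr hr0 hb
  obtain ⟨φ, hφ, h⟩ := rg_blow_I hC.meas hr hb
  refine rg_cone_inv hn hC' hc' fun σ hσ => ?_
  rw [hI 1 one_pos]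
  refine ge_of_tendsto (h z σ hσ) (Eventually.of_forall fun j => ?_)
  have hp : 0 < 1 + r (φ j) := by have := hr (φ j); linarith
  have e1 : z + r (φ j) • z = (1 + r (φ j)) • z := by rw [add_smul, one_smul]
  have e2 : r (φ j) * σ = (1 + r (φ j)) * (r (φ j) * σ / (1 + r (φ j))) := by field_simp
  rw [e1, e2, gmtI_cone_scale hC.meas hc z hp]
  exact rg_Th_le hn hC z (div_pos (mul_pos (hr _) hσ) hp)

/-! ### the lower density bound -/

/-- continuity of `y ↦ |S ∩ B_s(y)|`. -/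
theorem rg_vol_continuous (S : Set (E n)) (hS : MeasurableSet S) (s : ℝ) :
    Continuous fun y : E n => (volume (S ∩ ball y s)).toReal := by
  rcases le_or_gt s 0 with hs | hs
  · simp only [ball_eq_empty.2 hs, inter_empty, measure_empty, ENNReal.toReal_zero]
    exact continuous_const
  have e : ∀ y : E n, (volume (S ∩ ball y s)).toReal =
      ∫ z, (S ∩ ball y s).indicator (fun _ => (1 : ℝ)) z := by
    intro y
    rw [integral_indicator (hS.inter measurableSet_ball), setIntegral_const]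
    simp [Measure.real]
  simp_rw [e]
  rw [continuous_iff_continuousAt]
  intro y₀
  refine continuousAt_of_dominated (bound := (ball y₀ (s + 1)).indicator (fun _ => (1 : ℝ))) ?_ ?_ ?_ ?_
  · exact Eventually.of_forall fun y =>
      (measurable_const.indicator (hS.inter measurableSet_ball)).aestronglyMeasurable
  · filter_upwards [ball_mem_nhds y₀ one_pos] with y hy
    refine Eventually.of_forall fun z => ?_
    by_cases hz : z ∈ S ∩ ball y s
    · have hz' : z ∈ ball y₀ (s + 1) := by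
        have h1 : dist z y < s := hz.2
        have h2 : dist y y₀ < 1 := hy
        have := dist_triangle z y y₀
        show dist z y₀ < s + 1
        linarith
      rw [indicator_of_mem hz, indicator_of_mem hz']
      simp
    · rw [indicator_of_notMem hz, norm_zero]
      exact indicator_nonneg (fun _ _ => zero_le_one) z
  · exact (integrable_indicator_iff measurableSet_ball).2 (integrableOn_const measure_ball_lt_top.ne)
  · have hnull : volume (sphere y₀ s) = 0 := Measure.addHaar_sphere_of_ne_zero volume y₀ hs.ne'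
    filter_upwards [measure_eq_zero_iff_ae_notMem.1 hnull] with z hz
    have hc : ContinuousAt (fun y : E n => dist z y) y₀ := (continuous_const.dist continuous_id).continuousAt
    rcases lt_or_gt_of_ne (show dist z y₀ ≠ s from hz) with h | h
    · have h1 : ∀ᶠ y in 𝓝 y₀, dist z y < s := hc.eventually_lt continuousAt_const h
      refine (continuousAt_const (y := S.indicator (fun _ => (1 : ℝ)) z)).congr ?_
      filter_upwards [h1] with y hy
      by_cases hzS : z ∈ S <;> simp [indicator, hzS, mem_ball, hy]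
    · have h1 : ∀ᶠ y in 𝓝 y₀, s < dist z y := continuousAt_const.eventually_lt hc h
      refine (continuousAt_const (y := (0 : ℝ))).congr ?_
      filter_upwards [h1] with y hy
      have : z ∉ S ∩ ball y s := fun h' => absurd h'.2 (by simp [mem_ball, hy.le])
      rw [indicator_of_notMem this]

/-- near a point of the boundary there are small balls which are cut in two halves. -/
theorem rg_half_ball {S : Set (E n)} (hS : MeasurableSet S) {x : E n} (hx : x ∈ gmtBd S) {η s₀ : ℝ} (hη : 0 < η)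
    (hs₀ : 0 < s₀) : ∃ y ∈ ball x η, ∃ s, 0 < s ∧ s ≤ s₀ ∧ volume (S ∩ ball y s) = volume (ball y s) / 2 ∧
      volume (ball y s \ S) = volume (ball y s) / 2 := by
  have hd := Besicovitch.ae_tendsto_measure_inter_div_of_measurableSet (volume : Measure (E n)) hS
  obtain ⟨h1, h2⟩ := hx η hη
  obtain ⟨y₁, hy₁, hp₁⟩ := gmt_bpd_exists_of_ae hd h1.ne'
  obtain ⟨y₀, hy₀, hp₀⟩ := gmt_bpd_exists_of_ae hd h2.ne'
  rw [indicator_of_mem hy₁.1] at hp₁
  rw [indicator_of_notMem hy₀.2] at hp₀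
  simp only [Pi.one_apply] at hp₁
  have e1 : ∀ᶠ r in 𝓝[>] (0 : ℝ), (3 / 4 : ℝ≥0∞) < volume (S ∩ closedBall y₁ r) / volume (closedBall y₁ r) :=
    hp₁.eventually (lt_mem_nhds (by
      rw [ENNReal.div_lt_iff (by simp) (by simp)]
      norm_num))
  have e0 : ∀ᶠ r in 𝓝[>] (0 : ℝ), volume (S ∩ closedBall y₀ r) / volume (closedBall y₀ r) < (1 / 4 : ℝ≥0∞) :=
    hp₀.eventually (gt_mem_nhds (by simp))
  obtain ⟨s, ⟨hs1, hs0⟩, hs⟩ := ((e1.and e0).and (Ioo_mem_nhdsGT hs₀)).exists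
  have hspos : 0 < s := hs.1
  have hsph : ∀ y : E n, volume (sphere y s) = 0 := fun y => Measure.addHaar_sphere_of_ne_zero volume y hspos.ne'
  have hcb' : ∀ (S : Set (E n)) (y : E n), volume (S ∩ closedBall y s) = volume (S ∩ ball y s) := by
    intro S y
    apply le_antisymm
    · calc volume (S ∩ closedBall y s) ≤ volume ((S ∩ ball y s) ∪ sphere y s) := by
            apply measure_mono
            rintro z ⟨hzS, hz⟩
            rcases lt_or_eq_of_le (mem_closedBall.1 hz) with h | h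
            · exact Or.inl ⟨hzS, h⟩
            · exact Or.inr h
        _ ≤ volume (S ∩ ball y s) + volume (sphere y s) := measure_union_le _ _
        _ = volume (S ∩ ball y s) := by rw [hsph, add_zero]
    · exact measure_mono (inter_subset_inter_right _ ball_subset_closedBall)
  have hcb := hcb' S
  have hV : ∀ y : E n, volume (closedBall y s) = volume (ball (0 : E n) s) := by
    intro y
    have := hcb' univ y
    rw [univ_inter, univ_inter] at this
    rw [this, Measure.addHaar_ball_center]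
  have hVb : ∀ y : E n, volume (ball y s) = volume (ball (0 : E n) s) := fun y => Measure.addHaar_ball_center _ _ _
  set V : ℝ≥0∞ := volume (ball (0 : E n) s) with hVdef
  have hVtop : V ≠ ⊤ := measure_ball_lt_top.ne
  have hV0 : V ≠ 0 := (measure_ball_pos volume _ hspos).ne'
  set Vr : ℝ := V.toReal with hVr
  have hVrpos : 0 < Vr := ENNReal.toReal_pos hV0 hVtop
  rw [hcb, hV] at hs1 hs0
  set g : E n → ℝ := fun y => (volume (S ∩ ball y s)).toReal with hg
  have hgc : Continuous g := rg_vol_continuous S hS s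
  have hfin : ∀ y : E n, volume (S ∩ ball y s) ≠ ⊤ := fun y => gmtVolB_ne_top S y s
  have g1 : Vr / 2 ≤ g y₁ := by
    have h3 : (3 / 4 : ℝ≥0∞) * V < volume (S ∩ ball y₁ s) := (ENNReal.lt_div_iff_mul_lt (Or.inl hV0) (Or.inl hVtop)).1 hs1
    have h4 := (ENNReal.toReal_lt_toReal (ENNReal.mul_ne_top (by simp [ENNReal.div_eq_top]) hVtop) (hfin y₁)).2 h3
    rw [ENNReal.toReal_mul] at h4
    have h5 : ((3 / 4 : ℝ≥0∞)).toReal = 3 / 4 := by
      rw [ENNReal.toReal_div]; norm_num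
    rw [h5] at h4
    show Vr / 2 ≤ (volume (S ∩ ball y₁ s)).toReal
    linarith
  have g0 : g y₀ ≤ Vr / 2 := by
    have h3 : volume (S ∩ ball y₀ s) < (1 / 4 : ℝ≥0∞) * V := (ENNReal.div_lt_iff (Or.inl hV0) (Or.inl hVtop)).1 hs0
    have h4 := (ENNReal.toReal_lt_toReal (hfin y₀) (ENNReal.mul_ne_top (by simp) hVtop)).2 h3
    rw [ENNReal.toReal_mul] at h4
    have h5 : ((1 / 4 : ℝ≥0∞)).toReal = 1 / 4 := by
      rw [ENNReal.toReal_div]; norm_num
    rw [h5] at h4
    show (volume (S ∩ ball y₀ s)).toReal ≤ Vr / 2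
    linarith
  have hpath : Continuous fun t : ℝ => g (AffineMap.lineMap y₀ y₁ t) := hgc.comp AffineMap.lineMap_continuous
  have hivt := intermediate_value_Icc (zero_le_one' ℝ) hpath.continuousOn
  have hmem : Vr / 2 ∈ Icc (g (AffineMap.lineMap y₀ y₁ (0 : ℝ))) (g (AffineMap.lineMap y₀ y₁ (1 : ℝ))) := by
    simp only [AffineMap.lineMap_apply_zero, AffineMap.lineMap_apply_one]
    exact ⟨g0, g1⟩
  obtain ⟨t, ht, hgt⟩ := hivt hmem
  set y : E n := AffineMap.lineMap y₀ y₁ t with hy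
  have hyB : y ∈ ball x η := (convex_ball x η).lineMap_mem hy₀.1 hy₁.2 ht
  have hA : volume (S ∩ ball y s) = volume (ball y s) / 2 := by
    rw [hVb, ← ENNReal.ofReal_toReal (hfin y)]
    have : (volume (S ∩ ball y s)).toReal = Vr / 2 := hgt
    rw [this, ENNReal.ofReal_div_of_pos two_pos, ENNReal.ofReal_toReal hVtop]
    simp
  refine ⟨y, hyB, s, hspos, hs.2.le, hA, ?_⟩
  have hsum := measure_inter_add_sdiff (μ := volume) (ball y s) hS
  rw [inter_comm, hA] at hsum
  have hhalf : volume (ball y s) / 2 ≠ ⊤ := by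
    rw [hVb]
    exact (ENNReal.div_lt_top hVtop (by simp)).ne
  have h6 : volume (ball y s) / 2 + volume (ball y s \ S) = volume (ball y s) / 2 + volume (ball y s) / 2 := by
    rw [hsum, ENNReal.add_halves]
  exact (ENNReal.add_right_inj hhalf).1 h6

/-- **LOWER DENSITY BOUND** for entire stationary boundaries. -/
theorem rg_lo (n : ℕ) (hn : 1 ≤ n) : ∃ c : ℝ, 0 < c ∧ ∀ S : Set (E n), RgaSt S → ∀ x ∈ gmtBd S, ∀ ρ, 0 < ρ →
    c ≤ gmtI S x ρ := by
  obtain ⟨C, hC, hiso⟩ := gmt_rel_iso_weak n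
  have hom := gmtQd_gmtOm_pos n
  set c : ℝ := gmtOm n / (2 ^ n * C) with hc
  have hcpos : 0 < c := by positivity
  refine ⟨c, hcpos, ?_⟩
  intro S hS x hx ρ hρ
  have key : ∀ η > 0, ∃ y ∈ ball x η, c ≤ gmtI S y ρ := by
    intro η hη
    obtain ⟨y, hy, s, hs, hsρ, h1, h2⟩ := rg_half_ball hS.meas hx hη (half_pos hρ)
    refine ⟨y, hy, ?_⟩
    have h3 := hiso S y s hS.meas hs
    rw [h1, h2, min_self, ← gmtMu_open S isOpen_ball] at h3
    have hfin : gmtMu S (closedBall y s) ≠ ⊤ :=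
      gmtMu_compact_ne_top isOpen_univ hS.lf (isCompact_closedBall y s) (subset_univ _)
    have hvol : (volume (ball y s)).toReal = gmtOm n * s ^ n := by
      have := gmtVolB_univ y hs
      simpa [gmtVolB] using this
    set M : ℝ := (gmtMu S (closedBall y s)).toReal with hM
    have h4 : gmtOm n * s ^ n / 2 ≤ C * s * M := by
      have h5 : volume (ball y s) / 2 ≤ ENNReal.ofReal (C * s) * gmtMu S (closedBall y s) :=
        h3.trans (mul_le_mul_right (measure_mono ball_subset_closedBall) _)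
      have h6 := ENNReal.toReal_mono (ENNReal.mul_ne_top ENNReal.ofReal_ne_top hfin) h5
      rw [ENNReal.toReal_div, ENNReal.toReal_mul, ENNReal.toReal_ofReal (by positivity), hvol] at h6
      simpa using h6
    have h7 := ball_le_gmtI (hS.lf.mono (subset_univ (ball y (2 * s + 1)))) (ρ := 2 * s) (by linarith)
      (by linarith)
    have e : 2 * s / 2 = s := by ring
    rw [e] at h7
    have h8 := rg_I_mono hn hS y (show (2 * s) ∈ Ioi (0 : ℝ) from by simp only [mem_Ioi]; linarith)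
      (show ρ ∈ Ioi (0 : ℝ) from hρ) (by linarith)
    have h9 : c ≤ ((2 * s) ^ (n - 1))⁻¹ * M := by
      obtain ⟨k, rfl⟩ : ∃ k, n = k + 1 := ⟨n - 1, by omega⟩
      simp only [Nat.add_sub_cancel]
      have h10 : gmtOm (k + 1) * s ^ k ≤ 2 * C * M := by
        have h11 : s * (gmtOm (k + 1) * s ^ k) ≤ s * (2 * C * M) := by
          rw [pow_succ] at h4
          linarith
        exact le_of_mul_le_mul_left h11 hs
      have hsk : 0 < s ^ k := pow_pos hs k
      rw [hc, div_le_iff₀ (by positivity)]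
      calc gmtOm (k + 1) = (gmtOm (k + 1) * s ^ k) / s ^ k := by field_simp
        _ ≤ (2 * C * M) / s ^ k := by gcongr
        _ = ((2 * s) ^ k)⁻¹ * M * (2 ^ (k + 1) * C) := by
          rw [mul_pow]
          field_simp
          ring
    exact h9.trans (h7.trans h8)
  by_contra hlt
  push Not at hlt
  have hev : ∀ᶠ y in 𝓝 x, gmtI S y ρ < c :=
    (gmtI_continuous hS.lf hρ).continuousAt.eventually_lt continuousAt_const hlt
  obtain ⟨η, hη, hsub⟩ := Metric.eventually_nhds_iff_ball.1 hev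
  obtain ⟨y, hy, hcy⟩ := key η hη
  exact absurd (hsub y hy) (not_lt.2 hcy)

theorem rg_lo_ball (n : ℕ) (hn : 1 ≤ n) : ∃ c : ℝ, 0 < c ∧ ∀ S : Set (E n), RgaSt S → ∀ x ∈ gmtBd S, ∀ r, 0 < r →
    ENNReal.ofReal (c * r ^ (n - 1)) ≤ gmtMu S (ball x r) := by
  obtain ⟨c, hc, h⟩ := rg_lo n hn
  refine ⟨c / 2 ^ (n - 1), by positivity, ?_⟩
  intro S hS x hx r hr
  have hfin : gmtMu S (closedBall x (r / 2)) ≠ ⊤ :=
    gmtMu_compact_ne_top isOpen_univ hS.lf (isCompact_closedBall x _) (subset_univ _)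
  have h1 := gmtI_le_ball (S := S) (x := x) (ρ := r / 2) (by linarith) hfin
  have h2 := h S hS x hx (r / 2) (by linarith)
  have h3 : c * (r / 2) ^ (n - 1) ≤ (gmtMu S (closedBall x (r / 2))).toReal := by
    have hp : 0 < (r / 2) ^ (n - 1) := by positivity
    have h4 := h2.trans h1
    rwa [← div_eq_inv_mul, le_div_iff₀ hp] at h4
  calc ENNReal.ofReal (c / 2 ^ (n - 1) * r ^ (n - 1)) = ENNReal.ofReal (c * (r / 2) ^ (n - 1)) := by
        congr 1
        rw [div_pow]
        ring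
    _ ≤ ENNReal.ofReal (gmtMu S (closedBall x (r / 2))).toReal := ENNReal.ofReal_le_ofReal h3
    _ = gmtMu S (closedBall x (r / 2)) := ENNReal.ofReal_toReal hfin
    _ ≤ gmtMu S (ball x r) := measure_mono (closedBall_subset_ball (by linarith))

/-- local upper density bound (monotonicity + local finiteness). -/
theorem rg_up_ball (hn : 1 ≤ n) {S : Set (E n)} (hS : RgaSt S) (x : E n) (R : ℝ) (hR : 0 < R) :
    ∃ C : ℝ, 0 < C ∧ ∀ y ∈ ball x R, ∀ r, 0 < r → r ≤ R → gmtMu S (ball y r) ≤ ENNReal.ofReal (C * r ^ (n - 1)) := by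
  have hfinc : ∀ (y : E n) (ρ : ℝ), gmtMu S (closedBall y ρ) ≠ ⊤ := fun y ρ =>
    gmtMu_compact_ne_top isOpen_univ hS.lf (isCompact_closedBall y _) (subset_univ _)
  set A : ℝ := ((2 * R) ^ (n - 1))⁻¹ * (gmtMu S (closedBall x (3 * R))).toReal with hA
  have hA0 : 0 ≤ A := by positivity
  refine ⟨A * 2 ^ (n - 1) + 1, by positivity, ?_⟩
  intro y hy r hr hrR
  have h1 := ball_le_gmtI (hS.lf.mono (subset_univ (ball y (2 * r + 1)))) (ρ := 2 * r) (by linarith)
    (by linarith)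
  have e : 2 * r / 2 = r := by ring
  rw [e] at h1
  have h2 := rg_I_mono hn hS y (show (2 * r) ∈ Ioi (0 : ℝ) from by simp only [mem_Ioi]; linarith)
    (show (2 * R) ∈ Ioi (0 : ℝ) from by simp only [mem_Ioi]; linarith) (by linarith)
  have h3 := gmtI_le_ball (S := S) (x := y) (ρ := 2 * R) (by linarith) (hfinc _ _)
  have h4 : (gmtMu S (closedBall y (2 * R))).toReal ≤ (gmtMu S (closedBall x (3 * R))).toReal := by
    refine ENNReal.toReal_mono (hfinc _ _) (measure_mono ?_)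
    intro z hz
    have h5 : dist z y ≤ 2 * R := hz
    have h6 : dist y x < R := hy
    have := dist_triangle z y x
    show dist z x ≤ 3 * R
    linarith
  have h5 : ((2 * r) ^ (n - 1))⁻¹ * (gmtMu S (closedBall y r)).toReal ≤ A :=
    h1.trans (h2.trans (h3.trans (mul_le_mul_of_nonneg_left h4 (by positivity))))
  have hp : 0 < (2 * r) ^ (n - 1) := by positivity
  have h6 : (gmtMu S (closedBall y r)).toReal ≤ A * (2 * r) ^ (n - 1) := by
    rwa [← div_eq_inv_mul, div_le_iff₀ hp] at h5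
  calc gmtMu S (ball y r) ≤ gmtMu S (closedBall y r) := measure_mono ball_subset_closedBall
    _ = ENNReal.ofReal (gmtMu S (closedBall y r)).toReal := (ENNReal.ofReal_toReal (hfinc _ _)).symm
    _ ≤ ENNReal.ofReal ((A * 2 ^ (n - 1) + 1) * r ^ (n - 1)) := by
      apply ENNReal.ofReal_le_ofReal
      rw [mul_pow] at h6
      have : 0 ≤ r ^ (n - 1) := by positivity
      nlinarith

theorem rg_Th_pos (n : ℕ) (hn : 1 ≤ n) : ∃ c : ℝ, 0 < c ∧ ∀ S : Set (E n), RgaSt S → ∀ x ∈ gmtBd S, c ≤ gmtTh S x := by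
  obtain ⟨c, hc, h⟩ := rg_lo n hn
  refine ⟨c, hc, fun S hS x hx => ?_⟩
  refine ge_of_tendsto (rg_Th_tendsto hn hS x) ?_
  filter_upwards [self_mem_nhdsWithin] with ρ hρ
  exact h S hS x hx ρ hρ

/-- the vertex of a blow-up at a boundary point is a boundary point. -/
theorem rg_blow_bd (hn : 1 ≤ n) {S S' : Set (E n)} (hS : RgaSt S) (hS' : RgaSt S') {x : E n} (hx : x ∈ gmtBd S)
    {r : ℕ → ℝ} (hr : ∀ j, 0 < r j) (hr0 : Tendsto r atTop (𝓝 0)) (hb : BlowTo S x r S') : (0 : E n) ∈ gmtBd S' := by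
  obtain ⟨c, hc, h⟩ := rg_Th_pos n hn
  obtain ⟨-, hI⟩ := rg_blow_cone hn hS hS' hr hr0 hb
  rw [gmtBd_iff_gmtMu hS'.meas]
  intro ρ hρ
  by_contra hcon
  have h0 : gmtMu S' (ball 0 ρ) = 0 := by simpa using hcon
  have h1 : gmtMu S' (closedBall 0 (ρ / 2)) = 0 :=
    measure_mono_null (closedBall_subset_ball (by linarith)) h0
  have h2 := gmtI_le_ball (S := S') (x := 0) (ρ := ρ / 2) (by linarith) (by rw [h1]; simp)
  rw [h1, hI _ (by linarith)] at h2
  have := h S hS x hx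
  simp at h2
  linarith

end Claimed.Agent.R323
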