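import Claimed.Agent.R323.Rg.Al0
import Claimed.Agent.R323.Rg.Mono

/-!
# Row 323, block D(7) ALLARD-LITE (architect: helper281).   File 1: monotonicity, lower density bound (= `rg_lo` of helper36, `Rg/Mono.lean`).   ALL PROVED.

`rga_lower` (soft proof, no De Giorgi structure theorem).   Let `x ∈ gmtBd S`, `I(x,ρ₀) < c`.  By monotonicity and `gmtI_le_ball`, `ball_le_gmtI`: `μ(B_r(y)) ≤ C c r^n` for all `y ∈ B_{ρ₀/4}(x)`, `r ≤ ρ₀/8`.
Relative isoperimetric/Poincaré inequality (`Lib/Gmt/BvPoinc.lean`): the volume fraction `f(y,r) = |S ∩ B_r(y)|/|B_r|` satisfies `f(1-f) ≤ C' c`, so `f ∉ [1/4,3/4]` for `c` small; `f` is continuous in `(y,r)` on a connected set: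
either `f < 1/4` everywhere or `f > 3/4` everywhere; Lebesgue density: `S ∩ B_{ρ₀/4}(x)` is null or conull: `x ∉ gmtBd S`.
-/

set_option autoImplicit false
open scoped ContDiff ENNReal NNReal RealInnerProductSpace Topology
open MeasureTheory Metric Set Filter

namespace Claimed.Agent.R323

open Claimed.Agent.Gmt

variable {m n : ℕ}

theorem RgaSt.lfOn {S : Set (E m)} (h : RgaSt S) (U : Set (E m)) : GmtLF S U :=
  ⟨h.lf.1, fun W hW => h.lf.2 W ⟨hW.1, hW.2.1, subset_univ _⟩⟩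

/-- MONOTONICITY for stationary boundaries. -/
theorem rga_mono (hm : 1 ≤ m) {S : Set (E m)} (h : RgaSt S) (x : E m) : MonotoneOn (gmtI S x) (Ioi 0) := by
  have hder : ∀ ρ ∈ Ioi (0 : ℝ), HasDerivAt (gmtI S x) ((ρ ^ m)⁻¹ * gmtDef S x ρ) ρ := by
    intro ρ hρ
    have hρ0 : 0 < ρ := hρ
    have h1 := gmtI_hasDerivAt hm (h.lfOn (ball x (ρ + 1))) hρ0 (by linarith)
    have h3 := gmtRad_test x hρ0 (show ρ < ρ + 1 by linarith)
    have h2 : gmtDelta S (gmtRad x ρ) = 0 := h.stat _ ⟨h3.smooth, h3.cpt, subset_univ _⟩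
    rwa [h2, sub_zero] at h1
  refine monotoneOn_of_deriv_nonneg (convex_Ioi 0)
    (fun ρ hρ => (hder ρ hρ).continuousAt.continuousWithinAt) ?_ ?_
  · rw [interior_Ioi]
    exact fun ρ hρ => (hder ρ hρ).differentiableAt.differentiableWithinAt
  · rw [interior_Ioi]
    intro ρ hρ
    have hρ0 : 0 < ρ := hρ
    rw [(hder ρ hρ).deriv]
    exact mul_nonneg (inv_nonneg.2 (pow_nonneg hρ0.le _)) (gmtDef_nonneg S x hρ0)

/-- LOWER DENSITY BOUND at boundary points.   (INPUT: helper36.) -/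
theorem rga_lower (n : ℕ) : ∃ c : ℝ, 0 < c ∧ ∀ S : Set (E (n + 1)), RgaSt S → ∀ x ∈ gmtBd S, ∀ ρ : ℝ, 0 < ρ →
    c ≤ gmtI S x ρ :=
  rg_lo (n + 1) (by omega)

end Claimed.Agent.R323
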