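import Claimed.Agent.R323.Rg.Al0a
import Claimed.Agent.R323.Rg.Al0b
import Claimed.Agent.R323.Rg.Al0c
import Claimed.Agent.R323.Rg.Al1

/-!
# Row 323, block D(7) ALLARD-LITE (architect: helper281).   File 2: the class `RgaN` is invariant under recentring, rotations and dilations.   ALL PROVED (helper281).
-/

set_option autoImplicit false
open scoped ContDiff ENNReal NNReal RealInnerProductSpace Topology
open MeasureTheory Metric Set Filter

namespace Claimed.Agent.R323

open Claimed.Agent.Gmt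

variable {m n : ℕ}

theorem RgaSt.blow {S : Set (E m)} (h : RgaSt S) (O : E m ≃ₗᵢ[ℝ] E m) (z : E m) {r : ℝ} (hr : 0 < r) :
    RgaSt (gmtBlow O.toContinuousLinearEquiv z r S) := by
  rw [rga_blow_eq]
  exact (h.dil z hr).rot O

variable {δ R R' r : ℝ} {S : Set (E (n + 1))} {x z : E (n + 1)}

theorem RgaN.mono (h : RgaN δ S x R) (hR : R' ≤ R) : RgaN δ S x R' :=
  ⟨h.st, fun z hz hzR ρ hρ hρR => h.up z hz (ball_subset_ball hR hzR) ρ hρ (hρR.trans hR)⟩

theorem RgaN.recentre (h : RgaN δ S x R) (hz : z ∈ ball x (R / 2)) : RgaN δ S z (R / 2) := by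
  have hR : 0 < R := by
    have := dist_nonneg.trans_lt (mem_ball.1 hz)
    linarith
  refine ⟨h.st, fun y hy hyR ρ hρ hρR => h.up y hy ?_ ρ hρ (by linarith)⟩
  have h1 : dist y z < R / 2 := hyR
  have h2 : dist z x < R / 2 := hz
  have := dist_triangle y z x
  rw [mem_ball]
  linarith

theorem RgaN.blow (h : RgaN δ S x R) (O : E (n + 1) ≃ₗᵢ[ℝ] E (n + 1)) (hr : 0 < r) :
    RgaN δ (gmtBlow O.toContinuousLinearEquiv x r S) 0 (R / r) := by
  refine ⟨h.st.blow O x hr, fun y hy hyR ρ hρ hρR => ?_⟩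
  rw [gmtBd_gmtBlow _ _ hr] at hy
  have hy' : gmtAff O.toContinuousLinearEquiv x r y ∈ gmtBd S := hy
  rw [gmtI_gmtBlow O x hr h.st.lf.1]
  refine h.up _ hy' ?_ _ (by positivity) ?_
  · rw [mem_ball, dist_zero_right, lt_div_iff₀ hr] at hyR
    rw [mem_ball, dist_eq_norm, gmtAff, add_sub_cancel_left, norm_smul, Real.norm_eq_abs, abs_of_pos hr]
    have : ‖O.toContinuousLinearEquiv.symm y‖ = ‖y‖ := O.symm.norm_map y
    rw [this]
    linarith
  · rw [le_div_iff₀ hr] at hρR
    linarith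

end Claimed.Agent.R323
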