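import Claimed.Agent.R323.Rg.Al0
import Claimed.Agent.Lib.Gmt.FlFlux

/-!
# Row 323, block D(7) ALLARD-LITE (architect: helper281).   File 3a = LEAF L-RGA-FLUX: the flux identity on the disc of radius `3` WITHOUT the excess hypothesis.

COPY-ADAPT of `Lib/Gmt/FlFlux2.lean` (`fl_mu_slab`, `fl_slice`) and `Lib/Gmt/FlFlux3.lean` (`fl_flux`): there the hypothesis is `H : FlUnit ..`, but only `H.gg`, `H.flat`, `H.hε`, `H.hε'` are used; the radius `1` of the disc becomes `3`.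
* `{‖hor y‖ ≤ 3, |ver y| ≤ 1} ⊆ ball 0 4` (`fl_norm_sq`: `‖y‖² ≤ 10 < 16`): `rga_cyl3`.
* `rga_mu_slab`: literally the proof of `fl_mu_slab`.
* `rga_slice`: the proof of `fl_slice` with `rga_cyl3`.   (`FlxSl`, `flxA`, `flx_slice_eta'`, `flx_indicator` of `FlFlux3.lean` can be cited.)
* `rga_flux`: the proof of `fl_flux`, `T = flVert (flPr ψ flEta)`; test field: `⟨ha.smul contDiff_const, compact support, tsupport ⊆ ball 0 4⟩` (`flv_tsupport`, `fl_pr_tsupport`); do NOT remove `flEta` on the right side.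
* `rga_flux_le`: `gmtVer (ν y) ≤ ‖ν y‖ ≤ 1` (`fl_abs_ver_le`, `gg.le1`), `0 ≤ ψ flEta`; both integrands are bounded measurable with support in the compact `{‖hor‖ ≤ 3, |ver| ≤ 3/4} ⊆ ball 0 4` (`FlGG.integrableOn`, `gg.mν`), `integral_mono`.
-/

set_option autoImplicit false
open scoped ContDiff ENNReal NNReal RealInnerProductSpace Topology
open MeasureTheory Metric Set Filter

namespace Claimed.Agent.R323

open Claimed.Agent.Gmt

variable {n : ℕ} {ε : ℝ} {S : Set (E (n + 1))} {μ : Measure (E (n + 1))} {ν : E (n + 1) → E (n + 1)}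

theorem rga_cyl3 {y : E (n + 1)} (h1 : ‖gmtHor y‖ ≤ 3) (h2 : |gmtVer y| ≤ 1) : y ∈ ball (0 : E (n + 1)) 4 := by
  have h := fl_norm_sq y
  have h3 : gmtVer y ^ 2 ≤ 1 := by rw [← sq_abs]; nlinarith [abs_nonneg (gmtVer y)]
  have h4 : ‖gmtHor y‖ ^ 2 ≤ 9 := by nlinarith [norm_nonneg (gmtHor y)]
  simp only [mem_ball, dist_zero_right]
  nlinarith [norm_nonneg y]

/-- `μ` lives in the slab. -/
theorem rga_mu_slab (gg : FlGG (ball 0 4) S μ ν) (flat : FlFlat S 0 4 (ε / 4) (gmtEn n)) :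
    μ {y | y ∈ ball (0 : E (n + 1)) 4 ∧ ε < |gmtVer y|} = 0 := by
  have hε' : ε / 4 * 4 = ε := by ring
  have h1 : μ (ball (0 : E (n + 1)) 4 ∩ {y | ε < gmtVer y}) = 0 := by
    refine gg.null_of_ae_not_mem isOpen_ball
      (isOpen_ball.inter (isOpen_lt continuous_const fl_continuous_ver)) inter_subset_left ?_
    filter_upwards [flat.above] with y hy hyW
    apply hy hyW.1
    rw [hε', sub_zero, ← fl_ver_eq_inner]
    exact hyW.2
  have h2 : μ (ball (0 : E (n + 1)) 4 ∩ {y | gmtVer y < -ε}) = 0 := by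
    refine gg.null_of_ae_mem isOpen_ball
      (isOpen_ball.inter (isOpen_lt fl_continuous_ver continuous_const)) inter_subset_left ?_
    filter_upwards [flat.below] with y hy hyW
    apply hy hyW.1
    rw [hε', sub_zero, ← fl_ver_eq_inner]
    exact hyW.2
  rw [← nonpos_iff_eq_zero]
  calc μ {y | y ∈ ball (0 : E (n + 1)) 4 ∧ ε < |gmtVer y|}
      ≤ μ ((ball (0 : E (n + 1)) 4 ∩ {y | ε < gmtVer y}) ∪
          (ball (0 : E (n + 1)) 4 ∩ {y | gmtVer y < -ε})) := by
        apply measure_mono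
        rintro y ⟨hy1, hy2⟩
        rcases lt_abs.1 hy2 with h | h
        · exact Or.inl ⟨hy1, h⟩
        · exact Or.inr ⟨hy1, by show gmtVer y < -ε; linarith⟩
    _ ≤ _ := measure_union_le _ _
    _ = 0 := by rw [h1, h2, add_zero]

theorem rga_slice (hε : 0 < ε) (flat : FlFlat S 0 4 (ε / 4) (gmtEn n)) :
    ∀ᵐ z : E n, ‖z‖ < 3 → FlxSl (flxA S z) ε := by
  have hε' : ε / 4 * 4 = ε := by ring
  filter_upwards [fl_ae_join flat.below, fl_ae_join flat.above] with z a1 a2 hz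
  have hball : ∀ t : ℝ, |t| < 1 → gmtJoin z t ∈ ball (0 : E (n + 1)) 4 := by
    intro t ht
    exact rga_cyl3 (by rw [fl_hor_join]; exact hz.le) (by rw [fl_ver_join]; exact ht.le)
  constructor
  · filter_upwards [a1] with t ht htI
    apply ht (hball t (abs_lt.2 ⟨htI.1, by linarith [htI.2]⟩))
    rw [hε', sub_zero, ← fl_ver_eq_inner, fl_ver_join]
    exact htI.2
  · filter_upwards [a2] with t ht htI
    apply ht (hball t (abs_lt.2 ⟨by linarith [htI.1], htI.2⟩))
    rw [hε', sub_zero, ← fl_ver_eq_inner, fl_ver_join]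
    exact htI.1

theorem rga_fx_psi_zero {ψ : E n → ℝ} (hs : tsupport ψ ⊆ ball 0 3) {z : E n} (hz : ¬ ‖z‖ < 3) : ψ z = 0 :=
  image_eq_zero_of_notMem_tsupport fun h => hz (by simpa using hs h)

theorem rga_cyl3_closedBall : {y : E (n + 1) | ‖gmtHor y‖ ≤ 3 ∧ |gmtVer y| ≤ 1} ⊆ closedBall 0 4 :=
  fun _ hy => ball_subset_closedBall (rga_cyl3 hy.1 hy.2)

theorem rga_compact {a : E (n + 1) → ℝ}
    (hs : tsupport a ⊆ {y | ‖gmtHor y‖ ≤ 3 ∧ |gmtVer y| ≤ 1}) : HasCompactSupport a :=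
  (isCompact_closedBall (0 : E (n + 1)) 4).of_isClosed_subset (isClosed_tsupport _) (hs.trans rga_cyl3_closedBall)

theorem rga_pr_supp {ψ : E n → ℝ} (hs : tsupport ψ ⊆ ball 0 3) :
    tsupport (flPr ψ flEta) ⊆ {y : E (n + 1) | ‖gmtHor y‖ ≤ 3 ∧ |gmtVer y| ≤ 1} :=
  (fl_pr_tsupport (hs.trans ball_subset_closedBall)
    (fun t ht => fl_eta_props.2.2.2 t ht)).trans fun y hy => ⟨hy.1, hy.2.trans (by norm_num)⟩

/-- the flux identity. -/
theorem rga_flux (hε : 0 < ε) (hε' : ε ≤ 1 / 4) (gg : FlGG (ball 0 4) S μ ν)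
    (flat : FlFlat S 0 4 (ε / 4) (gmtEn n)) {ψ : E n → ℝ} (hψ : ContDiff ℝ 1 ψ) (hs : tsupport ψ ⊆ ball 0 3) :
    ∫ y, ψ (gmtHor y) * flEta (gmtVer y) * gmtVer (ν y) ∂μ = ∫ z, ψ z := by
  set a := flPr ψ flEta with hadef
  have ha : ContDiff ℝ 1 a :=
    fl_pr_contDiff (N := 1) (by exact_mod_cast hψ) (fl_eta_props.1.of_le (by simp))
  have had : Differentiable ℝ a := ha.differentiable (by simp)
  have hsupp : tsupport a ⊆ {y | ‖gmtHor y‖ ≤ 3 ∧ |gmtVer y| ≤ 1} := rga_pr_supp hs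
  have hT : GmtTest (ball 0 4) (flVert a) :=
    ⟨ha.smul contDiff_const,
      (rga_compact hsupp).mono' ((subset_tsupport _).trans (flv_tsupport a)),
      (flv_tsupport a).trans (hsupp.trans fun _ hy => rga_cyl3 hy.1 hy.2)⟩
  have hgg := gg.gg _ hT
  have eR : ∫ y, ⟪flVert a y, ν y⟫ ∂μ = ∫ y, ψ (gmtHor y) * flEta (gmtVer y) * gmtVer (ν y) ∂μ := by
    simp only [fl_vert_inner]
    rfl
  have hdiv : ∀ y, gmtDiv (flVert a) y = ψ (gmtHor y) * deriv flEta (gmtVer y) := fun y => by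
    rw [fl_vert_div (had y), fl_pr_fderiv ((hψ.differentiable (by simp)) _)
      (flx_eta_differentiable _), fl_hor_en, fl_ver_en, map_zero]
    ring
  have hgi : Integrable fun y : E (n + 1) => ψ (gmtHor y) * deriv flEta (gmtVer y) := by
    have h1 : (fun y : E (n + 1) => ψ (gmtHor y) * deriv flEta (gmtVer y))
        = fun y => fderiv ℝ a y (gmtEn n) := by
      funext y
      rw [← hdiv y, fl_vert_div (had y)]
    rw [h1]
    exact ((ha.continuous_fderiv (by simp)).clm_apply continuous_const).integrable_of_hasCompactSupport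
      ((rga_compact hsupp).fderiv_apply ℝ _)
  have eL : ∫ y in S, gmtDiv (flVert a) y = ∫ z, ψ z := by
    simp only [hdiv]
    rw [← integral_indicator gg.mS, fl_integral_join (hgi.indicator gg.mS)]
    refine integral_congr_ae ?_
    filter_upwards [rga_slice hε flat] with z hz
    simp only [flx_indicator, fl_hor_join, fl_ver_join]
    by_cases h1 : ‖z‖ < 3
    · have := flx_slice_eta' hε hε' (hz h1)
      calc ∫ t, (flxA S z).indicator (fun _ => (1 : ℝ)) t * (ψ z * deriv flEta t)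
          = ∫ t, ψ z * ((flxA S z).indicator (fun _ => (1 : ℝ)) t * deriv flEta t) := by
            congr 1; funext t; ring
        _ = ψ z := by rw [integral_const_mul, this, mul_one]
    · rw [rga_fx_psi_zero hs h1]
      simp
  rw [← eR, ← hgg, eL]

/-- the projection of `μ` dominates the Lebesgue measure. -/
theorem rga_flux_le (hε : 0 < ε) (hε' : ε ≤ 1 / 4) (gg : FlGG (ball 0 4) S μ ν)
    (flat : FlFlat S 0 4 (ε / 4) (gmtEn n)) {ψ : E n → ℝ} (hψ : ContDiff ℝ 1 ψ) (hs : tsupport ψ ⊆ ball 0 3)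
    (h0 : ∀ z, 0 ≤ ψ z) :
    ∫ z, ψ z ≤ ∫ y, ψ (gmtHor y) * flEta (gmtVer y) ∂μ := by
  rw [← rga_flux hε hε' gg flat hψ hs]
  have hsupp : tsupport (flPr ψ flEta) ⊆ {y : E (n + 1) | ‖gmtHor y‖ ≤ 3 ∧ |gmtVer y| ≤ 1} := rga_pr_supp hs
  have hcs : HasCompactSupport (flPr ψ flEta : E (n + 1) → ℝ) := rga_compact hsupp
  have hac : Continuous (flPr ψ flEta : E (n + 1) → ℝ) :=
    (hψ.continuous.comp fl_continuous_hor).mul (fl_eta_props.1.continuous.comp fl_continuous_ver)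
  obtain ⟨M, hM⟩ := hcs.exists_bound_of_continuous hac
  have hK : IsCompact (tsupport (flPr ψ flEta : E (n + 1) → ℝ)) := hcs
  have hKU : tsupport (flPr ψ flEta : E (n + 1) → ℝ) ⊆ ball 0 4 := hsupp.trans fun _ hy => rga_cyl3 hy.1 hy.2
  have hvt : ∀ y, |gmtVer (ν y)| ≤ 1 := fun y => (fl_abs_ver_le _).trans (gg.le1 y)
  have hmvt : Measurable fun y => gmtVer (ν y) := fl_continuous_ver.measurable.comp gg.mν
  have hM0 : 0 ≤ M := (norm_nonneg _).trans (hM 0)
  have i1 : Integrable (fun y : E (n + 1) => flPr ψ flEta y) μ := by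
    have := gg.integrableOn hK hKU hac.measurable (M := M) (fun y => by rw [← Real.norm_eq_abs]; exact hM y)
    exact (integrableOn_iff_integrable_of_support_subset (subset_tsupport _)).1 this
  have i2 : Integrable (fun y : E (n + 1) => flPr ψ flEta y * gmtVer (ν y)) μ := by
    have := gg.integrableOn hK hKU (F := fun y => flPr ψ flEta y * gmtVer (ν y)) (hac.measurable.mul hmvt) (M := M) (fun y => by
      rw [abs_mul]
      calc |flPr ψ flEta y| * |gmtVer (ν y)| ≤ M * 1 :=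
            mul_le_mul (by rw [← Real.norm_eq_abs]; exact hM y) (hvt y) (abs_nonneg _) hM0
        _ = M := mul_one _)
    refine (integrableOn_iff_integrable_of_support_subset ?_).1 this
    intro y hy
    apply subset_tsupport
    intro h
    apply hy
    show flPr ψ flEta y * gmtVer (ν y) = 0
    rw [h, zero_mul]
  refine integral_mono i2 i1 fun y => ?_
  show ψ (gmtHor y) * flEta (gmtVer y) * gmtVer (ν y) ≤ ψ (gmtHor y) * flEta (gmtVer y)
  have h1 : 0 ≤ ψ (gmtHor y) * flEta (gmtVer y) := mul_nonneg (h0 _) (fl_eta_props.2.1 _).1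
  have h2 : gmtVer (ν y) ≤ 1 := (le_abs_self _).trans (hvt y)
  nlinarith

end Claimed.Agent.R323
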