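import Claimed.Agent.R323.Rg.Al3a
import Claimed.Agent.R323.Rg.Al0c

/-!
# Row 323, block D(7) ALLARD-LITE (architect: helper281).   File 3b = LEAF L-RGA-EXC: the excess bound from the smoothed density ratio.

`K(y) = gmtPhi (‖y‖/3)`, `ψ_ε(z) = rgaPsi n ε z = gmtPhi (√(‖z‖²+ε²)/3)`, `η = flEta`.
* `rga_psi_props`: `z ↦ ‖z‖² + ε²` is smooth and `> 0`, `Real.sqrt` is smooth off `0` (`ContDiff.sqrt`), `gmtPhi_contDiff`.   Support: `ψ_ε z ≠ 0 ⇒ √(..)/3 < 1 ⇒ ‖z‖² ≤ 9 - ε²` (closed condition) `⇒ ‖z‖ < 3`.   `= 1`: `√(1+1/16)/3 ≤ 1/2`, `gmtPhi_eq_one`.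
* `rga_psi_le`: `‖y‖ = √(‖hor y‖² + (ver y)²) ≤ √(‖hor y‖²+ε²)` (`fl_norm_sq`), `gmtPhi_antitone`.
* `rga_psi_int`: `L` = bound of `|gmtPhi'|` (`gmtPhi_deriv_bound`; mean value inequality `Convex.norm_image_sub_le_of_norm_deriv_le`): `gmtPhi (‖z‖/3) - ψ_ε z ≤ L (√(‖z‖²+ε²) - ‖z‖)/3 ≤ L ε/3`, and `= 0` for `‖z‖ ≥ 3`; integrate over `ball 0 3`; `rga_H_scale`.   `C = L/3 · vol(ball 0 3)`.
* `rga_exc_aux`: `rga_flux_le` for `ψ = ψ_ε - χ ≥ 0` (`χ ≤ 1 = ψ_ε` on `ball 0 1 ⊇ supp χ`): `∫ψ_ε - ∫χ ≤ ∫ ψ_ε(hor) η(ver) dμ - ∫ χ(hor) η(ver) dμ`;  `∫ χ ≤ ω_n = gmtOm n` (`gmtOm n = (volume (ball 0 1)).toReal`);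
  `ψ_ε(hor y) η(ver y) ≤ K(y)` for `μ`-a.e. `y`: if `η(ver y) ψ_ε(hor y) ≠ 0` then `y ∈ ball 0 4` (`rga_cyl3`), so `|ver y| ≤ ε` a.e. (`rga_mu_slab`), `rga_psi_le`, `η ≤ 1`.   Integrability: bounded measurable, compact support in `ball 0 4` (`FlGG.integrableOn`).
* `rga_exc_mu`: `χ_j = flxPsi n j ↑ 1_{ball 0 1}` (`flx_Psi_props`, `flx_Psi_eventually`, as in the proof of `fl_flux_full`, `Lib/Gmt/FlFlux3.lean`); dominated convergence: `∫ χ_j(hor) η(ver) dμ → ∫ 1_{‖hor‖<1} η(ver) dμ = μ(flCyl 1)`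
  (`μ`-a.e. on `flCyl 1`: `|ver| ≤ ε`, `η = 1`; on `{‖hor‖<1, |ver| ≥ 1}`: `η = 0`).
* `rga_exc`: `μ = gmtMu S`, `ν = gmtNu S`, `fl_gg_of_lf isOpen_ball` (`Lib/Gmt/FlScale.lean`; or copy its three lines); `∫ K dμ = 3^n gmtI S 0 3` by definition of `gmtI` (`(n+1)-1 = n`); `C = max (3^n rgaH n) C_int + 1`.
-/

set_option autoImplicit false
open scoped ContDiff ENNReal NNReal RealInnerProductSpace Topology
open MeasureTheory Metric Set Filter

namespace Claimed.Agent.R323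

open Claimed.Agent.Gmt

variable {n : ℕ} {ε : ℝ} {S : Set (E (n + 1))} {μ : Measure (E (n + 1))} {ν : E (n + 1) → E (n + 1)}

/-- the horizontal kernel. -/
noncomputable def rgaPsi (n : ℕ) (ε : ℝ) (z : E n) : ℝ := gmtPhi (Real.sqrt (‖z‖ ^ 2 + ε ^ 2) / 3)

theorem rga_psi_continuous (n : ℕ) (ε : ℝ) : Continuous (rgaPsi n ε) := by
  unfold rgaPsi
  exact gmtPhi_contDiff.continuous.comp (by fun_prop)

theorem rga_psi_ne {z : E n} (h : rgaPsi n ε z ≠ 0) : ‖z‖ ^ 2 + ε ^ 2 < 9 := by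
  by_contra hc
  apply h
  unfold rgaPsi
  apply gmtPhi_eq_zero
  rw [le_div_iff₀ (by norm_num), one_mul]
  apply Real.le_sqrt_of_sq_le
  linarith [not_lt.1 hc]

theorem rga_psiE_zero {z : E n} (h : 3 ≤ ‖z‖) : rgaPsi n ε z = 0 := by
  by_contra hc
  have := rga_psi_ne hc
  nlinarith [sq_nonneg ε]

theorem rga_psi_01 (z : E n) : 0 ≤ rgaPsi n ε z ∧ rgaPsi n ε z ≤ 1 := ⟨gmtPhi_nonneg _, gmtPhi_le_one _⟩

theorem rga_psi_compact (n : ℕ) (ε : ℝ) : HasCompactSupport (rgaPsi n ε) := by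
  refine HasCompactSupport.intro (isCompact_closedBall (0 : E n) 3) fun z hz => rga_psiE_zero ?_
  rw [mem_closedBall, dist_zero_right, not_le] at hz
  exact hz.le

theorem rga_psi_integrable (n : ℕ) (ε : ℝ) : Integrable (rgaPsi n ε) :=
  (rga_psi_continuous n ε).integrable_of_hasCompactSupport (rga_psi_compact n ε)

theorem rga_psi_props (hε : 0 < ε) (hε' : ε ≤ 1 / 4) : ContDiff ℝ 1 (rgaPsi n ε) ∧ tsupport (rgaPsi n ε) ⊆ ball 0 3 ∧
    (∀ z, 0 ≤ rgaPsi n ε z ∧ rgaPsi n ε z ≤ 1) ∧ ∀ z, ‖z‖ ≤ 1 → rgaPsi n ε z = 1 := by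
  refine ⟨?_, ?_, rga_psi_01, ?_⟩
  · unfold rgaPsi
    refine (gmtPhi_contDiff.of_le (by simp)).comp ?_
    refine ContDiff.div_const ?_ 3
    refine ContDiff.sqrt ((contDiff_norm_sq ℝ).add contDiff_const) fun z => ?_
    positivity
  · have hcl : IsClosed {z : E n | ‖z‖ ^ 2 + ε ^ 2 ≤ 9} :=
      isClosed_le (by fun_prop) continuous_const
    have h1 : tsupport (rgaPsi n ε) ⊆ {z : E n | ‖z‖ ^ 2 + ε ^ 2 ≤ 9} :=
      closure_minimal (fun z hz => (rga_psi_ne hz).le) hcl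
    intro z hz
    have h2 : ‖z‖ ^ 2 + ε ^ 2 ≤ 9 := h1 hz
    rw [mem_ball, dist_zero_right]
    nlinarith [norm_nonneg z, sq_pos_of_pos hε]
  · intro z hz
    unfold rgaPsi
    apply gmtPhi_eq_one
    rw [div_le_iff₀ (by norm_num)]
    rw [Real.sqrt_le_iff]
    refine ⟨by norm_num, ?_⟩
    nlinarith [norm_nonneg z]

theorem rga_psi_le {y : E (n + 1)} (hy : |gmtVer y| ≤ ε) : rgaPsi n ε (gmtHor y) ≤ gmtPhi (‖y - 0‖ / 3) := by
  unfold rgaPsi
  apply gmtPhi_antitone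
  rw [sub_zero]
  refine div_le_div_of_nonneg_right ?_ (by norm_num)
  apply Real.le_sqrt_of_sq_le
  rw [fl_norm_sq y]
  have : gmtVer y ^ 2 ≤ ε ^ 2 := by
    rw [← sq_abs]
    exact pow_le_pow_left₀ (abs_nonneg _) hy 2
  linarith

theorem rga_phi_lip : ∃ L : ℝ, 0 ≤ L ∧ ∀ a b : ℝ, |gmtPhi a - gmtPhi b| ≤ L * |a - b| := by
  obtain ⟨L, hL0, hL⟩ := gmtPhi_deriv_bound
  refine ⟨L, hL0, fun a b => ?_⟩
  have h := Convex.norm_image_sub_le_of_norm_deriv_le (f := gmtPhi) (s := univ) (C := L) (x := b) (y := a)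
    (fun x _ => (gmtPhi_hasDerivAt x).differentiableAt) (fun x _ => by rw [Real.norm_eq_abs]; exact hL x)
    convex_univ (mem_univ _) (mem_univ _)
  simpa only [Real.norm_eq_abs] using h

theorem rga_ker_integrable (n : ℕ) : Integrable fun z : E n => gmtPhi (‖z‖ / 3) := by
  refine Continuous.integrable_of_hasCompactSupport (gmtPhi_contDiff.continuous.comp (by fun_prop)) ?_
  refine HasCompactSupport.intro (isCompact_closedBall (0 : E n) 3) fun z hz => gmtPhi_eq_zero ?_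
  rw [mem_closedBall, dist_zero_right, not_le] at hz
  rw [le_div_iff₀ (by norm_num)]
  linarith

theorem rga_psi_int (n : ℕ) : ∃ C : ℝ, 0 ≤ C ∧ ∀ ε : ℝ, 0 < ε → 3 ^ n * rgaH n - C * ε ≤ ∫ z, rgaPsi n ε z := by
  obtain ⟨L, hL0, hL⟩ := rga_phi_lip
  refine ⟨L / 3 * (volume (ball (0 : E n) 3)).toReal, by positivity, fun ε hε => ?_⟩
  rw [← rga_H_scale n (by norm_num : (0 : ℝ) < 3), sub_le_iff_le_add, ← sub_le_iff_le_add',
    ← integral_sub (rga_ker_integrable n) (rga_psi_integrable n ε)]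
  have hI : Integrable ((ball (0 : E n) 3).indicator fun _ => L / 3 * ε) :=
    (integrable_indicator_iff measurableSet_ball).2 (integrableOn_const (measure_ball_lt_top).ne)
  have e : L / 3 * (volume (ball (0 : E n) 3)).toReal * ε = ∫ z, (ball (0 : E n) 3).indicator (fun _ => L / 3 * ε) z := by
    rw [integral_indicator measurableSet_ball, setIntegral_const, smul_eq_mul, measureReal_def]
    ring
  rw [e]
  refine integral_mono ((rga_ker_integrable n).sub (rga_psi_integrable n ε)) hI fun z => ?_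
  by_cases hz : ‖z‖ < 3
  · rw [indicator_of_mem (by simpa using hz)]
    have h1 := hL (‖z‖ / 3) (Real.sqrt (‖z‖ ^ 2 + ε ^ 2) / 3)
    have h2 : ‖z‖ ≤ Real.sqrt (‖z‖ ^ 2 + ε ^ 2) := Real.le_sqrt_of_sq_le (by nlinarith [sq_nonneg ε])
    have h3 : Real.sqrt (‖z‖ ^ 2 + ε ^ 2) ≤ ‖z‖ + ε := by
      rw [Real.sqrt_le_iff]
      refine ⟨by positivity, ?_⟩
      nlinarith [norm_nonneg z]
    have h4 : |‖z‖ / 3 - Real.sqrt (‖z‖ ^ 2 + ε ^ 2) / 3| ≤ ε / 3 := by
      rw [abs_le]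
      constructor <;> linarith
    show gmtPhi (‖z‖ / 3) - gmtPhi (Real.sqrt (‖z‖ ^ 2 + ε ^ 2) / 3) ≤ L / 3 * ε
    calc gmtPhi (‖z‖ / 3) - gmtPhi (Real.sqrt (‖z‖ ^ 2 + ε ^ 2) / 3) ≤ _ := le_abs_self _
      _ ≤ L * |‖z‖ / 3 - Real.sqrt (‖z‖ ^ 2 + ε ^ 2) / 3| := h1
      _ ≤ L * (ε / 3) := mul_le_mul_of_nonneg_left h4 hL0
      _ = L / 3 * ε := by ring
  · rw [indicator_of_notMem (by simpa using hz)]
    have h1 : gmtPhi (‖z‖ / 3) = 0 := gmtPhi_eq_zero (by rw [le_div_iff₀ (by norm_num)]; linarith [not_lt.1 hz])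
    show gmtPhi (‖z‖ / 3) - rgaPsi n ε z ≤ 0
    rw [h1]
    linarith [(rga_psi_01 (ε := ε) z).1]

/-- bounded measurable functions which vanish off `closedBall 0 (7/2)` are `μ`-integrable -/
theorem rga_int_mu (gg : FlGG (ball 0 4) S μ ν) {F : E (n + 1) → ℝ} (hF : Measurable F) {M : ℝ} (hM : ∀ y, |F y| ≤ M)
    (h0 : ∀ y, 7 / 2 < ‖y‖ → F y = 0) : Integrable F μ := by
  refine (gg.integrableOn (isCompact_closedBall (0 : E (n + 1)) (7 / 2)) (closedBall_subset_ball (by norm_num)) hF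
    hM).integrable_of_forall_notMem_eq_zero fun y hy => h0 y ?_
  rw [mem_closedBall, dist_zero_right, not_le] at hy
  exact hy

/-- product functions -/
theorem rga_int_pr (gg : FlGG (ball 0 4) S μ ν) {f : E n → ℝ} (hf : Continuous f) (h01 : ∀ z, 0 ≤ f z ∧ f z ≤ 1)
    (h0 : ∀ z, 3 ≤ ‖z‖ → f z = 0) : Integrable (fun y => f (gmtHor y) * flEta (gmtVer y)) μ := by
  refine rga_int_mu gg (M := 1) ?_ ?_ ?_
  · exact ((hf.comp fl_continuous_hor).mul (fl_eta_props.1.continuous.comp fl_continuous_ver)).measurable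
  · intro y
    have h1 := h01 (gmtHor y)
    have h2 := fl_eta_props.2.1 (gmtVer y)
    rw [abs_of_nonneg (mul_nonneg h1.1 h2.1)]
    calc f (gmtHor y) * flEta (gmtVer y) ≤ 1 * 1 := mul_le_mul h1.2 h2.2 h2.1 (by norm_num)
      _ = 1 := by norm_num
  · intro y hy
    by_cases h1 : 3 ≤ ‖gmtHor y‖
    · rw [h0 _ h1, zero_mul]
    · by_cases h2 : 3 / 4 ≤ |gmtVer y|
      · rw [fl_eta_props.2.2.2 _ h2, mul_zero]
      · exfalso
        have h3 := fl_norm_sq y
        rw [not_le] at h1 h2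
        have h4 : gmtVer y ^ 2 ≤ (3 / 4) ^ 2 := by
          rw [← sq_abs]
          exact pow_le_pow_left₀ (abs_nonneg _) h2.le 2
        nlinarith [norm_nonneg (gmtHor y), norm_nonneg y]

theorem rga_ae_slab (gg : FlGG (ball 0 4) S μ ν) (flat : FlFlat S 0 4 (ε / 4) (gmtEn n)) :
    ∀ᵐ y ∂μ, y ∈ ball (0 : E (n + 1)) 4 → |gmtVer y| ≤ ε := by
  have h := rga_mu_slab gg flat
  rw [ae_iff]
  refine measure_mono_null ?_ h
  intro y hy
  simp only [mem_setOf_eq, Classical.not_imp, not_le] at hy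
  exact hy

theorem rga_K_integrable (gg : FlGG (ball 0 4) S μ ν) : Integrable (fun y => gmtPhi (‖y - 0‖ / 3)) μ := by
  refine rga_int_mu gg (M := 1) ?_ ?_ ?_
  · exact (gmtPhi_contDiff.continuous.comp (by fun_prop)).measurable
  · intro y
    rw [abs_of_nonneg (gmtPhi_nonneg _)]
    exact gmtPhi_le_one _
  · intro y hy
    apply gmtPhi_eq_zero
    rw [sub_zero, le_div_iff₀ (by norm_num)]
    linarith

theorem rga_exc_aux (hε : 0 < ε) (hε' : ε ≤ 1 / 4) (gg : FlGG (ball 0 4) S μ ν)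
    (flat : FlFlat S 0 4 (ε / 4) (gmtEn n)) {χ : E n → ℝ} (hχ : ContDiff ℝ 1 χ) (hs : tsupport χ ⊆ ball 0 1)
    (h01 : ∀ z, 0 ≤ χ z ∧ χ z ≤ 1) :
    ∫ y, χ (gmtHor y) * flEta (gmtVer y) ∂μ ≤
      (∫ y, gmtPhi (‖y - 0‖ / 3) ∂μ) - (∫ z, rgaPsi n ε z) + gmtOm n := by
  obtain ⟨p1, p2, p3, p4⟩ := rga_psi_props (n := n) hε hε'
  have hχ0 : ∀ z, ¬ ‖z‖ < 1 → χ z = 0 := fun z hz => flx_psi_zero hs hz
  have hχc : HasCompactSupport χ := by
    refine HasCompactSupport.intro (isCompact_closedBall (0 : E n) 1) fun z hz => hχ0 z ?_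
    rw [mem_closedBall, dist_zero_right, not_le] at hz
    exact not_lt.2 hz.le
  have hχi : Integrable χ := hχ.continuous.integrable_of_hasCompactSupport hχc
  -- the flux inequality
  have hflux := rga_flux_le hε hε' gg flat (ψ := fun z => rgaPsi n ε z - χ z) (p1.sub hχ) (by
      have h1 : tsupport (fun z => rgaPsi n ε z - χ z) ⊆ tsupport (rgaPsi n ε) ∪ tsupport χ := by
        refine closure_minimal ?_ ((isClosed_tsupport _).union (isClosed_tsupport _))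
        intro z hz
        by_cases h : rgaPsi n ε z = 0
        · right
          apply subset_tsupport
          intro h'
          apply hz
          show rgaPsi n ε z - χ z = 0
          rw [h, h', sub_zero]
        · left
          exact subset_tsupport _ h
      refine h1.trans (union_subset p2 (hs.trans (ball_subset_ball (by norm_num)))))
    (by
      intro z
      by_cases hz : ‖z‖ < 1
      · rw [p4 z hz.le]
        linarith [(h01 z).2]
      · rw [hχ0 z hz]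
        linarith [(p3 z).1])
  have i1 : Integrable (fun y => rgaPsi n ε (gmtHor y) * flEta (gmtVer y)) μ :=
    rga_int_pr gg (rga_psi_continuous n ε) p3 (fun z hz => rga_psiE_zero hz)
  have i2 : Integrable (fun y => χ (gmtHor y) * flEta (gmtVer y)) μ :=
    rga_int_pr gg hχ.continuous h01 (fun z hz => hχ0 z (by linarith))
  have e1 : ∫ z, (rgaPsi n ε z - χ z) = (∫ z, rgaPsi n ε z) - ∫ z, χ z :=
    integral_sub (rga_psi_integrable n ε) hχi
  have e2 : ∫ y, (rgaPsi n ε (gmtHor y) - χ (gmtHor y)) * flEta (gmtVer y) ∂μ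
      = (∫ y, rgaPsi n ε (gmtHor y) * flEta (gmtVer y) ∂μ) - ∫ y, χ (gmtHor y) * flEta (gmtVer y) ∂μ := by
    rw [← integral_sub i1 i2]
    refine integral_congr_ae (Filter.Eventually.of_forall fun y => ?_)
    show _ = rgaPsi n ε (gmtHor y) * flEta (gmtVer y) - χ (gmtHor y) * flEta (gmtVer y)
    ring
  rw [e1, e2] at hflux
  -- `∫ χ ≤ ω_n`
  have h3 : ∫ z, χ z ≤ gmtOm n := by
    have e : gmtOm n = ∫ z, (ball (0 : E n) 1).indicator (fun _ => (1 : ℝ)) z := by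
      rw [integral_indicator measurableSet_ball, setIntegral_const, smul_eq_mul, mul_one]
      rfl
    rw [e]
    refine integral_mono hχi ((integrable_indicator_iff measurableSet_ball).2
      (integrableOn_const (measure_ball_lt_top).ne)) fun z => ?_
    by_cases hz : ‖z‖ < 1
    · rw [indicator_of_mem (by simpa using hz)]
      exact (h01 z).2
    · rw [indicator_of_notMem (by simpa using hz), hχ0 z hz]
  -- comparison with the kernel
  have h4 : ∫ y, rgaPsi n ε (gmtHor y) * flEta (gmtVer y) ∂μ ≤ ∫ y, gmtPhi (‖y - 0‖ / 3) ∂μ := by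
    refine integral_mono_ae i1 (rga_K_integrable gg) ?_
    filter_upwards [rga_ae_slab gg flat] with y hy
    have a1 := p3 (gmtHor y)
    have a2 := fl_eta_props.2.1 (gmtVer y)
    by_cases h1 : 3 ≤ ‖gmtHor y‖
    · rw [rga_psiE_zero h1, zero_mul]
      exact gmtPhi_nonneg _
    · by_cases h2 : 3 / 4 ≤ |gmtVer y|
      · rw [fl_eta_props.2.2.2 _ h2, mul_zero]
        exact gmtPhi_nonneg _
      · rw [not_le] at h1 h2
        have h5 := hy (rga_cyl3 h1.le (by linarith))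
        calc rgaPsi n ε (gmtHor y) * flEta (gmtVer y) ≤ rgaPsi n ε (gmtHor y) * 1 :=
              mul_le_mul_of_nonneg_left a2.2 a1.1
          _ = rgaPsi n ε (gmtHor y) := mul_one _
          _ ≤ _ := rga_psi_le h5
  linarith

theorem rga_exc_mu (hε : 0 < ε) (hε' : ε ≤ 1 / 4) (gg : FlGG (ball 0 4) S μ ν)
    (flat : FlFlat S 0 4 (ε / 4) (gmtEn n)) :
    (μ (flCyl 1)).toReal ≤ (∫ y, gmtPhi (‖y - 0‖ / 3) ∂μ) - (∫ z, rgaPsi n ε z) + gmtOm n := by
  have hfinK : μ (closedBall (0 : E (n + 1)) (7 / 2)) ≠ ⊤ :=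
    gg.fin _ (isCompact_closedBall _ _) (closedBall_subset_ball (by norm_num))
  have haux : ∀ j : ℕ, ∫ y, flxPsi n j (gmtHor y) * flEta (gmtVer y) ∂μ ≤
      (∫ y, gmtPhi (‖y - 0‖ / 3) ∂μ) - (∫ z, rgaPsi n ε z) + gmtOm n := fun j =>
    rga_exc_aux hε hε' gg flat ((flx_Psi_props n j).1.of_le (by simp)) (flx_Psi_props n j).2.2.2 (flx_Psi_props n j).2.1
  have e : (μ (flCyl 1)).toReal = ∫ y, (flCyl 1 : Set (E (n + 1))).indicator (fun _ => (1 : ℝ)) y ∂μ := by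
    rw [integral_indicator (fl_isOpen_cyl 1).measurableSet, setIntegral_const, smul_eq_mul, mul_one]
    rfl
  have hL : Filter.Tendsto (fun j : ℕ => ∫ y, flxPsi n j (gmtHor y) * flEta (gmtVer y) ∂μ)
      Filter.atTop (nhds (μ (flCyl 1)).toReal) := by
    rw [e]
    refine tendsto_integral_of_dominated_convergence
      ((closedBall (0 : E (n + 1)) (7 / 2)).indicator (fun _ => (1 : ℝ))) (fun j => ?_)
      ((integrable_indicator_iff measurableSet_closedBall).2 (integrableOn_const hfinK))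
      (fun j => Filter.Eventually.of_forall fun y => ?_) ?_
    · exact (((flx_Psi_props n j).1.continuous.comp fl_continuous_hor).mul
        (fl_eta_props.1.continuous.comp fl_continuous_ver)).aestronglyMeasurable
    · have h1 := (flx_Psi_props n j).2.1 (gmtHor y)
      have h2 := fl_eta_props.2.1 (gmtVer y)
      rw [Real.norm_eq_abs, abs_of_nonneg (mul_nonneg h1.1 h2.1)]
      by_cases hy : y ∈ closedBall (0 : E (n + 1)) (7 / 2)
      · rw [indicator_of_mem hy]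
        calc flxPsi n j (gmtHor y) * flEta (gmtVer y) ≤ 1 * 1 := mul_le_mul h1.2 h2.2 h2.1 (by norm_num)
          _ = 1 := by norm_num
      · rw [indicator_of_notMem hy]
        refine le_of_eq ?_
        by_cases h3 : ‖gmtHor y‖ < 1
        · by_cases h4 : 3 / 4 ≤ |gmtVer y|
          · rw [fl_eta_props.2.2.2 _ h4, mul_zero]
          · exfalso
            apply hy
            exact closedBall_subset_closedBall (by norm_num)
              (ball_subset_closedBall (fl_cyl_subset_ball h3.le (by linarith [not_le.1 h4])))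
        · rw [flx_psi_zero (flx_Psi_props n j).2.2.2 h3, zero_mul]
    · filter_upwards [rga_ae_slab gg flat] with y hy
      by_cases hc : y ∈ (flCyl 1 : Set (E (n + 1)))
      · rw [indicator_of_mem hc]
        refine tendsto_const_nhds.congr' ?_
        filter_upwards [flx_Psi_eventually n hc.1] with j hj
        rw [hj, one_mul, fl_eta_props.2.2.1 _ ((hy (fl_cyl_subset_ball4 hc)).trans (by linarith))]
      · rw [indicator_of_notMem hc]
        refine tendsto_const_nhds.congr fun j => ?_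
        by_cases h3 : ‖gmtHor y‖ < 1
        · have h4 : ¬ |gmtVer y| < 1 := fun h4 => hc ⟨h3, h4⟩
          rw [fl_eta_props.2.2.2 _ (by linarith [not_lt.1 h4]), mul_zero]
        · rw [flx_psi_zero (flx_Psi_props n j).2.2.2 h3, zero_mul]
  exact le_of_tendsto' hL haux

/-- **the excess bound.** -/
theorem rga_exc (n : ℕ) : ∃ C : ℝ, 0 < C ∧ ∀ (ε δ : ℝ) (S : Set (E (n + 1))), 0 < ε → ε ≤ 1 / 4 → 0 ≤ δ →
    GmtLF S univ → FlFlat S 0 4 (ε / 4) (gmtEn n) → gmtI S 0 3 ≤ (1 + δ) * rgaH n →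
      gmtMu S (flCyl 1) ≤ ENNReal.ofReal (gmtOm n + C * (ε + δ)) := by
  obtain ⟨C1, hC1, hint⟩ := rga_psi_int n
  have hH := rga_H_pos n
  refine ⟨max (3 ^ n * rgaH n) C1 + 1, by positivity, ?_⟩
  intro ε δ S hε hε' hδ hLF flat hI
  have gg : FlGG (ball 0 4) S (gmtMu S) (gmtNu S) := fl_gg_of_lf isOpen_ball (hLF.mono (subset_univ _))
  have hfin : gmtMu S (flCyl 1) ≠ ⊤ :=
    (lt_of_le_of_lt (measure_mono fl_cyl_subset_closedBall)
      (gg.fin _ (isCompact_closedBall _ _) (closedBall_subset_ball (by norm_num))).lt_top).ne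
  have h1 := rga_exc_mu hε hε' gg flat
  have h2 := hint ε hε
  have h3 : ∫ y, gmtPhi (‖y - 0‖ / 3) ∂(gmtMu S) = 3 ^ n * gmtI S 0 3 := by
    unfold gmtI
    rw [Nat.add_sub_cancel, ← mul_assoc, mul_inv_cancel₀ (by positivity), one_mul]
  have h4 : (3 : ℝ) ^ n * gmtI S 0 3 ≤ 3 ^ n * ((1 + δ) * rgaH n) := mul_le_mul_of_nonneg_left hI (by positivity)
  rw [← ENNReal.ofReal_toReal hfin]
  refine ENNReal.ofReal_le_ofReal ?_
  have h5 : 3 ^ n * rgaH n * δ ≤ (max (3 ^ n * rgaH n) C1 + 1) * δ :=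
    mul_le_mul_of_nonneg_right ((le_max_left _ _).trans (by linarith)) hδ
  have h6 : C1 * ε ≤ (max (3 ^ n * rgaH n) C1 + 1) * ε :=
    mul_le_mul_of_nonneg_right ((le_max_right _ _).trans (by linarith)) hε.le
  rw [h3] at h1
  nlinarith

end Claimed.Agent.R323
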