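import Claimed.Agent.R323.Rg.Al2
import Claimed.Agent.R323.Rg.Al3b
import Claimed.Agent.Lib.Gmt.FlScale

/-!
# Row 323, block D(7) ALLARD-LITE (architect: helper281).   File 4: the unit scale hypotheses `FlUnit` (with `κ = 0`) hold in the class `RgaN δ S 0 16`.
-/

set_option autoImplicit false
open scoped ContDiff ENNReal NNReal RealInnerProductSpace Topology
open MeasureTheory Metric Set Filter

namespace Claimed.Agent.R323

open Claimed.Agent.Gmt

variable {m n : ℕ}

theorem rga_fv0 {S : Set (E m)} (h : RgaSt S) (U : Set (E m)) : FlFV 0 U (gmtMu S) (gmtNu S) := by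
  intro X hX
  have h1 : ∫ x, flTdiv X (gmtNu S) x ∂(gmtMu S) = gmtDelta S X := rfl
  rw [h1, h.stat X ⟨hX.smooth, hX.cpt, subset_univ _⟩]
  simp

theorem rga_dens_up {δ : ℝ} {S : Set (E (n + 1))} (hδ : δ ≤ 1) (h : RgaN δ S 0 16) {y : E (n + 1)} {s : ℝ}
    (hs : 0 < s) (hys : ball y s ⊆ ball 0 4) :
    gmtMu S (ball y s) ≤ ENNReal.ofReal (2 * 4 ^ n * rgaH n * s ^ n) := by
  have hH := rga_H_pos n
  by_cases hne : (gmtBd S ∩ ball y s).Nonempty
  · obtain ⟨z, hz, hzy⟩ := hne
    have hs4 : s ≤ 4 := fl_radius_le hs hys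
    have hz16 : z ∈ ball (0 : E (n + 1)) 16 := ball_subset_ball (by norm_num) (hys hzy)
    have h1 := h.up z hz hz16 (4 * s) (by positivity) (by linarith)
    have h2 := ball_le_gmtI (h.st.lfOn (ball z (4 * s + 1))) (show 0 < 4 * s by positivity) (by linarith)
    have hfin : gmtMu S (closedBall z (4 * s / 2)) ≠ ⊤ :=
      gmtMu_compact_ne_top isOpen_univ h.st.lf (isCompact_closedBall _ _) (subset_univ _)
    have hsub : ball y s ⊆ closedBall z (4 * s / 2) := by
      intro w hw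
      have a1 : dist w y < s := hw
      have a2 : dist z y < s := hzy
      have a3 := dist_triangle_right w z y
      rw [mem_closedBall]
      linarith
    refine (measure_mono hsub).trans ?_
    rw [← ENNReal.ofReal_toReal hfin]
    apply ENNReal.ofReal_le_ofReal
    simp only [Nat.add_sub_cancel] at h2
    have h3 : ((4 * s) ^ n)⁻¹ * (gmtMu S (closedBall z (4 * s / 2))).toReal ≤ 2 * rgaH n := by
      refine h2.trans (h1.trans ?_)
      nlinarith
    have hp : 0 < (4 * s) ^ n := by positivity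
    rw [inv_mul_le_iff₀ hp] at h3
    rw [mul_pow] at h3
    linarith
  · have hsub : ball y s ⊆ (gmtBd S)ᶜ := fun w hw hb => hne ⟨w, hb, hw⟩
    have := measure_mono_null hsub (gmtMu_compl_gmtBd h.st.lf.1)
    rw [this]
    exact zero_le

theorem rga_dens_lo {c : ℝ} {S : Set (E (n + 1))} (hS : RgaSt S) {y : E (n + 1)} {s : ℝ} (hs : 0 < s)
    (hc : c ≤ gmtI S y (s / 2)) :
    ENNReal.ofReal (c / 2 ^ n * s ^ n) ≤ gmtMu S (ball y s) := by
  have hfin : gmtMu S (closedBall y (s / 2)) ≠ ⊤ :=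
    gmtMu_compact_ne_top isOpen_univ hS.lf (isCompact_closedBall _ _) (subset_univ _)
  have h1 := gmtI_le_ball (show 0 < s / 2 by positivity) hfin
  simp only [Nat.add_sub_cancel] at h1
  refine le_trans ?_ (measure_mono (closedBall_subset_ball (show s / 2 < s by linarith)))
  rw [← ENNReal.ofReal_toReal hfin]
  apply ENNReal.ofReal_le_ofReal
  have hp : 0 < (s / 2) ^ n := by positivity
  have h2 := hc.trans h1
  rw [le_inv_mul_iff₀ hp, div_pow] at h2
  have e : c / 2 ^ n * s ^ n = s ^ n / 2 ^ n * c := by ring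
  rw [e]
  exact h2

/-- **the unit scale hypotheses hold in the class `RgaN`.** -/
theorem rga_unit (n : ℕ) : ∃ c₀ C₀ C : ℝ, 0 < c₀ ∧ 0 < C₀ ∧ 4 ≤ C ∧
    ∀ (δ ε : ℝ) (S : Set (E (n + 1))), 0 ≤ δ → 0 < ε → C * (ε + δ) ≤ 1 → RgaN δ S 0 16 →
      (0 : E (n + 1)) ∈ gmtBd S → FlFlat S 0 4 (ε / 4) (gmtEn n) →
        FlUnit n ε 0 (C * (ε + δ)) c₀ C₀ S (gmtMu S) (gmtNu S) := by
  obtain ⟨c, hc, hlow⟩ := rga_lower n
  obtain ⟨Ce, hCe, hexc⟩ := rga_exc n
  have hH := rga_H_pos n
  refine ⟨c / 2 ^ n, 2 * 4 ^ n * rgaH n, max 4 Ce, by positivity, by positivity, le_max_left _ _, ?_⟩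
  intro δ ε S hδ hε hC1 h h0 hfl
  have hC4 : 4 * (ε + δ) ≤ 1 :=
    (mul_le_mul_of_nonneg_right (le_max_left 4 Ce) (by positivity)).trans hC1
  refine ⟨hε, by linarith, le_rfl, zero_le_one, by positivity, hC1, by positivity, by positivity,
    fl_gg_of_lf isOpen_ball (h.st.lfOn _), rga_fv0 h.st _, ⟨?_, ?_⟩, hfl, ?_⟩
  · intro y s hs hys
    simpa only [Nat.add_sub_cancel] using rga_dens_up (by linarith) h hs hys
  · intro y hy s hs _
    simpa only [Nat.add_sub_cancel] using rga_dens_lo h.st hs (hlow S h.st y hy (s / 2) (by positivity))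
  · have h3 := h.up 0 h0 (mem_ball_self (by norm_num)) 3 (by norm_num) (by norm_num)
    refine (hexc ε δ S hε (by linarith) hδ h.st.lf hfl h3).trans (ENNReal.ofReal_le_ofReal ?_)
    have := mul_le_mul_of_nonneg_right (le_max_right 4 Ce) (by positivity : 0 ≤ ε + δ)
    linarith

end Claimed.Agent.R323
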