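import Claimed.Agent.R323.Rg.Al4

/-!
# Row 323, block D(7) ALLARD-LITE (architect: helper281).   File 5a: improvement of flatness in the class `RgaN` (copy-adapt of `fl_step_unit_AM`, `fl_step_AM`, `Lib/Gmt/FlScale.lean`).
-/

set_option autoImplicit false
open scoped ContDiff ENNReal NNReal RealInnerProductSpace Topology
open MeasureTheory Metric Set Filter

namespace Claimed.Agent.R323

open Claimed.Agent.Gmt

variable {m n : ℕ}

/-- the step at unit scale. -/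
theorem rga_step_unit (n : ℕ) (hn : 1 ≤ n) : ∃ τ η₀ δ₀ C₁ : ℝ, 0 < τ ∧ τ ≤ 1 / 8 ∧ 0 < η₀ ∧ 0 < δ₀ ∧
    0 < C₁ ∧ ∀ (δ η : ℝ) (S : Set (E (n + 1))), 0 ≤ δ → δ ≤ δ₀ → 0 < η → η ≤ η₀ →
      RgaN δ S 0 16 → (0 : E (n + 1)) ∈ gmtBd S → FlFlat S 0 4 η (gmtEn n) →
        ∃ e' : E (n + 1), ‖e' - gmtEn n‖ ≤ C₁ * η ∧ FlFlat S 0 (4 * τ ^ 2) (τ * η) e' := by
  obtain ⟨c₀, C₀, C, hc₀, hC₀, hC, hunit⟩ := rga_unit n
  obtain ⟨τ, ε₀, c₁, δ₁, C₁, hτ, hτ8, hε₀, hc₁, hδ₁, hC₁, hstep⟩ := fl_unit_step n hn c₀ C₀ hc₀ hC₀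
  have hC0 : 0 < C := by linarith
  obtain ⟨η₀, hη₀, h2, h3, h4, h5, h6⟩ : ∃ η₀ : ℝ, 0 < η₀ ∧ η₀ ≤ 1 / (8 * C) ∧
      η₀ ≤ δ₁ / (8 * C) ∧ η₀ ≤ ε₀ / 4 ∧ η₀ ≤ 1 / (8 * C₁) ∧ η₀ ≤ τ ^ 2 / 8 := by
    refine ⟨min (1 / (8 * C)) (min (δ₁ / (8 * C)) (min (ε₀ / 4) (min (1 / (8 * C₁))
      (τ ^ 2 / 8)))), ?_, min_le_left _ _, (min_le_right _ _).trans (min_le_left _ _),
      (min_le_right _ _).trans ((min_le_right _ _).trans (min_le_left _ _)),
      (min_le_right _ _).trans ((min_le_right _ _).trans ((min_le_right _ _).trans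
        (min_le_left _ _))),
      (min_le_right _ _).trans ((min_le_right _ _).trans ((min_le_right _ _).trans
        (min_le_right _ _)))⟩
    refine lt_min (by positivity) (lt_min (by positivity) (lt_min (by positivity)
      (lt_min (by positivity) (by positivity))))
  refine ⟨τ, η₀, min (1 / (2 * C)) (δ₁ / (2 * C)), 8 * C₁, hτ, hτ8, hη₀, lt_min (by positivity) (by positivity),
    by positivity, ?_⟩
  intro δ η S hδ hδδ₀ hη hηη₀ hN h0 hfl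
  have hδa : C * δ ≤ 1 / 2 := by
    have := mul_le_mul_of_nonneg_left (hδδ₀.trans (min_le_left _ _)) hC0.le
    have e : C * (1 / (2 * C)) = 1 / 2 := by field_simp
    linarith
  have hδb : C * δ ≤ δ₁ / 2 := by
    have := mul_le_mul_of_nonneg_left (hδδ₀.trans (min_le_right _ _)) hC0.le
    have e : C * (δ₁ / (2 * C)) = δ₁ / 2 := by field_simp
    linarith
  have hηa : C * (4 * η) ≤ 1 / 2 := by
    have := mul_le_mul_of_nonneg_left (hηη₀.trans h2) hC0.le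
    have e : C * (1 / (8 * C)) = 1 / 8 := by field_simp
    linarith
  have hηb : C * (4 * η) ≤ δ₁ / 2 := by
    have := mul_le_mul_of_nonneg_left (hηη₀.trans h3) hC0.le
    have e : C * (δ₁ / (8 * C)) = δ₁ / 8 := by field_simp
    linarith
  have hle1 : C * (4 * η + δ) ≤ 1 := by linarith
  have hleδ : C * (4 * η + δ) ≤ δ₁ := by linarith
  have hfl' : FlFlat S 0 4 (4 * η / 4) (gmtEn n) := by
    rw [mul_div_cancel_left₀ _ (by norm_num)]; exact hfl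
  have H := hunit δ (4 * η) S hδ (by positivity) hle1 hN h0 hfl'
  obtain ⟨p, hp, hbd⟩ := hstep (4 * η) _ _ S _ _ H (by linarith) (by positivity) hleδ h0
  obtain ⟨e', he', hee, hin⟩ := fl_tilt p
  have hee' : ‖e' - gmtEn n‖ ≤ 8 * C₁ * η := by linarith
  refine ⟨e', hee', ?_⟩
  have hτ2 : τ ^ 2 ≤ 1 / 64 := by nlinarith
  refine fl_flat_of_bd hfl he' (by positivity) (by linarith) (by positivity) (by nlinarith) ?_ ?_ ?_
  · rw [norm_sub_rev]
    refine hee'.trans ?_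
    have := mul_le_mul_of_nonneg_left (hηη₀.trans h5) (by positivity : 0 ≤ 8 * C₁)
    rwa [mul_one_div_cancel (by positivity)] at this
  · have : η ≤ τ ^ 2 / 8 := hηη₀.trans h6
    have : 0 < τ ^ 2 := by positivity
    linarith
  · intro y hy hyr
    rw [sub_zero]
    refine (hin y).trans ((hbd y hy hyr).trans (le_of_eq ?_))
    ring

/-- **improvement of flatness, all scales, all centres, all directions.** -/
theorem rga_step (n : ℕ) (hn : 1 ≤ n) : ∃ τ η₀ δ₀ C₁ : ℝ, 0 < τ ∧ τ ≤ 1 / 8 ∧ 0 < η₀ ∧ 0 < δ₀ ∧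
    0 < C₁ ∧ ∀ (δ R r η : ℝ) (z e : E (n + 1)) (S : Set (E (n + 1))), 0 ≤ δ → δ ≤ δ₀ →
      RgaN δ S z R → z ∈ gmtBd S → 0 < r → 4 * r ≤ R → 0 < η → η ≤ η₀ → FlFlat S z r η e →
        ∃ e' : E (n + 1), ‖e' - e‖ ≤ C₁ * η ∧ FlFlat S z (τ ^ 2 * r) (τ * η) e' := by
  obtain ⟨τ, η₀, δ₀, C₁, hτ, hτ8, hη₀, hδ₀, hC₁, hstep⟩ := rga_step_unit n hn
  refine ⟨τ, η₀, δ₀, C₁, hτ, hτ8, hη₀, hδ₀, hC₁, ?_⟩
  intro δ R r η z e S hδ hδδ₀ hN hz hr hrR hη hηη₀ hfl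
  obtain ⟨L, hL⟩ := fl_exists_rot hfl.unit
  have hr4 : 0 < r / 4 := by positivity
  have h1 : RgaN δ (gmtBlow L.toContinuousLinearEquiv z (r / 4) S) 0 16 := by
    refine (hN.blow L hr4).mono ?_
    rw [le_div_iff₀ hr4]; linarith
  have h3 : (0 : E (n + 1)) ∈ gmtBd (gmtBlow L.toContinuousLinearEquiv z (r / 4) S) := by
    rw [gmtBd_gmtBlow _ _ hr4]
    show gmtAff L.toContinuousLinearEquiv z (r / 4) 0 ∈ gmtBd S
    simpa [gmtAff] using hz
  have h4 : FlFlat (gmtBlow L.toContinuousLinearEquiv z (r / 4) S) 0 4 η (gmtEn n) := by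
    have := hfl.blow_isometry L hr4
    rw [hL] at this
    have e1 : r / (r / 4) = 4 := by field_simp
    rwa [e1] at this
  obtain ⟨e'', hee, hfl''⟩ := hstep δ η _ hδ hδδ₀ hη hηη₀ h1 h3 h4
  refine ⟨L.symm e'', ?_, ?_⟩
  · have : L.symm e'' - e = L.symm (e'' - gmtEn n) := by
      rw [map_sub, ← hL, L.symm_apply_apply]
    rw [this, L.symm.norm_map]
    exact hee
  · have := FlFlat.of_blow_isometry L hr4 hfl''
    have e1 : 4 * τ ^ 2 * (r / 4) = τ ^ 2 * r := by ring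
    rwa [e1] at this

end Claimed.Agent.R323
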