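import Claimed.Agent.R323.Rg.Al5a
import Claimed.Agent.Lib.Gmt.FlTop

/-!
# Row 323, block D(7) ALLARD-LITE (architect: helper281).   File 5b: iteration, decay of flatness, `C^{1,1/2}` graph (copy-adapt of `Lib/Gmt/FlIter.lean`, `FlTop.lean`; no frames: `D = 1`).
-/

set_option autoImplicit false
open scoped ContDiff ENNReal NNReal RealInnerProductSpace Topology
open MeasureTheory Metric Set Filter

namespace Claimed.Agent.R323

open Claimed.Agent.Gmt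

variable {m n : ℕ}

theorem rga_iter (n : ℕ) (hn : 1 ≤ n) : ∃ τ η₀ δ₀ C₁ : ℝ, 0 < τ ∧ τ ≤ 1 / 8 ∧ 0 < η₀ ∧ 0 < δ₀ ∧
    0 < C₁ ∧ ∀ (δ R r η : ℝ) (z e : E (n + 1)) (S : Set (E (n + 1))), 0 ≤ δ → δ ≤ δ₀ →
      RgaN δ S z R → z ∈ gmtBd S → 0 < r → 4 * r ≤ R → 0 < η → η ≤ η₀ → FlFlat S z r η e → ∀ j : ℕ,
        ∃ e' : E (n + 1), ‖e' - e‖ ≤ 2 * C₁ * η ∧ FlFlat S z (τ ^ (2 * j) * r) (τ ^ j * η) e' := by
  obtain ⟨τ, η₀, δ₀, C₁, hτ, hτ8, hη₀, hδ₀, hC₁, hstep⟩ := rga_step n hn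
  refine ⟨τ, η₀, δ₀, C₁, hτ, hτ8, hη₀, hδ₀, hC₁, ?_⟩
  intro δ R r η z e S hδ hδδ₀ hN hz hr hrR hη hηη₀ hfl j
  have key : ∀ j : ℕ, ∃ e' : E (n + 1), ‖e' - e‖ ≤ 2 * C₁ * η * (1 - τ ^ j) ∧
      FlFlat S z (τ ^ (2 * j) * r) (τ ^ j * η) e' := by
    intro j
    induction j with
    | zero => exact ⟨e, by simp, by simpa using hfl⟩
    | succ j ih =>
      obtain ⟨e₁, he₁, hfl₁⟩ := ih
      have hτj : 0 < τ ^ j := by positivity
      have hτj1 : τ ^ j ≤ 1 := pow_le_one₀ hτ.le (by linarith)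
      have hτ2j : 0 < τ ^ (2 * j) := by positivity
      have hτ2j1 : τ ^ (2 * j) ≤ 1 := pow_le_one₀ hτ.le (by linarith)
      have a1 : 4 * (τ ^ (2 * j) * r) ≤ R := by nlinarith
      have a2 : τ ^ j * η ≤ η₀ := by nlinarith
      obtain ⟨e₂, he₂, hfl₂⟩ := hstep δ R _ _ z e₁ S hδ hδδ₀ hN hz (by positivity) a1
        (by positivity) a2 hfl₁
      refine ⟨e₂, ?_, ?_⟩
      · have b1 : e₂ - e = (e₂ - e₁) + (e₁ - e) := by abel
        rw [b1]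
        refine (norm_add_le _ _).trans ?_
        have b2 : τ ^ (j + 1) = τ ^ j * τ := pow_succ _ _
        rw [b2]
        have b3 : 0 ≤ C₁ * η * τ ^ j := by positivity
        nlinarith
      · have c1 : τ ^ 2 * (τ ^ (2 * j) * r) = τ ^ (2 * (j + 1)) * r := by
          rw [mul_add, mul_one, pow_add]; ring
        have c2 : τ * (τ ^ j * η) = τ ^ (j + 1) * η := by rw [pow_succ]; ring
        rwa [c1, c2] at hfl₂
  obtain ⟨e', he', hfl'⟩ := key j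
  refine ⟨e', he'.trans ?_, hfl'⟩
  have : 0 ≤ τ ^ j := by positivity
  have h2 : 0 ≤ 2 * C₁ * η := by positivity
  nlinarith

/-- **decay of flatness at a boundary point.** -/
theorem rga_decay_pt (n : ℕ) (hn : 1 ≤ n) : ∃ η₀ δ₀ C : ℝ, 0 < η₀ ∧ 0 < δ₀ ∧ 0 < C ∧
    ∀ (δ R r η : ℝ) (z e : E (n + 1)) (S : Set (E (n + 1))), 0 ≤ δ → δ ≤ δ₀ →
      RgaN δ S z R → z ∈ gmtBd S → 0 < r → 4 * r ≤ R → 0 < η → η ≤ η₀ → FlFlat S z r η e →
      ∀ s : ℝ, 0 < s → s ≤ r →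
        ∃ e' : E (n + 1), ‖e' - e‖ ≤ C * η ∧ FlFlat S z s (C * η * Real.sqrt (s / r)) e' := by
  obtain ⟨τ, η₀, δ₀, C₁, hτ, hτ8, hη₀, hδ₀, hC₁, hit⟩ := rga_iter n hn
  refine ⟨η₀, δ₀, 2 * C₁ + (τ ^ 3)⁻¹, hη₀, hδ₀, by positivity, ?_⟩
  intro δ R r η z e S hδ hδδ₀ hN hz hr hrR hη hηη₀ hfl s hs hsr
  have hτ3 : 0 < (τ ^ 3)⁻¹ := by positivity
  obtain ⟨j, hj1, hj2⟩ := exists_nat_pow_near_of_lt_one (x := s / r) (y := τ ^ 2) (by positivity)
    ((div_le_one hr).2 hsr) (by positivity) (by nlinarith)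
  rw [← pow_mul] at hj1 hj2
  obtain ⟨e', he', hfl'⟩ := hit δ R r η z e S hδ hδδ₀ hN hz hr hrR hη hηη₀ hfl j
  refine ⟨e', he'.trans ?_, ?_⟩
  · have : 0 ≤ (τ ^ 3)⁻¹ * η := by positivity
    nlinarith
  have hsrj : s ≤ τ ^ (2 * j) * r := by rwa [div_le_iff₀ hr] at hj2
  have hsrj' : τ ^ (2 * (j + 1)) * r < s := by rwa [lt_div_iff₀ hr] at hj1
  refine (hfl'.shrink hs hsrj).mono hs.le ?_
  have hτj : 0 < τ ^ j := by positivity
  have h1 : τ ^ (j + 1) ≤ Real.sqrt (s / r) := by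
    apply Real.le_sqrt_of_sq_le
    rw [← pow_mul, mul_comm (j + 1) 2]
    exact hj1.le
  have h2 : τ ^ j * η * (τ ^ (2 * j) * r) / s ≤ τ ^ j * η * (τ ^ 2)⁻¹ := by
    rw [div_le_iff₀ hs]
    have e1 : τ ^ (2 * (j + 1)) = τ ^ (2 * j) * τ ^ 2 := by rw [mul_add, mul_one, pow_add]
    rw [e1] at hsrj'
    have e2 : τ ^ j * η * (τ ^ 2)⁻¹ * s = τ ^ j * η * ((τ ^ 2)⁻¹ * s) := by ring
    rw [e2]
    apply mul_le_mul_of_nonneg_left _ (by positivity)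
    rw [le_inv_mul_iff₀ (by positivity)]
    linarith
  refine h2.trans ?_
  have h3 : τ ^ j * η * (τ ^ 2)⁻¹ = (τ ^ 3)⁻¹ * η * τ ^ (j + 1) := by
    have : τ ^ (j + 1) = τ ^ j * τ := pow_succ _ _
    rw [this]; field_simp
  rw [h3]
  have h4 : (τ ^ 3)⁻¹ * η * τ ^ (j + 1) ≤ (τ ^ 3)⁻¹ * η * Real.sqrt (s / r) :=
    mul_le_mul_of_nonneg_left h1 (by positivity)
  refine h4.trans ?_
  apply mul_le_mul_of_nonneg_right _ (Real.sqrt_nonneg _)
  apply mul_le_mul_of_nonneg_right _ hη.le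
  linarith

/-- **decay of flatness at all boundary points near a flat point.** -/
theorem rga_decay (n : ℕ) (hn : 1 ≤ n) : ∃ η₀ δ₀ C : ℝ, 0 < η₀ ∧ 0 < δ₀ ∧ 0 < C ∧
    ∀ (δ R r η : ℝ) (x e : E (n + 1)) (S : Set (E (n + 1))), 0 ≤ δ → δ ≤ δ₀ →
      RgaN δ S x R → 0 < r → 4 * r ≤ R → 0 < η → η ≤ η₀ → FlFlat S x r η e →
      ∀ z ∈ gmtBd S, z ∈ ball x (r / 2) → ∀ s : ℝ, 0 < s → s ≤ r / 2 →
        ∃ e' : E (n + 1), ‖e' - e‖ ≤ C * η ∧ FlFlat S z s (C * η * Real.sqrt (s / r)) e' := by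
  obtain ⟨η₀, δ₀, C, hη₀, hδ₀, hC, hdec⟩ := rga_decay_pt n hn
  refine ⟨η₀ / 4, δ₀, 8 * C, by positivity, hδ₀, by positivity, ?_⟩
  intro δ R r η x e S hδ hδδ₀ hN hr hrR hη hηη₀ hfl z hz hzr s hs hsr
  have hzr' : z ∈ ball x r := ball_subset_ball (by linarith) hzr
  have h1 : FlFlat S z (r / 2) (4 * η) e := by
    have hsub : ball z (r / 2) ⊆ ball x r := by
      intro y hy
      have h1 : dist y z < r / 2 := hy
      have h2 : dist z x < r / 2 := hzr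
      have := dist_triangle y z x
      simp only [mem_ball]; linarith
    have := hfl.recentre (hfl.bd_slab hz hzr') (by positivity : 0 < r / 2) hsub
    have e1 : 2 * η * r / (r / 2) = 4 * η := by field_simp; ring
    rwa [e1] at this
  have hN' : RgaN δ S z (R / 2) := hN.recentre (ball_subset_ball (by linarith) hzr)
  obtain ⟨e', hee, hfl'⟩ := hdec δ (R / 2) (r / 2) (4 * η) z e S hδ hδδ₀ hN' hz (by positivity)
    (by linarith) (by positivity) (by linarith) h1 s hs hsr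
  refine ⟨e', hee.trans (by nlinarith), hfl'.mono hs.le ?_⟩
  have e1 : Real.sqrt (s / (r / 2)) ≤ 2 * Real.sqrt (s / r) := by
    have : s / (r / 2) ≤ 2 ^ 2 * (s / r) := by
      have e2 : s / (r / 2) = 2 * (s / r) := by field_simp
      rw [e2]
      have : 0 ≤ s / r := by positivity
      linarith
    calc Real.sqrt (s / (r / 2)) ≤ Real.sqrt (2 ^ 2 * (s / r)) := Real.sqrt_le_sqrt this
      _ = 2 * Real.sqrt (s / r) := by
          rw [Real.sqrt_mul (by positivity), Real.sqrt_sq (by positivity)]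
  calc C * (4 * η) * Real.sqrt (s / (r / 2)) ≤ C * (4 * η) * (2 * Real.sqrt (s / r)) :=
        mul_le_mul_of_nonneg_left e1 (by positivity)
    _ = 8 * C * η * Real.sqrt (s / r) := by ring

/-- the decay in the rotated frame. -/
theorem rga_decay_rot (n : ℕ) (hn : 1 ≤ n) : ∃ η₀ δ₀ C : ℝ, 0 < η₀ ∧ 0 < δ₀ ∧ 1 ≤ C ∧
    ∀ (δ R r η : ℝ) (x e : E (n + 1)) (S : Set (E (n + 1))), 0 ≤ δ → δ ≤ δ₀ →
      RgaN δ S x R → 0 < r → 4 * r ≤ R → 0 < η → η ≤ η₀ → FlFlat S x r η e →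
      ∀ L : E (n + 1) ≃ₗᵢ[ℝ] E (n + 1), L e = gmtEn n →
        FlDecay (gmtBlow L.toContinuousLinearEquiv x 1 S) r (1 / 2 * r) (C * η) := by
  obtain ⟨η₀, δ₀, C, hη₀, hδ₀, hC, hdec⟩ := rga_decay n hn
  refine ⟨η₀, δ₀, max 1 C, hη₀, hδ₀, le_max_left _ _, ?_⟩
  intro δ R r η x e S hδ hδδ₀ hN hr hrR hη hηη₀ hfl L hL
  have hC1 : η ≤ max 1 C * η := by
    have := mul_le_mul_of_nonneg_right (le_max_left 1 C) hη.le
    linarith
  have hCC : C * η ≤ max 1 C * η := mul_le_mul_of_nonneg_right (le_max_right 1 C) hη.le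
  refine ⟨?_, ?_⟩
  · have := hfl.blow_isometry L one_pos
    rw [div_one, hL] at this
    exact this.mono hr.le hC1
  · intro z' hz' hz'r s hs hsr
    rw [gmtBd_gmtBlow _ _ one_pos] at hz'
    have hz : gmtAff L.toContinuousLinearEquiv x 1 z' ∈ gmtBd S := hz'
    set z := gmtAff L.toContinuousLinearEquiv x 1 z' with hzdef
    have hzx : z - x = L.symm z' := by
      rw [hzdef, gmtAff, one_smul, add_sub_cancel_left]; rfl
    have hzr : z ∈ ball x (r / 2) := by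
      rw [mem_ball, dist_eq_norm, hzx, L.symm.norm_map]
      simpa using hz'r
    have hsr' : s ≤ r / 2 := by linarith
    obtain ⟨e', hee, hfl'⟩ := hdec δ R r η x e S hδ hδδ₀ hN hr hrR hη hηη₀ hfl z hz hzr s hs hsr'
    have hnorm := fl_norm_isometry (m := n + 1) (by omega) L
    have h1 := hfl'.blow hs (by positivity) L.toContinuousLinearEquiv x one_pos
    rw [hnorm.1, hnorm.2, fl_dir_isometry L hfl'.unit, mul_one, mul_one, mul_one, div_one] at h1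
    have hpt : flPt L.toContinuousLinearEquiv x 1 z = z' := by
      rw [flPt, hzx, inv_one, one_smul]
      exact L.apply_symm_apply z'
    rw [hpt] at h1
    refine ⟨L e', ?_, h1.mono hs.le ?_⟩
    · rw [← hL, ← map_sub, L.norm_map]
      exact hee.trans hCC
    · exact mul_le_mul_of_nonneg_right hCC (Real.sqrt_nonneg _)

/-- **flat + density close to one ⇒ `C^{1,1/2}` graph.** -/
theorem rga_c1a (n : ℕ) (hn : 1 ≤ n) : ∃ η₀ δ₀ C : ℝ, 0 < η₀ ∧ 0 < δ₀ ∧ 0 < C ∧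
    ∀ (δ R r η : ℝ) (x e : E (n + 1)) (S : Set (E (n + 1))), 0 ≤ δ → δ ≤ δ₀ →
      RgaN δ S x R → 0 < r → 4 * r ≤ R → 0 < η → η ≤ η₀ → FlFlat S x r η e →
      ∀ L : E (n + 1) ≃ₗᵢ[ℝ] E (n + 1), L e = gmtEn n →
        ∃ u : E n → ℝ, FlGr (gmtBlow L.toContinuousLinearEquiv x 1 S) u (r / 4) (C * η) := by
  obtain ⟨η₀, δ₀, C, hη₀, hδ₀, hC, H⟩ := rga_decay_rot n hn
  obtain ⟨M₀, C', hM₀, hC', G⟩ := fl_graph n (1 / 2) (by norm_num) (by norm_num)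
  have hC0 : 0 < C := lt_of_lt_of_le one_pos hC
  refine ⟨min η₀ (M₀ / C), δ₀, C' * C, lt_min hη₀ (by positivity), hδ₀, by positivity, ?_⟩
  intro δ R r η x e S hδ hδδ₀ hN hr hrR hη hηle hfl L hL
  have h1 := H δ R r η x e S hδ hδδ₀ hN hr hrR hη (le_trans hηle (min_le_left _ _)) hfl L hL
  have h2 : C * η ≤ M₀ := by
    have := le_trans hηle (min_le_right _ _)
    rw [le_div_iff₀ hC0] at this
    linarith
  obtain ⟨u, hu⟩ := G _ r (C * η) hr (by positivity) h2 h1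
  exact ⟨u, by rwa [mul_assoc]⟩

end Claimed.Agent.R323
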