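import Claimed.Agent.R323.Rg.Al2
import Claimed.Agent.Lib.Gmt.RbHalf

/-!
# Row 323, block D(7) ALLARD-LITE (architect: helper281).   File 6a = LEAF L-RGA-SLAB: weak convergence of the perimeter measures to a hyperplane + lower density bound ⇒ the boundaries enter the slab.

PLAN.  If `1 ≤ η`: trivial (`|⟪y,e⟫| ≤ ‖y‖ < 1`).   Let `η < 1`, `c` from `rga_lower n`, `H = gmtHalf 0 e`.
`g y = gmtPhi (‖y‖/6) * (1 - gmtPhi (2 * |⟪y,e⟫| / η))`: continuous, `0 ≤ g ≤ 1`, support in `closedBall 0 6`; `g = 0` where `⟪y,e⟫ = 0` (`gmtPhi_eq_one`); `g = 1` where `‖y‖ ≤ 3` and `η/2 ≤ |⟪y,e⟫|` (`gmtPhi_eq_one`, `gmtPhi_eq_zero`).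
`∫ g dμ_H = 0`: `μ_H (gmtBd H)ᶜ = 0` (`gmtMu_compl_gmtBd`), `gmtBd H = {⟪y - 0,e⟫ = 0}` (`gmtBd_gmtHalf`, `Lib/Gmt/RbHalfA.lean`), so `g = 0` `μ_H`-a.e.
`hw g ..`: eventually `∫ g dμ_j < c (η/2)^n`.   For such `j`: if `y ∈ gmtBd (T j) ∩ ball 0 1`, `η < |⟪y,e⟫|`, then `g = 1` on `closedBall y (η/2)`, hence
`c (η/2)^n ≤ (η/2)^n gmtI (T j) y (η/2) ≤ μ_j (closedBall y (η/2)) ≤ ∫ g dμ_j` (`gmtI_le_ball`, `gmtMu_compact_ne_top`; `g` is `μ_j`-integrable: `fl_integrable_of_cpt` / `gmtMu_integrable_of_cpt`; `setIntegral` over the closed ball `≤` integral as `g ≥ 0`).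
-/

set_option autoImplicit false
open scoped ContDiff ENNReal NNReal RealInnerProductSpace Topology
open MeasureTheory Metric Set Filter

namespace Claimed.Agent.R323

open Claimed.Agent.Gmt

variable {n : ℕ}

theorem rga_bd_slab {e : E (n + 1)} (he : ‖e‖ = 1) {T : ℕ → Set (E (n + 1))} (hT : ∀ j, RgaSt (T j))
    (hw : GmtWk univ (fun j => gmtMu (T j)) (gmtMu (gmtHalf 0 e))) {η : ℝ} (hη : 0 < η) :
    ∀ᶠ j in atTop, ∀ y ∈ gmtBd (T j), y ∈ ball (0 : E (n + 1)) 1 → |⟪y - 0, e⟫| ≤ η * 1 := by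
  have hin : ∀ y : E (n + 1), |⟪y, e⟫| ≤ ‖y‖ := fun y => by
    have := abs_real_inner_le_norm y e
    rwa [he, mul_one] at this
  rcases le_or_gt 1 η with h1 | h1
  · refine Eventually.of_forall fun j y _ hy => ?_
    rw [mem_ball, dist_zero_right] at hy
    rw [sub_zero, mul_one]
    exact (hin y).trans (hy.le.trans h1)
  obtain ⟨c, hc, hlow⟩ := rga_lower n
  set g : E (n + 1) → ℝ := fun y => gmtPhi (‖y‖ / 6) * (1 - gmtPhi (2 * |⟪y, e⟫| / η)) with hg
  have hgc : Continuous g := by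
    have h2 : Continuous fun y : E (n + 1) => gmtPhi (‖y‖ / 6) :=
      gmtPhi_contDiff.continuous.comp (continuous_norm.div_const 6)
    have h3 : Continuous fun y : E (n + 1) => gmtPhi (2 * |⟪y, e⟫| / η) :=
      gmtPhi_contDiff.continuous.comp
        ((continuous_const.mul (continuous_id.inner continuous_const).abs).div_const η)
    exact h2.mul (continuous_const.sub h3)
  have hg0 : ∀ y, 0 ≤ g y := fun y =>
    mul_nonneg (gmtPhi_nonneg _) (sub_nonneg.2 (gmtPhi_le_one _))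
  have hgs : HasCompactSupport g := by
    refine HasCompactSupport.intro (isCompact_closedBall (0 : E (n + 1)) 6) fun y hy => ?_
    rw [mem_closedBall, dist_zero_right, not_le] at hy
    have : gmtPhi (‖y‖ / 6) = 0 := gmtPhi_eq_zero (by rw [le_div_iff₀ (by norm_num)]; linarith)
    simp only [hg, this, zero_mul]
  have hgH : ∫ y, g y ∂(gmtMu (gmtHalf (0 : E (n + 1)) e)) = 0 := by
    have h2 := gmtMu_compl_gmtBd (measurableSet_gmtHalf (0 : E (n + 1)) e)
    rw [gmtBd_gmtHalf (Nat.le_add_left 1 n) 0 he] at h2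
    have h3 : ∀ᵐ y ∂(gmtMu (gmtHalf (0 : E (n + 1)) e)), y ∈ {y : E (n + 1) | ⟪y - 0, e⟫ = 0} :=
      mem_ae_iff.2 h2
    have h4 : g =ᵐ[gmtMu (gmtHalf (0 : E (n + 1)) e)] fun _ => (0 : ℝ) := by
      filter_upwards [h3] with y hy
      have hy' : ⟪y, e⟫ = 0 := by simpa using hy
      have : gmtPhi (2 * |⟪y, e⟫| / η) = 1 := gmtPhi_eq_one (by rw [hy']; simp)
      simp only [hg, this, sub_self, mul_zero]
    rw [integral_congr_ae h4, integral_zero]
  have hlim := hw g hgc hgs (subset_univ _)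
  rw [hgH] at hlim
  have hpos : 0 < c * (η / 2) ^ n := by positivity
  filter_upwards [hlim.eventually (gt_mem_nhds hpos)] with j hj y hy hyB
  rw [sub_zero, mul_one]
  by_contra hcon
  rw [not_le] at hcon
  rw [mem_ball, dist_zero_right] at hyB
  have hη2 : 0 < η / 2 := by positivity
  have hg1 : ∀ z ∈ closedBall y (η / 2), g z = 1 := by
    intro z hz
    rw [mem_closedBall, dist_eq_norm] at hz
    have hz1 : ‖z‖ ≤ 3 := by
      have : ‖z‖ ≤ ‖z - y‖ + ‖y‖ := by simpa using norm_add_le (z - y) y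
      linarith
    have hz2 : η / 2 ≤ |⟪z, e⟫| := by
      have h5 : ⟪y, e⟫ = ⟪z, e⟫ - ⟪z - y, e⟫ := by rw [inner_sub_left]; ring
      have h6 : |⟪y, e⟫| ≤ |⟪z, e⟫| + |⟪z - y, e⟫| := by rw [h5]; exact abs_sub _ _
      have h7 := hin (z - y)
      linarith
    have e1 : gmtPhi (‖z‖ / 6) = 1 := gmtPhi_eq_one (by linarith)
    have e2 : gmtPhi (2 * |⟪z, e⟫| / η) = 0 := gmtPhi_eq_zero (by rw [le_div_iff₀ hη]; linarith)
    simp only [hg, e1, e2, sub_zero, mul_one]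
  have hfin : gmtMu (T j) (closedBall y (η / 2)) ≠ ⊤ :=
    gmtMu_compact_ne_top isOpen_univ (hT j).lf (isCompact_closedBall _ _) (subset_univ _)
  have hgi : Integrable g (gmtMu (T j)) :=
    fl_integrable_of_cpt hgc hgs
      (gmtMu_compact_ne_top isOpen_univ (hT j).lf hgs (subset_univ _))
  have h8 := (hlow (T j) (hT j) y hy (η / 2) hη2).trans (gmtI_le_ball hη2 hfin)
  rw [Nat.add_sub_cancel] at h8
  have h9 : (gmtMu (T j) (closedBall y (η / 2))).toReal ≤ ∫ z, g z ∂(gmtMu (T j)) := by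
    have h10 : ∫ z in closedBall y (η / 2), g z ∂(gmtMu (T j)) ≤ ∫ z, g z ∂(gmtMu (T j)) :=
      setIntegral_le_integral hgi (Eventually.of_forall hg0)
    have h11 : ∫ z in closedBall y (η / 2), g z ∂(gmtMu (T j)) =
        ∫ z in closedBall y (η / 2), (1 : ℝ) ∂(gmtMu (T j)) :=
      setIntegral_congr_fun measurableSet_closedBall hg1
    rw [h11, setIntegral_const] at h10
    simpa [Measure.real] using h10
  have h12 : c * (η / 2) ^ n ≤ (gmtMu (T j) (closedBall y (η / 2))).toReal := by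
    have hp : 0 < (η / 2) ^ n := by positivity
    calc c * (η / 2) ^ n
        ≤ (((η / 2) ^ n)⁻¹ * (gmtMu (T j) (closedBall y (η / 2))).toReal) * (η / 2) ^ n :=
          mul_le_mul_of_nonneg_right h8 hp.le
      _ = (gmtMu (T j) (closedBall y (η / 2))).toReal := by field_simp
  linarith

end Claimed.Agent.R323
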