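import Claimed.Agent.R323.Rg.Al6a
import Claimed.Agent.Lib.Gmt.HrConv

/-!
# Row 323, block D(7) ALLARD-LITE (architect: helper281).   File 6b: the initial data (flatness at small scales, the class `RgaN`) from a blow-up without loss of mass which is a half space.
-/

set_option autoImplicit false
open scoped ContDiff ENNReal NNReal RealInnerProductSpace Topology
open MeasureTheory Metric Set Filter

namespace Claimed.Agent.R323

open Claimed.Agent.Gmt

variable {n : ℕ}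

/-- flatness of the half space passes to the sequence. -/
theorem rga_flat_conv {e : E (n + 1)} (he : ‖e‖ = 1) {T : ℕ → Set (E (n + 1))} (hT : ∀ j, RgaSt (T j))
    (hc : GmtConv univ T (gmtHalf 0 e))
    (hw : GmtWk univ (fun j => gmtMu (T j)) (gmtMu (gmtHalf 0 e))) {η : ℝ} (hη : 0 < η) (hη1 : η < 1) :
    ∀ᶠ j in atTop, FlFlat (T j) 0 1 η e := by
  have hK : IsCompact (closedBall (0 : E (n + 1)) 1) := isCompact_closedBall _ _
  have hWm := hrc_cap_pos (x := (0 : E (n + 1))) he (r := 1) (c := η * 1) (by positivity) (by linarith) (-1)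
    (by simp)
  have hWp := hrc_cap_pos (x := (0 : E (n + 1))) he (r := 1) (c := η * 1) (by positivity) (by linarith) 1
    (by simp)
  have hTt := hc _ hK (subset_univ _)
  have hev1 := (tendsto_order.1 hTt).2 _ hWm
  have hev2 := (tendsto_order.1 hTt).2 _ hWp
  filter_upwards [rga_bd_slab he hT hw hη, hev1, hev2] with i hi h1 h2
  refine fl_flat_of_bd_vol he one_pos hi ?_ ?_
  · intro hcon
    have hle : volume (ball (0 : E (n + 1)) 1 ∩ {y | η * 1 < -1 * ⟪y - 0, e⟫}) ≤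
        volume (symmDiff (T i) (gmtHalf 0 e) ∩ closedBall 0 1) := by
      refine measure_mono_ae ?_
      filter_upwards [hcon] with y hy1 hyW
      have hW2 : η * 1 < -1 * ⟪y - 0, e⟫ := hyW.2
      have n1 : y ∉ T i := hy1 hyW.1 (by linarith)
      have n2 : y ∈ gmtHalf 0 e := by
        show ⟪y - 0, e⟫ < 0
        linarith
      exact ⟨Or.inr ⟨n2, n1⟩, ball_subset_closedBall hyW.1⟩
    exact absurd h1 (not_lt.2 hle)
  · intro hcon
    have hle : volume (ball (0 : E (n + 1)) 1 ∩ {y | η * 1 < 1 * ⟪y - 0, e⟫}) ≤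
        volume (symmDiff (T i) (gmtHalf 0 e) ∩ closedBall 0 1) := by
      refine measure_mono_ae ?_
      filter_upwards [hcon] with y hy1 hyW
      have hW2 : η * 1 < 1 * ⟪y - 0, e⟫ := hyW.2
      have n1 : y ∈ T i := hy1 hyW.1 (by linarith)
      have n2 : y ∉ gmtHalf 0 e := by
        show ¬ ⟪y - 0, e⟫ < 0
        linarith
      exact ⟨Or.inl ⟨n1, n2⟩, ball_subset_closedBall hyW.1⟩
    exact absurd h2 (not_lt.2 hle)

theorem rga_dil_eq_blow (x : E (n + 1)) (ρ : ℝ) (S : Set (E (n + 1))) :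
    gmtDil x ρ S = gmtBlow (LinearIsometryEquiv.refl ℝ (E (n + 1))).toContinuousLinearEquiv x ρ S := by
  ext y
  simp [gmtBlow, gmtAff, gmtDil]

/-- flatness at arbitrarily small scales. -/
theorem rga_init_flat {S : Set (E (n + 1))} (hS : RgaSt S) {x e : E (n + 1)} (he : ‖e‖ = 1) {r : ℕ → ℝ}
    (hr : ∀ j, 0 < r j) (hr0 : Tendsto r atTop (𝓝 0)) (hb : BlowTo S x r (gmtHalf 0 e)) {η R : ℝ}
    (hη : 0 < η) (hη1 : η < 1) (hR : 0 < R) : ∃ r' : ℝ, 0 < r' ∧ r' ≤ R ∧ FlFlat S x r' η e := by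
  obtain ⟨φ, hφ, hc, hw⟩ := hb
  have h1 := rga_flat_conv he (fun j => hS.dil x (hr (φ j))) hc hw hη hη1
  have h2 : ∀ᶠ j in atTop, r (φ j) < R := (tendsto_order.1 (hr0.comp hφ.tendsto_atTop)).2 R hR
  obtain ⟨j, hj1, hj2⟩ := (h1.and h2).exists
  refine ⟨r (φ j), hr _, hj2.le, ?_⟩
  rw [rga_dil_eq_blow] at hj1
  have := FlFlat.of_blow_isometry (LinearIsometryEquiv.refl ℝ (E (n + 1))) (hr (φ j)) hj1
  rw [one_mul] at this
  exact this

/-- the class `RgaN`. -/
theorem rga_init_dens {S : Set (E (n + 1))} (hS : RgaSt S) {x e : E (n + 1)} (he : ‖e‖ = 1) {r : ℕ → ℝ}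
    (hr : ∀ j, 0 < r j) (hb : BlowTo S x r (gmtHalf 0 e)) {δ : ℝ} (hδ : 0 < δ) :
    ∃ R : ℝ, 0 < R ∧ RgaN δ S x R := by
  obtain ⟨φ, hφ, hc, hw⟩ := hb
  have hH := rga_H_pos n
  have h1 := gmtI_wk hw 0 one_pos
  rw [rga_I_half he one_pos] at h1
  have h2 : ∀ᶠ j in atTop, gmtI (gmtDil x (r (φ j)) S) 0 1 < (1 + δ / 2) * rgaH n :=
    (tendsto_order.1 h1).2 _ (by nlinarith)
  obtain ⟨j, hj⟩ := h2.exists
  rw [gmtI_gmtDil x (hr (φ j)) hS.lf.1, smul_zero, add_zero, mul_one] at hj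
  have hcont := (gmtI_continuous hS.lf (hr (φ j))).continuousAt (x := x)
  have h3 : ∀ᶠ z in 𝓝 x, gmtI S z (r (φ j)) < (1 + δ) * rgaH n :=
    (tendsto_order.1 hcont).2 _ (by nlinarith)
  obtain ⟨R₂, hR₂, hball⟩ := Metric.eventually_nhds_iff_ball.1 h3
  refine ⟨min (r (φ j)) R₂, lt_min (hr _) hR₂, hS, fun z _ hzR ρ hρ hρR => ?_⟩
  have h4 := rga_mono (by omega) hS z (show ρ ∈ Ioi (0 : ℝ) from hρ) (show r (φ j) ∈ Ioi (0 : ℝ) from hr _)
    (hρR.trans (min_le_left _ _))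
  exact h4.trans (hball z (ball_subset_ball (min_le_right _ _) hzR)).le

end Claimed.Agent.R323
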