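import Claimed.Agent.R323.Rg.Al2
import Claimed.Agent.Lib.Gmt.HrTop
import Claimed.Agent.Lib.Gmt.HrConv

/-!
# Row 323, block D(7) ALLARD-LITE (architect: helper281).   File 7: a stationary `C^{1,1/2}` graph is smooth (copy-adapt of `hr_el_weak`, `Lib/Gmt/HrEL2.lean`, and of `hr_fam_of`, `Lib/Gmt/HrConv4.lean`: minimality is used there only through the first variation).
-/

set_option autoImplicit false
open scoped ContDiff ENNReal NNReal RealInnerProductSpace Topology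
open MeasureTheory Metric Set Filter

namespace Claimed.Agent.R323

open Claimed.Agent.Gmt

variable {m n : ℕ}

/-- the first variation in the form of `gmt_lam_fv`. -/
theorem rga_fv1 {S : Set (E m)} (hS : RgaSt S) {X : E m → E m} (hX : GmtTestS univ X) :
    ∫ x, (gmtFv1 (fun _ => gmtEu m) X x (gmtNu S x) - (fun _ : E m => (0 : ℝ)) x * ⟪X x, gmtNu S x⟫) ∂(gmtMu S) = 0 := by
  have h := hS.stat X hX
  unfold gmtDelta at h
  refine Eq.trans ?_ h
  have hae := (ae_restrict_iff' isOpen_univ.measurableSet).1 (norm_gmtNu_ae isOpen_univ hS.lf)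
  refine integral_congr_ae ?_
  filter_upwards [hae] with x hx
  by_cases hxs : x ∈ tsupport X
  · have h1 : ‖gmtNu S x‖ = 1 := hx (hX.sub hxs)
    have h2 : gmtEu m (gmtNu S x) (gmtNu S x) = 1 := by
      rw [gmtEu_apply, real_inner_self_eq_norm_sq, h1, one_pow]
    unfold gmtFv1
    simp only [h2, Real.sqrt_one, one_mul, div_one, zero_mul, sub_zero]
    rw [fderiv_fun_const]
    simp only [Pi.zero_apply, _root_.zero_apply, zero_div, zero_sub, gmtEu_apply,
      ContinuousLinearMap.adjoint_inner_right]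
    rw [real_inner_comm]
    ring
  · rw [gmtFv1_of_notMem _ hxs, gmtDiv_eq_zero_of_notMem hxs, fderiv_of_notMem_tsupport ℝ hxs]
    simp

/-- **the weak Euler-Lagrange equation.** -/
theorem rga_el_weak {U S : Set (E (n + 1))} {A : E (n + 1) → Bil (n + 1)} {f : E (n + 1) → ℝ}
    {u : E n → ℝ} {ρ : ℝ} (hd : GmtData U A f)
    (hfv : ∀ X, GmtTestS U X → ∫ x, (gmtFv1 A X x (gmtNu S x) - f x * ⟪X x, gmtNu S x⟫) ∂(gmtMu S) = 0)
    (hC : hrCyl ρ ⊆ U) (h : HrSub S u ρ) : Lib.Ell.WeakQuasi (ball (0 : E n) ρ) (hrA A) (hrB A f) u := by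
  intro ψ hψ
  have hB : IsOpen (ball (0 : E n) ρ) := isOpen_ball
  -- continuity on the ball
  have hgrad : ContinuousOn (gradient u) (ball (0 : E n) ρ) := by
    have h1 : ContinuousOn (fderiv ℝ u) (ball (0 : E n) ρ) :=
      h.c1.continuousOn_fderiv_of_isOpen isOpen_ball le_rfl
    exact (InnerProductSpace.toDual ℝ (E n)).symm.continuous.comp_continuousOn h1
  have hgradψ : Continuous (gradient ψ) :=
    (InnerProductSpace.toDual ℝ (E n)).symm.continuous.comp (hψ.1.continuous_fderiv (by simp))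
  have hN : ContinuousOn (hrN u) (ball (0 : E n) ρ) :=
    fl_continuous_join.comp_continuousOn (hgrad.neg.prodMk continuousOn_const)
  have hΓ : ContinuousOn (hrG u) (ball (0 : E n) ρ) :=
    fl_continuous_join.comp_continuousOn (continuousOn_id.prodMk h.c1.continuousOn)
  have hΓU : MapsTo (hrG u) (ball (0 : E n) ρ) U := by
    intro z hz
    refine hC ⟨?_, ?_⟩
    · rw [hrG, fl_hor_join]
      exact mem_ball_zero_iff.1 hz
    · rw [hrG, fl_ver_join]
      exact h.lt z hz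
  have hAΓ : ContinuousOn (fun z => A (hrG u z)) (ball (0 : E n) ρ) :=
    hd.int.smooth.continuousOn.comp hΓ hΓU
  have hQ : ContinuousOn (fun z => A (hrG u z) (hrN u z) (hrN u z)) (ball (0 : E n) ρ) :=
    (hAΓ.clm_apply hN).clm_apply hN
  have hN0 : ∀ z, hrN u z ≠ 0 := fun z h0 => by
    have := hr_one_le_norm_N u z
    rw [h0, norm_zero] at this
    linarith
  have hFc : ContinuousOn (fun z => hrF A (z, u z, gradient u z)) (ball (0 : E n) ρ) :=
    Real.continuous_sqrt.comp_continuousOn hQ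
  have hFne : ∀ z ∈ ball (0 : E n) ρ, hrF A (z, u z, gradient u z) ≠ 0 := fun z hz =>
    (Real.sqrt_pos.2 (hd.int.pos _ (hΓU hz) _ (hN0 z))).ne'
  have t1 : ContinuousOn (fun z => ⟪hrA A (z, u z, gradient u z), gradient ψ z⟫) (ball (0 : E n) ρ) := by
    simp only [hr_A_inner]
    exact ((hFc.inv₀ hFne).mul ((hAΓ.clm_apply hN).clm_apply
      ((flInc n).continuous.comp hgradψ).continuousOn)).neg
  have hDA : ContinuousOn (fun z => fderiv ℝ A (hrG u z) (gmtEn n)) (ball (0 : E n) ρ) :=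
    (gmt_fderiv_apply_continuousOn hd.opn hd.int.smooth (continuous_const (y := gmtEn n))).comp hΓ hΓU
  have t2 : ContinuousOn (fun z => hrB A f (z, u z, gradient u z) * ψ z) (ball (0 : E n) ρ) := by
    have h2F : ContinuousOn (fun z => (2 * hrF A (z, u z, gradient u z))⁻¹) (ball (0 : E n) ρ) :=
      (continuousOn_const.mul hFc).inv₀ fun z hz => mul_ne_zero two_ne_zero (hFne z hz)
    exact ((h2F.mul ((hDA.clm_apply hN).clm_apply hN)).sub (hd.f.continuousOn.comp hΓ hΓU)).mul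
      hψ.1.continuous.continuousOn
  have z1 : ∀ z, z ∉ tsupport ψ → ⟪hrA A (z, u z, gradient u z), gradient ψ z⟫ = 0 := by
    intro z hz
    have : gradient ψ z = 0 := by
      unfold gradient
      rw [fderiv_of_notMem_tsupport (𝕜 := ℝ) hz, map_zero]
    rw [this, inner_zero_right]
  have z2 : ∀ z, z ∉ tsupport ψ → hrB A f (z, u z, gradient u z) * ψ z = 0 := by
    intro z hz
    rw [image_eq_zero_of_notMem_tsupport hz, mul_zero]
  have i1 : Integrable (fun z => ⟪hrA A (z, u z, gradient u z), gradient ψ z⟫) :=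
    (hr_gg_continuous_of_zero_off hB (isClosed_tsupport ψ) hψ.2.2 t1 z1).integrable_of_hasCompactSupport
      (HasCompactSupport.intro hψ.2.1 z1)
  have i2 : Integrable (fun z => hrB A f (z, u z, gradient u z) * ψ z) :=
    (hr_gg_continuous_of_zero_off hB (isClosed_tsupport ψ) hψ.2.2 t2 z2).integrable_of_hasCompactSupport
      (HasCompactSupport.intro hψ.2.1 z2)
  rw [← integral_add i1 i2]
  -- the height bound on the support
  obtain ⟨b₀, hb₀, hb₀ρ, hub⟩ : ∃ b₀ : ℝ, 0 ≤ b₀ ∧ b₀ < ρ ∧ ∀ z ∈ tsupport ψ, |u z| ≤ b₀ := by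
    by_cases hne : (tsupport ψ).Nonempty
    · obtain ⟨z₀, hz₀, hmax⟩ := hψ.2.1.isCompact.exists_isMaxOn hne
        (continuous_abs.comp_continuousOn (h.c1.continuousOn.mono hψ.2.2))
      exact ⟨|u z₀|, abs_nonneg _, h.lt z₀ (hψ.2.2 hz₀), fun z hz => hmax hz⟩
    · exact ⟨0, le_rfl, h.pos, fun z hz => absurd ⟨z, hz⟩ hne⟩
  obtain ⟨k, hk, hk1, hk0⟩ := hr_el_cut (b := (2 * b₀ + ρ) / 3) (c := (b₀ + 2 * ρ) / 3) (by linarith)
    (by linarith)
  have hkz : ∀ z, z ∈ tsupport ψ → k (u z) = 1 ∧ deriv k (u z) = 0 := by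
    intro z hz
    have hlt : |u z| < (2 * b₀ + ρ) / 3 := lt_of_le_of_lt (hub z hz) (by linarith)
    refine ⟨hk1 _ hlt.le, ?_⟩
    have ho : IsOpen {t : ℝ | |t| < (2 * b₀ + ρ) / 3} := isOpen_lt continuous_abs continuous_const
    have : k =ᶠ[𝓝 (u z)] fun _ => 1 := by
      filter_upwards [ho.mem_nhds hlt] with t ht using hk1 t (le_of_lt ht)
    rw [this.deriv_eq]
    simp
  have hX : GmtTestS (hrCyl ρ) (flVert (flPr ψ k)) := hr_el_testS hψ hk hk0 (by linarith)
  have hXU : GmtTestS U (flVert (flPr ψ k)) := ⟨hX.smooth, hX.cpt, hX.sub.trans hC⟩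
  have fv := hfv _ hXU
  rw [← setIntegral_eq_integral_of_forall_compl_eq_zero (s := hrCyl ρ)] at fv
  · have hsub := hr_sub_integral h
      (g := fun y ν => gmtFv1 A (flVert (flPr ψ k)) y ν - f y * ⟪flVert (flPr ψ k) y, ν⟫)
      ((hr_el_cont hd hXU).mono (prod_mono hC subset_rfl))
    rw [fv] at hsub
    rw [setIntegral_congr_fun measurableSet_ball
      (fun z _ => hr_el_pointwise A f hψ.1 hk (hkz z))] at hsub
    rw [← setIntegral_eq_integral_of_forall_compl_eq_zero (s := ball (0 : E n) ρ)]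
    · exact hsub.symm
    · intro z hz
      have hz' : z ∉ tsupport ψ := fun h' => hz (hψ.2.2 h')
      rw [z1 z hz', z2 z hz', add_zero]
  · intro y hy
    have hy' : y ∉ tsupport (flVert (flPr ψ k)) := fun h' => hy (hX.sub h')
    rw [gmtFv1_of_notMem A hy', image_eq_zero_of_notMem_tsupport hy', inner_zero_left, mul_zero, sub_zero]

/-! ### structure -/


theorem rga_dat (ρ : ℝ) : HrDat ρ 1 1 (fun _ : E (n + 1) => gmtEu (n + 1)) (fun _ => 0) := by
  refine ⟨contDiffOn_const, contDiffOn_const, fun y _ ξ η => ?_, fun y _ ξ => ?_, fun y _ ξ => ?_⟩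
  · simp only [gmtEu_apply]
    exact real_inner_comm _ _
  · simp only [gmtEu_apply, real_inner_self_eq_norm_sq]
    linarith
  · simp only [gmtEu_apply, real_inner_self_eq_norm_sq]
    linarith

theorem rga_const_bdd {F : Type*} [NormedAddCommGroup F] [NormedSpace ℝ F] (a : F) (k : ℕ) :
    ∃ M : ℝ, ∀ _ : ℕ, ∀ y ∈ (hrCyl (1 : ℝ) : Set (E (n + 1))) ∪ univ, ‖iteratedFDeriv ℝ k (fun _ : E (n + 1) => a) y‖ ≤ M := by
  rcases Nat.eq_zero_or_pos k with rfl | hk
  · exact ⟨‖a‖, fun _ y _ => by simp⟩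
  · exact ⟨0, fun _ y _ => by rw [iteratedFDeriv_const_of_ne hk.ne']; simp⟩

/-- **a stationary `C^{1,1/2}` graph is smooth.** -/
theorem rga_smooth_of_gr {S : Set (E (n + 1))} (hS : RgaSt S) {u : E n → ℝ} {ρ K : ℝ} (hρ : 0 < ρ)
    (hK : K ≤ 1 / 2) (hgr : FlGr S u ρ K) : ContDiffOn ℝ ∞ u (ball 0 ρ) ∧ HrSub S u ρ := by
  have hsub : HrSub S u ρ := hr_sub_of_gr hρ (by linarith) hS.lf.1 hgr
  have hd : GmtData (univ : Set (E (n + 1))) (fun _ => gmtEu (n + 1)) (fun _ => 0) :=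
    ⟨isOpen_univ, gmtInt_eu _, contDiffOn_const⟩
  have hweak := rga_el_weak hd (fun X hX => rga_fv1 hS hX) (subset_univ _) hsub
  have hdat : ∀ _ : ℕ, HrDat ρ 1 1 (fun _ : E (n + 1) => gmtEu (n + 1)) (fun _ => 0) := fun _ => rga_dat ρ
  have hA : ∀ k : ℕ, ∃ M : ℝ, ∀ _ : ℕ, ∀ y ∈ (hrCyl ρ : Set (E (n + 1))),
      ‖iteratedFDeriv ℝ k (fun _ : E (n + 1) => gmtEu (n + 1)) y‖ ≤ M := fun k => by
    obtain ⟨M, hM⟩ := rga_const_bdd (n := n) (gmtEu (n + 1)) k
    exact ⟨M, fun i y _ => hM i y (Or.inr (mem_univ _))⟩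
  have hf : ∀ k : ℕ, ∃ M : ℝ, ∀ _ : ℕ, ∀ y ∈ (hrCyl ρ : Set (E (n + 1))),
      ‖iteratedFDeriv ℝ k (fun _ : E (n + 1) => (0 : ℝ)) y‖ ≤ M := fun k => by
    obtain ⟨M, hM⟩ := rga_const_bdd (n := n) (0 : ℝ) k
    exact ⟨M, fun i y _ => hM i y (Or.inr (mem_univ _))⟩
  have hfam : HrFam ρ 1 ((1 : ℝ) ^ 4 / (1 * Real.sqrt (1 + 1 ^ 2)) ^ 3) (K / Real.sqrt ρ)
      (fun _ => hrA (fun _ : E (n + 1) => gmtEu (n + 1)))
      (fun _ => hrB (fun _ : E (n + 1) => gmtEu (n + 1)) (fun _ => 0)) (fun _ => u) := by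
    refine ⟨⟨hρ, one_pos, by positivity⟩, fun i => (hr_struct_smooth one_pos (hdat i)).1,
      fun i => (hr_struct_smooth one_pos (hdat i)).2, fun k => hr_struct_bdd one_pos one_pos hdat hA hf k,
      fun i w hw q => hr_struct_ell one_pos le_rfl (hdat i) hw q, ?_, fun i => hgr.diff, ?_, ?_, ?_, ?_⟩
    · intro i w hw q q'
      rw [hr_A_fderiv one_pos (hdat i) hw q q', real_inner_comm, hr_A_fderiv one_pos (hdat i) hw q' q,
        (hdat i).symm _ (hr_box_cyl hw) (flInc n q) (flInc n q')]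
      ring
    · intro i z hz
      refine (hgr.bound z hz).trans ?_
      nlinarith
    · intro i z hz
      exact (hgr.grad z hz).trans (by linarith)
    · intro i z hz z' hz'
      refine (hgr.hol z hz z' hz').trans (le_of_eq ?_)
      rw [Real.sqrt_div (norm_nonneg _)]
      ring
    · intro i
      exact hweak
  exact ⟨hr_quasi_smooth hfam 0, hsub⟩

/-- **regularity from a graph in a rotated frame.** -/
theorem rga_reg_of_gr {S : Set (E (n + 1))} (hS : RgaSt S) {x : E (n + 1)} (hx : x ∈ gmtBd S)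
    (L : E (n + 1) ≃ₗᵢ[ℝ] E (n + 1)) {u : E n → ℝ} {ρ K : ℝ} (hρ : 0 < ρ) (hK : K ≤ 1 / 2)
    (hgr : FlGr (gmtBlow L.toContinuousLinearEquiv x 1 S) u ρ K) : GmtReg S x := by
  obtain ⟨hsm, hsub⟩ := rga_smooth_of_gr (hS.blow L x one_pos) hρ hK hgr
  obtain ⟨d1, d2, d3⟩ := hr_def_of_sub L x hsm hsub
  refine ⟨ρ, hρ, _, d1, ?_, d2, d3⟩
  have h0 : (0 : E (n + 1)) ∈ gmtBd (gmtBlow L.toContinuousLinearEquiv x 1 S) := by
    rw [gmtBd_gmtBlow _ _ one_pos]
    show gmtAff L.toContinuousLinearEquiv x 1 0 ∈ gmtBd S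
    simpa [gmtAff] using hx
  have h1 := (hgr.bd 0 (by simpa [gmtHor] using hρ) (by simpa [gmtVer] using hρ)).1 h0
  simp only [sub_self, map_zero]
  rw [h1]
  simp

end Claimed.Agent.R323
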