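import Claimed.Agent.R323.Rg.Al5b
import Claimed.Agent.R323.Rg.Al6b
import Claimed.Agent.R323.Rg.Al7
import Claimed.Agent.R323.Rg.Mono

/-!
# Row 323, block D(7) ALLARD-LITE (architect: helper281).   EXIT: `rga_main`.

A stationary boundary one of whose blow-ups at the boundary point `x`, WITHOUT LOSS OF MASS, is a half space, is regular at `x`.
-/

set_option autoImplicit false
open scoped ContDiff ENNReal NNReal RealInnerProductSpace Topology
open MeasureTheory Metric Set Filter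

namespace Claimed.Agent.R323

open Claimed.Agent.Gmt

variable {n : ℕ}

/-- **ALLARD-LITE** in `E (n+1)`. -/
theorem rga_main_succ (hn : 1 ≤ n) {S : Set (E (n + 1))} (hS : RgaSt S) {x e : E (n + 1)} (hx : x ∈ gmtBd S)
    (he : ‖e‖ = 1) {r : ℕ → ℝ} (hr : ∀ j, 0 < r j) (hr0 : Tendsto r atTop (𝓝 0))
    (hb : BlowTo S x r (gmtHalf 0 e)) : GmtReg S x := by
  obtain ⟨η₀, δ₀, C, hη₀, hδ₀, hC, H⟩ := rga_c1a n hn
  obtain ⟨R, hR, hN⟩ := rga_init_dens hS he hr hb hδ₀
  obtain ⟨η, hη, hη1, hη2, hη3⟩ : ∃ η : ℝ, 0 < η ∧ η < 1 ∧ η ≤ η₀ ∧ C * η ≤ 1 / 2 := by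
    refine ⟨min (1 / 2) (min η₀ (1 / (2 * C))), lt_min (by norm_num) (lt_min hη₀ (by positivity)),
      lt_of_le_of_lt (min_le_left _ _) (by norm_num), (min_le_right _ _).trans (min_le_left _ _), ?_⟩
    have := mul_le_mul_of_nonneg_left
      ((min_le_right (1 / 2) (min η₀ (1 / (2 * C)))).trans (min_le_right _ _)) hC.le
    have e1 : C * (1 / (2 * C)) = 1 / 2 := by field_simp
    linarith
  obtain ⟨r', hr', hr'R, hfl⟩ := rga_init_flat hS he hr hr0 hb hη hη1 (show 0 < R / 4 by positivity)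
  obtain ⟨L, hL⟩ := fl_exists_rot he
  obtain ⟨u, hu⟩ := H δ₀ R r' η x e S hδ₀.le le_rfl hN hr' (by linarith) hη hη2 hfl L hL
  exact rga_reg_of_gr hS hx L (by positivity) hη3 hu

/-- **ALLARD-LITE** (the exit used by `Rg/Main.lean`). -/
theorem rga_main (hn : 2 ≤ n) {S : Set (E n)} (hS : RgaSt S) {x e : E n} (hx : x ∈ gmtBd S) (he : ‖e‖ = 1)
    {r : ℕ → ℝ} (hr : ∀ j, 0 < r j) (hr0 : Tendsto r atTop (𝓝 0)) (hb : BlowTo S x r (gmtHalf 0 e)) :
    GmtReg S x := by
  obtain ⟨k, rfl⟩ : ∃ k, n = k + 1 := ⟨n - 1, by omega⟩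
  exact rga_main_succ (by omega) hS hx he hr hr0 hb

/-- the same for a blow-up which is a.e. a half space. -/
theorem rga_main' (hn : 2 ≤ n) {S S' : Set (E n)} (hS : RgaSt S) {x : E n} (hx : x ∈ gmtBd S)
    {r : ℕ → ℝ} (hr : ∀ j, 0 < r j) (hr0 : Tendsto r atTop (𝓝 0)) (hm : MeasurableSet S')
    (hb : BlowTo S x r S') (hS' : IsHalf S') : GmtReg S x := by
  obtain ⟨e, he, hae⟩ := hS'
  refine rga_main hn hS hx he hr hr0 ?_
  obtain ⟨φ, hφ, hc, hw⟩ := hb
  have hmH : MeasurableSet (gmtHalf (0 : E n) e) :=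
    (isOpen_lt ((continuous_id.sub continuous_const).inner continuous_const) continuous_const).measurableSet
  refine ⟨φ, hφ, ?_, ?_⟩
  · intro K hK hKU
    refine (hc K hK hKU).congr fun j => measure_congr ?_
    filter_upwards [hae.mem_iff] with y hy
    apply propext
    show (y ∈ symmDiff _ S' ∩ K) ↔ (y ∈ symmDiff _ (gmtHalf 0 e) ∩ K)
    simp only [mem_inter_iff, mem_symmDiff, hy]
  · have h1 := gmtMu_restrict_congr isOpen_univ hm hmH (by simpa using hae)
    rw [Measure.restrict_univ, Measure.restrict_univ] at h1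
    rwa [h1] at hw

end Claimed.Agent.R323
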