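import Claimed.Agent.R323.Rg.Mono
import Claimed.Agent.R323.Kit.Tube

/-!
# Row 323, block D: regular stationary cones in LOW DIMENSIONS (`E 1`, `E 2`, `E 3`) are half spaces.   Architect: helper36.

Everything is a copy/adaptation of `Lib/Gmt` (`SimTwo*`, `SimFlatA`, `SpB.gmt_no_singcone_one`), where minimality enters only through the first variation
(`gmt_lam_fv`, `gmt_min_fv`) and, in `E 2`, through the density bound `gmtSim_two_density` (here: a hypothesis).

PLANS
* the tube of a `MinCone`: `Kit/Tube.kit_tube` (helper245).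
* `rg_A_zero_three`: `H = gmtSimH u x` is symmetric (second derivative), `H (∇u) = 0` (differentiate `‖∇u‖² = 1`), `H x = 0` (`gmtSimFlat_H_self`), `tr H = gmtDiv (∇u) x = 0` (`harm`), `x ⊥ ∇u x` (`hom`, `u x = 0`), `x ≠ 0`:
  in an orthonormal basis `(∇u, x/|x|, w)` of `E 3`: `⟪H w, w⟫ = tr H = 0`, `H w ⊥ ∇u, x` by symmetry, so `H w = 0`, `H = 0`.  See `gmtSim_A_zero_two`.
* `rg_two_balance`: copy of `gmtSim_two_balance`.   `rg_two`: copy of `gmtSim_two`; `card F = μ(ball 0 1) ≤ 2 Θ < 4` (`gmtSimA2_om_one`).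
* `rg_one`: copy of `gmt_no_singcone_one` (its first 3/4: `C` is a.e. `Hn` or `Hp`).
-/

set_option autoImplicit false
open scoped ContDiff ENNReal NNReal RealInnerProductSpace Topology
open MeasureTheory Metric Set Filter

namespace Claimed.Agent.R323

open Claimed.Agent.Gmt

variable {k : ℕ}

theorem rg_sym_zero_three (H : E 3 →L[ℝ] E 3) (hs : ∀ v w, ⟪H v, w⟫ = ⟪v, H w⟫) {a b : E 3}
    (ha : a ≠ 0) (hb : b ≠ 0) (hab : ⟪a, b⟫ = 0) (hHa : H a = 0) (hHb : H b = 0)
    (htr : ∑ i : Fin 3, H (eb i) i = 0) : H = 0 := by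
  have hna : ‖a‖ ≠ 0 := norm_ne_zero_iff.2 ha
  have hnb : ‖b‖ ≠ 0 := norm_ne_zero_iff.2 hb
  set v : Fin 3 → E 3 := ![‖a‖⁻¹ • a, ‖b‖⁻¹ • b, 0] with hv
  have hv0 : v 0 = ‖a‖⁻¹ • a := rfl
  have hv1 : v 1 = ‖b‖⁻¹ • b := rfl
  have hon : Orthonormal ℝ (({0, 1} : Set (Fin 3)).domRestrict v) := by
    rw [orthonormal_iff_ite]
    rintro ⟨i, hi⟩ ⟨j, hj⟩
    simp only [Set.mem_insert_iff, Set.mem_singleton_iff] at hi hj
    rcases hi with rfl | rfl <;> rcases hj with rfl | rfl
    · show ⟪v 0, v 0⟫ = _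
      rw [hv0, inner_smul_left, inner_smul_right, real_inner_self_eq_norm_sq]
      simp
      field_simp
    · show ⟪v 0, v 1⟫ = _
      rw [hv0, hv1, inner_smul_left, inner_smul_right, hab]
      simp
    · show ⟪v 1, v 0⟫ = _
      rw [hv0, hv1, inner_smul_left, inner_smul_right, real_inner_comm, hab]
      simp
    · show ⟪v 1, v 1⟫ = _
      rw [hv1, inner_smul_left, inner_smul_right, real_inner_self_eq_norm_sq]
      simp
      field_simp
  obtain ⟨c, hc⟩ := hon.exists_orthonormalBasis_extension_of_card_eq (by simp)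
  have hc0 : c 0 = ‖a‖⁻¹ • a := by rw [hc 0 (by simp), hv0]
  have hc1 : c 1 = ‖b‖⁻¹ • b := by rw [hc 1 (by simp), hv1]
  have hH0 : H (c 0) = 0 := by rw [hc0, map_smul, hHa, smul_zero]
  have hH1 : H (c 1) = 0 := by rw [hc1, map_smul, hHb, smul_zero]
  have htr' : LinearMap.trace ℝ (E 3) (H : E 3 →ₗ[ℝ] E 3) = 0 := by
    rw [LinearMap.trace_eq_sum_inner _ (EuclideanSpace.basisFun (Fin 3) ℝ), ← htr]
    refine Finset.sum_congr rfl fun i _ => ?_
    simp [EuclideanSpace.basisFun_apply, EuclideanSpace.inner_single_left]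
  rw [LinearMap.trace_eq_sum_inner _ c, Fin.sum_univ_three] at htr'
  simp only [ContinuousLinearMap.coe_coe, hH0, hH1, inner_zero_right, zero_add] at htr'
  have hH2 : H (c 2) = 0 := by
    rw [← c.sum_repr' (H (c 2)), Fin.sum_univ_three, htr', ← hs (c 0), ← hs (c 1), hH0, hH1]
    simp
  have hall : ∀ i, H (c i) = 0 := by
    intro i
    fin_cases i
    · exact hH0
    · exact hH1
    · exact hH2
  ext1 w
  rw [← c.sum_repr' w, map_sum]
  simp [hall]

theorem rg_A_zero_three {S U : Set (E 3)} {u : E 3 → ℝ} (hc : GmtSimCone S U u) :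
    ∀ x ∈ gmtBd S, x ≠ 0 → gmtSimA u x = 0 := by
  intro x hx hx0
  have hxU : x ∈ U := hc.bd x hx hx0
  have hN : gmtSimH u x (gradient u x) = 0 := gmtSim_H_gradient hc.opn hc.smooth hc.eik hxU
  have hX : gmtSimH u x x = 0 := gmtSimFlat_H_self hc.opn hc.smooth hc.hom hxU
  have hux : u x = 0 := (hc.zero_iff x hxU).2 hx
  have horth : ⟪x, gradient u x⟫ = 0 := by rw [hc.hom x hxU, hux]
  have hNne : gradient u x ≠ 0 := by
    intro h
    have := hc.eik x hxU
    rw [h, norm_zero] at this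
    exact zero_ne_one this
  have htr : ∑ i : Fin 3, gmtSimH u x (eb i) i = 0 := hc.harm x hxU hux
  have hzero : gmtSimH u x = 0 :=
    rg_sym_zero_three (gmtSimH u x) (gmtSim_H_symm hc.opn hc.smooth hxU) hx0 hNne horth hX hN htr
  unfold gmtSimA
  rw [hzero]
  simp

theorem rg_three {C : Set (E 3)} (hC : MinCone 3 C) : IsHalf C := by
  obtain ⟨U, hc, -⟩ := kit_tube hC
  exact gmtSim_flat_global le_rfl hC.meas hC.vert (gmtSim_flat_local hc (rg_A_zero_three hc))

theorem rg_two_balance {S : Set (E 2)} (hst : ∀ X, GmtTestS univ X → gmtDelta S X = 0) {F : Finset (E 2)}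
    (hF : ∀ v ∈ F, ‖v‖ = 1) (hμ : gmtMu S = ∑ v ∈ F, gmtSimRay v) {σ : E 2 → ℝ}
    (hσ : ∀ v ∈ F, σ v = 1 ∨ σ v = -1)
    (hν : ∀ v ∈ F, ∀ᵐ x ∂(gmtSimRay v), gmtNu S x = σ v • gmtSimJ v) :
    ∑ v ∈ F, v = 0 := by
  have hηd : Differentiable ℝ gmtSimEta := gmtSimEta_contDiff.differentiable (by simp)
  have key : ∀ b : E 2, ∑ v ∈ F, ⟪v, b⟫ = 0 := by
    intro b
    have hX : GmtTestS univ (fun x : E 2 => gmtSimEta (‖x‖ ^ 2) • b) :=
      ⟨(gmtSimT_contDiff gmtSimEta_contDiff).smul contDiff_const,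
        gmtSimT_cpt fun x hx => by rw [gmtSimEta_of_two_le hx.le, zero_smul], subset_univ _⟩
    have hfd : ∀ x w : E 2, fderiv ℝ (fun x : E 2 => gmtSimEta (‖x‖ ^ 2) • b) x w
        = (2 * deriv gmtSimEta (‖x‖ ^ 2) * ⟪x, w⟫) • b := by
      intro x w
      rw [((gmtSimT_hasFDerivAt hηd x).smul_const b).fderiv]
      simp only [ContinuousLinearMap.smulRight_apply, smul_apply, innerSL_apply_apply]
      congr 1
      simp
      ring
    have hdiv : ∀ x : E 2, gmtDiv (fun x : E 2 => gmtSimEta (‖x‖ ^ 2) • b) x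
        = 2 * deriv gmtSimEta (‖x‖ ^ 2) * ⟪x, b⟫ := by
      intro x
      unfold gmtDiv
      simp only [hfd, gmtSim_inner_eb]
      rw [gmtSim_inner_eq_sum, Finset.mul_sum]
      refine Finset.sum_congr rfl fun i _ => ?_
      simp
      ring
    have h0 := hst _ hX
    unfold gmtDelta at h0
    have hray : ∀ v ∈ F, Integrable (fun x => gmtDiv (fun x : E 2 => gmtSimEta (‖x‖ ^ 2) • b) x
          - ⟪gmtNu S x, fderiv ℝ (fun x : E 2 => gmtSimEta (‖x‖ ^ 2) • b) x (gmtNu S x)⟫)
          (gmtSimRay v) ∧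
        ∫ x, (gmtDiv (fun x : E 2 => gmtSimEta (‖x‖ ^ 2) • b) x
          - ⟪gmtNu S x, fderiv ℝ (fun x : E 2 => gmtSimEta (‖x‖ ^ 2) • b) x (gmtNu S x)⟫)
          ∂(gmtSimRay v) = - ⟪v, b⟫ := by
      intro v hv
      refine gmtSimRay_key (G' := fun x => 2 * deriv gmtSimEta (‖x‖ ^ 2) * ⟪x, b⟫
        - ⟪σ v • gmtSimJ v, (2 * deriv gmtSimEta (‖x‖ ^ 2) * ⟪x, σ v • gmtSimJ v⟫) • b⟫) ?_ ?_ ?_
      · have c1 : Continuous fun x : E 2 => deriv gmtSimEta (‖x‖ ^ 2) :=
          gmtSimEta_deriv_contDiff.continuous.comp (continuous_norm.pow 2)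
        have c2 : ∀ w : E 2, Continuous fun x : E 2 => ⟪x, w⟫ :=
          fun w => continuous_id.inner continuous_const
        exact ((continuous_const.mul c1).mul (c2 b)).sub
          (continuous_const.inner (((continuous_const.mul c1).mul (c2 _)).smul continuous_const))
      · filter_upwards [hν v hv] with x hx
        rw [hdiv, hfd, hx]
      · intro s hs
        have e1 : ‖s • v‖ ^ 2 = s ^ 2 := by
          rw [norm_smul, hF v hv, mul_one, Real.norm_eq_abs, sq_abs]
        simp only [e1, inner_smul_left, inner_smul_right, gmtSimJ_inner_self, conj_trivial]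
        unfold gmtSimEtaH
        ring
    rw [hμ, integral_finsetSum_measure fun v hv => (hray v hv).1,
      Finset.sum_congr rfl fun v hv => (hray v hv).2, Finset.sum_neg_distrib] at h0
    linarith
  have h1 := key (∑ v ∈ F, v)
  rw [← sum_inner] at h1
  exact inner_self_eq_zero.1 h1

theorem rg_ray_ball {v : E 2} (hv : ‖v‖ = 1) : gmtSimRay v (ball 0 1) = 1 := by
  have hf : Measurable (fun s : ℝ => s • v) := (continuous_id.smul continuous_const).measurable
  unfold gmtSimRay
  rw [Measure.map_apply hf isOpen_ball.measurableSet,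
    Measure.restrict_apply (hf isOpen_ball.measurableSet)]
  have e : (fun s : ℝ => s • v) ⁻¹' ball 0 1 ∩ Ioi 0 = Ioo 0 1 := by
    ext s
    simp only [mem_inter_iff, mem_preimage, mem_ball, dist_zero_right, norm_smul, hv, mul_one,
      Real.norm_eq_abs, mem_Ioi, mem_Ioo]
    constructor
    · rintro ⟨h1, h2⟩; exact ⟨h2, (le_abs_self s).trans_lt h1⟩
    · rintro ⟨h1, h2⟩; exact ⟨by rw [abs_of_pos h1]; exact h2, h1⟩
  rw [e, Real.volume_Ioo]
  simp

theorem rg_two {C : Set (E 2)} (hC : MinCone 2 C) {Θ : ℝ} (hΘ : Θ < 2)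
    (hd : gmtMu C (ball 0 1) ≤ ENNReal.ofReal (Θ * gmtOm 1)) : IsHalf C := by
  obtain ⟨U, hcU, -⟩ := kit_tube hC
  have hflat : GmtSimFlat C := gmtSim_flat_local hcU (gmtSim_A_zero_two hcU)
  have hS := hC.meas
  have hLF : GmtLF C univ := hC.lf
  have hcone := hC.cone
  have h0 := hC.vert
  obtain ⟨F, hF, hF'⟩ := gmtSim_two_rays hS hcone hflat
  obtain ⟨hμ, σ, hσ, hν, hloc⟩ := gmtSim_two_mu hLF hcone hflat hF hF'
  have hbal := rg_two_balance hC.stat hF hμ hσ hν
  have hpar := gmtSim_two_parity hLF hF hμ hν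
  have hcard : (F.card : ℝ) ≤ Θ * 2 := by
    rw [hμ, Measure.finsetSum_apply, Finset.sum_congr rfl fun v hv => rg_ray_ball (hF v hv),
      Finset.sum_const, nsmul_eq_mul, mul_one, gmtSimA2_om_one] at hd
    have h1 : ((F.card : ℝ≥0∞)) = ENNReal.ofReal (F.card : ℝ) := by simp
    rw [h1] at hd
    by_contra hcon
    push Not at hcon
    have h2 : (0 : ℝ) < F.card := lt_of_le_of_lt' (le_refl _) (by
      rcases le_or_gt 0 (Θ * 2) with h | h
      · exact lt_of_le_of_lt h hcon
      · by_contra h3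
        have h4 : (F.card : ℝ) = 0 := le_antisymm (not_lt.1 h3) (Nat.cast_nonneg _)
        obtain ⟨p, hp, hp0⟩ := gmtSim_exists_bd_ne_zero le_rfl hS h0
        obtain ⟨v, hv, -⟩ := (hF' p hp0).1 hp
        have : F.card ≠ 0 := Finset.card_ne_zero_of_mem hv
        exact this (by exact_mod_cast h4))
    exact absurd ((ENNReal.ofReal_le_ofReal_iff' ).1 hd) (by
      push Not
      exact ⟨hcon, h2⟩)
  have hcard3 : F.card ≤ 3 := by
    have : (F.card : ℝ) < 4 := by linarith
    have : F.card < 4 := by exact_mod_cast this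
    omega
  obtain ⟨n, hn⟩ := gmtSimTwo_parity F σ hσ
  rw [hpar] at hn
  have heven : F.card = 2 * n := by
    have : (F.card : ℝ) = 2 * n := by linarith
    exact_mod_cast this
  have hne : F.card ≠ 0 := by
    obtain ⟨p, hp, hp0⟩ := gmtSim_exists_bd_ne_zero le_rfl hS h0
    obtain ⟨v, hv, -⟩ := (hF' p hp0).1 hp
    exact Finset.card_ne_zero_of_mem hv
  have h2 : F.card = 2 := by omega
  obtain ⟨v, v', hvv', rfl⟩ := Finset.card_eq_two.1 h2
  rw [Finset.sum_pair hvv'] at hbal
  have hv' : v' = -v := (neg_eq_of_add_eq_zero_right hbal).symm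
  have hvF : v ∈ ({v, v'} : Finset (E 2)) := by simp
  have hv1 := hF v hvF
  obtain ⟨ρ, hρ, hae⟩ := hloc v hvF
  have hσ1 : |σ v| = 1 := by
    rcases hσ v hvF with h | h <;> rw [h] <;> simp
  have he : ‖σ v • gmtSimJ v‖ = 1 := by
    rw [norm_smul, gmtSimA2_norm_J, hv1, mul_one, Real.norm_eq_abs, hσ1]
  have hve : ⟪v, σ v • gmtSimJ v⟫ = 0 := by
    rw [inner_smul_right, gmtSimJ_inner_self, mul_zero]
  refine ⟨σ v • gmtSimJ v, he, gmtSim_half_of_bd_subset hS he hρ hve (fun x hx => ?_) hae⟩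
  by_cases hx0 : x = 0
  · rw [hx0, inner_zero_left]
  · obtain ⟨w, hw, t, -, rfl⟩ := (hF' x hx0).1 hx
    rw [Finset.mem_insert, Finset.mem_singleton] at hw
    rcases hw with rfl | rfl
    · rw [inner_smul_left, hve, mul_zero]
    · rw [hv', inner_smul_left, inner_neg_left, hve]
      simp

theorem rg_one {C : Set (E 1)} (hC : GmtLF C univ) (hc : GmtCone C) (h0' : (0 : E 1) ∈ gmtBd C) : IsHalf C := by
  have hlf : GmtLF C univ := hC
  have hrad := gmt_radial_of_cone hlf hc
  have hnu := norm_gmtNu_ae isOpen_univ hlf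
  rw [Measure.restrict_univ] at hnu
  have h0 : ∀ᵐ y ∂(gmtMu C), y = 0 := by
    filter_upwards [hrad, hnu] with y h1 h2
    have hin : ⟪y, gmtNu C y⟫ = y 0 * gmtNu C y 0 := by
      simp [PiLp.inner_apply, mul_comm]
    have hν : gmtNu C y 0 ≠ 0 := by
      intro h
      have : gmtNu C y = 0 := by
        ext i; fin_cases i; simpa using h
      rw [this] at h2; simp at h2
    rw [hin] at h1
    have hy : y 0 = 0 := by
      rcases mul_eq_zero.1 h1 with h | h
      · exact h
      · exact absurd h hν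
    ext i; fin_cases i; simpa using hy
  have hcont : Continuous fun y : E 1 => y 0 := by fun_prop
  set Hp : Set (E 1) := {y | 0 < y 0} with hHp
  set Hn : Set (E 1) := {y | y 0 < 0} with hHn
  have hpo : IsOpen Hp := isOpen_lt continuous_const hcont
  have hno : IsOpen Hn := isOpen_lt hcont continuous_const
  have hpc : IsPreconnected Hp := by
    apply Convex.isPreconnected
    intro a ha b hb s t hs ht hst
    simp only [hHp, mem_ofPred_eq] at ha hb ⊢
    have : (s • a + t • b) 0 = s * a 0 + t * b 0 := by simp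
    rw [this]
    have hc : 0 < min (a 0) (b 0) := lt_min ha hb
    have h1 : s * min (a 0) (b 0) ≤ s * a 0 := mul_le_mul_of_nonneg_left (min_le_left _ _) hs
    have h2 : t * min (a 0) (b 0) ≤ t * b 0 := mul_le_mul_of_nonneg_left (min_le_right _ _) ht
    have h3 : s * min (a 0) (b 0) + t * min (a 0) (b 0) = min (a 0) (b 0) := by
      rw [← add_mul, hst, one_mul]
    linarith
  have hnc : IsPreconnected Hn := by
    apply Convex.isPreconnected
    intro a ha b hb s t hs ht hst
    simp only [hHn, mem_ofPred_eq] at ha hb ⊢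
    have : (s • a + t • b) 0 = s * a 0 + t * b 0 := by simp
    rw [this]
    have hc : max (a 0) (b 0) < 0 := max_lt ha hb
    have h1 : s * a 0 ≤ s * max (a 0) (b 0) := mul_le_mul_of_nonneg_left (le_max_left _ _) hs
    have h2 : t * b 0 ≤ t * max (a 0) (b 0) := mul_le_mul_of_nonneg_left (le_max_right _ _) ht
    have h3 : s * max (a 0) (b 0) + t * max (a 0) (b 0) = max (a 0) (b 0) := by
      rw [← add_mul, hst, one_mul]
    linarith
  have hPp : gmtP C Hp = 0 := by
    rw [← gmtMu_open C hpo, measure_eq_zero_iff_ae_notMem]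
    filter_upwards [h0] with y hy
    rw [hy]; simp [hHp]
  have hPn : gmtP C Hn = 0 := by
    rw [← gmtMu_open C hno, measure_eq_zero_iff_ae_notMem]
    filter_upwards [h0] with y hy
    rw [hy]; simp [hHn]
  have hz : volume ({0} : Set (E 1)) = 0 := by simp
  have htri : ∀ y : E 1, y ∈ Hp ∨ y ∈ Hn ∨ y = 0 := by
    intro y
    rcases lt_trichotomy (y 0) 0 with h | h | h
    · exact Or.inr (Or.inl h)
    · refine Or.inr (Or.inr ?_)
      ext i; fin_cases i; simpa using h
    · exact Or.inl h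
  have hdis : ∀ y : E 1, y ∈ Hp → y ∈ Hn → False := by
    intro y h1 h2
    simp only [hHp, hHn, mem_ofPred_eq] at h1 h2
    linarith
  have hbd := h0' 1 one_pos
  have hHn' : Hn = gmtHalf 0 (eb 0) := by
    ext y; simp [hHn, gmtHalf, EuclideanSpace.inner_single_right]
  have hHp' : Hp = gmtHalf 0 (-(eb 0 : E 1)) := by
    ext y; simp [hHp, gmtHalf, EuclideanSpace.inner_single_right]
  have heb : (eb 0 : E 1) ≠ 0 := by
    intro h
    have := congrArg (fun v : E 1 => v 0) h
    simp at this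
  rcases gmtP_eq_zero_const hpo hpc hC.1 hPp with hp | hp <;>
    rcases gmtP_eq_zero_const hno hnc hC.1 hPn with hn | hn
  · -- `C` is null
    have : volume (C ∩ ball 0 1) = 0 := by
      refine measure_mono_null (t := (C ∩ Hp) ∪ (C ∩ Hn) ∪ {0}) ?_
        (measure_union_null (measure_union_null hp hn) hz)
      intro y hy
      rcases htri y with h | h | h
      · exact Or.inl (Or.inl ⟨hy.1, h⟩)
      · exact Or.inl (Or.inr ⟨hy.1, h⟩)
      · exact Or.inr h
    exact absurd hbd.1 (by rw [this]; simp)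
  · -- `C = Hn`
    have hCH : C =ᵐ[volume] gmtHalf 0 (eb 0) := by
      rw [← hHn', ae_eq_set]
      refine ⟨measure_mono_null (t := (C ∩ Hp) ∪ {0}) ?_ (measure_union_null hp hz), hn⟩
      intro y hy
      rcases htri y with h | h | h
      · exact Or.inl ⟨hy.1, h⟩
      · exact absurd h hy.2
      · exact Or.inr h
    exact ⟨eb 0, by simp, hCH⟩
  · -- `C = Hp`
    have hCH : C =ᵐ[volume] gmtHalf 0 (-(eb 0 : E 1)) := by
      rw [← hHp', ae_eq_set]
      refine ⟨measure_mono_null (t := (C ∩ Hn) ∪ {0}) ?_ (measure_union_null hn hz), hp⟩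
      intro y hy
      rcases htri y with h | h | h
      · exact absurd h hy.2
      · exact Or.inl ⟨hy.1, h⟩
      · exact Or.inr h
    exact ⟨-(eb 0 : E 1), by simp, hCH⟩
  · -- `C` is conull
    have : volume (ball 0 1 \ C) = 0 := by
      refine measure_mono_null (t := (Hp \ C) ∪ (Hn \ C) ∪ {0}) ?_
        (measure_union_null (measure_union_null hp hn) hz)
      intro y hy
      rcases htri y with h | h | h
      · exact Or.inl (Or.inl ⟨h, hy.2⟩)
      · exact Or.inl (Or.inr ⟨h, hy.2⟩)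
      · exact Or.inr h
    exact absurd hbd.2 (by rw [this]; simp)

end Claimed.Agent.R323
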