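import Claimed.Agent.R323.Rg.Mono
import Claimed.Agent.Lib.Gmt.BvProdM

/-!
# Row 323, block D: PRODUCTS `S × ℝ` (`gmtTimesR S`) of sets of locally finite perimeter.   Architect: helper36.   PROVED (helper75).

Tools in `Lib/Gmt`: `BvProdA/B/C/M` (`gmtPer_timesR_box`, `gmtPerM_timesR_map`, `gmtPerM_timesR_apply`, `gpbF`, `gpbSl`, `gpb_div_split`, `gpb_D2_integral`, `volume_timesR_box`),
`SpA` (`gmtProdInt_eu`, `gmt_split_last`, `gmtTimesR_ae_iff`, `gmtTimesR_cone`), `BvProd` (`gmtBd_timesR`), `GgMeasB.gmtMu_gmtNu_unique`, `CoB.gmtConv_affine`, `BvCompact.gmtConv_unique`.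

PLANS
* `rg_prod_lf`: `→` `gmtBox_cc`, `gmtPer_timesR_box` (`A = gmtEu`, `c = 1`, `gmtProdInt_eu`) on `gmtBox W 0 1`;  `←` `gmt_exists_box` + monotonicity of `gmtP`.
* `rg_prod_integral`: `tsupport g ⊆ gmtTimesR (ball 0 R)`; `gmtPerM_timesR_map` on `W = ball 0 R` (finite by `hS`), `integral_map`, `integral_prod`.
* `rg_prod_nu`: `gmtMu_gmtNu_unique` (`U = univ`, `μ = gmtMu (S × ℝ)`, `ν y = flInc (gmtNu S (gmtHor y))`).  Gauss-Green: `gpb_div_split`, Fubini (`gmt_bpa_mp`), GG of `S` for `gpbSl T t`, `gpb_D2_integral`, `rg_prod_integral`.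
* `rg_prod_st`: `X̃ = gpbF χ X`, `χ` smooth, compact support, `∫ χ = 1`: `div X̃ = χ div X` (`gpb_F_div`), `DX̃(y)(flInc v) = χ(t) flInc (DX(z) v)`; `rg_prod_nu`, `rg_prod_integral`: `δ(S × ℝ)(X̃) = δS(X)`.
* `rg_prod_blow`: `A_j = gmtDil x (r (φ j)) S`, `rg_prod_dil`.  (i) the limit `T` is invariant along `gmtEn n` (`gmtConv_affine` with `L = id`, `w = t • gmtEn n`; `gmtConv_unique`); (ii) `gmt_split_last`;
  (iii) `volume_timesR_box` on `gmtBox K' 0 1`; (iv) test `g̃ y = g (gmtHor y) χ (gmtVer y)`, `∫ χ = 1`, `rg_prod_integral`.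
* `rg_prod_dens`: `gmtPerM_timesR_map` on `W = ball 0 1`, `Measure.prod_apply_symm`: `μ̃(B̃_1) = ∫⁻ t, μ'(B'_{√(1-t²)}) = μ'(B'_1) J_n` (`rg_cone_ball`), `J_n = ∫⁻ t in Ioo (-1) 1, ofReal (√(1-t²)^{n-1})`, `0 < J_n < ⊤`;
  the same for a half space (`rg_prod_half_eq`, `gmtP_half_ball`): `ω_n = ω_{n-1} J_n`.
-/

set_option autoImplicit false
open scoped ContDiff ENNReal NNReal RealInnerProductSpace Topology
open MeasureTheory Metric Set Filter

namespace Claimed.Agent.R323

open Claimed.Agent.Gmt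

variable {n : ℕ}

/-! ### the perimeter measure of a product -/

theorem rgp_ball_ne_top {S : Set (E n)} (hS : GmtLF S univ) (x : E n) (R : ℝ) : gmtMu S (ball x R) ≠ ⊤ := by
  rw [gmtMu_open S isOpen_ball]
  exact hS.2 _ ⟨isOpen_ball, (isCompact_closedBall x R).of_isClosed_subset isClosed_closure
    closure_ball_subset_closedBall, subset_univ _⟩

theorem rgp_sigmaFinite {S : Set (E n)} (hS : GmtLF S univ) : SigmaFinite (gmtMu S) := by
  refine ⟨⟨⟨fun k : ℕ => ball 0 k, fun _ => trivial, fun k => (rgp_ball_ne_top hS 0 k).lt_top, ?_⟩⟩⟩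
  exact iUnion_ball_nat 0

theorem rgp_box {S W : Set (E n)} (hS : MeasurableSet S) (hW : IsOpen W) {a b : ℝ} (hab : a ≤ b) :
    gmtP (gmtTimesR S) (gmtBox W a b) = ENNReal.ofReal (b - a) * gmtP S W := by
  have := gmtPer_timesR_box (fun _ : E n => gmtEu n) (c := fun _ => 1) hW (fun _ _ => zero_le_one) hS hab
  rw [gmtProdInt_eu] at this
  exact this

theorem rg_prod_lf {S : Set (E n)} (hS : MeasurableSet S) : GmtLF (gmtTimesR S) univ ↔ GmtLF S univ := by
  constructor
  · intro h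
    refine ⟨hS, fun W hW => ?_⟩
    have h1 := h.2 _ (gmtBox_cc hW 0 1)
    rw [rgp_box hS hW.1 zero_le_one] at h1
    simpa using h1
  · intro h
    refine ⟨gmtTimesR_measurableSet hS, fun W hW => ?_⟩
    obtain ⟨W', hW', M, hM, hsub⟩ := gmt_exists_box (U := (univ : Set (E n))) isOpen_univ hW.2.1 (fun _ _ => trivial)
    refine ne_top_of_le_ne_top ?_ (gmtPer_mono _ _ (subset_closure.trans hsub))
    have e := rgp_box hS hW'.1 (show -M ≤ M by linarith)
    unfold gmtP at e
    rw [e]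
    exact ENNReal.mul_ne_top ENNReal.ofReal_ne_top (h.2 _ hW')

/-- the perimeter measure of `S × ℝ` is the product measure. -/
theorem rgp_map {S : Set (E n)} (hS : GmtLF S univ) :
    (gmtMu (gmtTimesR S)).map (gmtBpaEquiv n) = (gmtMu S).prod (volume : Measure ℝ) := by
  have := rgp_sigmaFinite hS
  have hun : (⋃ k : ℕ, (ball (0 : E n) k) ×ˢ (univ : Set ℝ)) = univ := by
    rw [← iUnion_prod_const, iUnion_ball_nat, univ_prod_univ]
  rw [Measure.ext_iff_of_iUnion_eq_univ hun]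
  intro k
  have hm : MeasurableSet ((ball (0 : E n) k) ×ˢ (univ : Set ℝ)) := measurableSet_ball.prod MeasurableSet.univ
  rw [Measure.restrict_map (gmtBpaEquiv n).measurable hm, ← Measure.prod_restrict, Measure.restrict_univ]
  have h1 := gmtPerM_timesR_map (fun _ : E n => gmtEu n) (c := fun _ => 1) (S := S) (W := ball 0 k)
    (fun _ _ => zero_le_one) hS.1 isOpen_ball (rgp_ball_ne_top hS 0 k)
  rw [gmtProdInt_eu] at h1
  have e : gmtBpaEquiv n ⁻¹' ((ball (0 : E n) k) ×ˢ (univ : Set ℝ)) = gmtTimesR (ball 0 k) := by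
    ext y
    simp only [mem_preimage, mem_prod, mem_univ, and_true]
    rfl
  rw [e]
  exact h1

theorem rgp_lintegral {S : Set (E n)} (hS : GmtLF S univ) {f : E (n + 1) → ℝ≥0∞} (hf : Measurable f) :
    ∫⁻ y, f y ∂(gmtMu (gmtTimesR S)) = ∫⁻ z, (∫⁻ t : ℝ, f (gmtJoin z t)) ∂(gmtMu S) := by
  have := rgp_sigmaFinite hS
  have h1 : ∫⁻ y, f y ∂(gmtMu (gmtTimesR S)) =
      ∫⁻ p, f ((gmtBpaEquiv n).symm p) ∂((gmtMu (gmtTimesR S)).map (gmtBpaEquiv n)) := by
    rw [lintegral_map (f := fun p => f ((gmtBpaEquiv n).symm p)) (hf.comp (gmtBpaEquiv n).symm.measurable)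
      (gmtBpaEquiv n).measurable]
    simp
  rw [h1, rgp_map hS, lintegral_prod (fun p => f ((gmtBpaEquiv n).symm p))
    (hf.comp (gmtBpaEquiv n).symm.measurable).aemeasurable]
  rfl

/-- null sets. -/
theorem rgp_ae {S : Set (E n)} (hS : GmtLF S univ) {p : E n → Prop} (hp : ∀ᵐ z ∂(gmtMu S), p z) :
    ∀ᵐ y ∂(gmtMu (gmtTimesR S)), p (gmtHor y) := by
  have := rgp_sigmaFinite hS
  have h1 : ∀ᵐ q ∂((gmtMu S).prod (volume : Measure ℝ)), p q.1 :=
    Measure.quasiMeasurePreserving_fst.ae hp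
  rw [← rgp_map hS] at h1
  exact ae_of_ae_map (gmtBpaEquiv n).measurable.aemeasurable h1

theorem rg_prod_integral {S : Set (E n)} (hS : GmtLF S univ) {g : E (n + 1) → ℝ} (hg : Measurable g)
    (hb : ∃ C : ℝ, ∀ y, |g y| ≤ C) (hc : HasCompactSupport g) :
    Integrable g (gmtMu (gmtTimesR S)) ∧
      ∫ y, g y ∂(gmtMu (gmtTimesR S)) = ∫ z, (∫ t : ℝ, g (gmtJoin z t)) ∂(gmtMu S) := by
  have := rgp_sigmaFinite hS
  obtain ⟨C, hC⟩ := hb
  have hlf := (rg_prod_lf hS.1).2 hS
  have hi : Integrable g (gmtMu (gmtTimesR S)) := by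
    rw [← integrableOn_iff_integrable_of_support_subset (subset_tsupport g)]
    exact Measure.integrableOn_of_bounded (M := C) (gmtMu_compact_ne_top isOpen_univ hlf hc (subset_univ _))
      hg.aestronglyMeasurable (Eventually.of_forall fun y => by rw [Real.norm_eq_abs]; exact hC y)
  refine ⟨hi, ?_⟩
  have h1 : ∫ y, g y ∂(gmtMu (gmtTimesR S)) =
      ∫ p, g ((gmtBpaEquiv n).symm p) ∂((gmtMu (gmtTimesR S)).map (gmtBpaEquiv n)) := by
    rw [(gmtBpaEquiv n).measurableEmbedding.integral_map]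
    simp
  have hi2 : Integrable (fun p => g ((gmtBpaEquiv n).symm p)) ((gmtMu (gmtTimesR S)).map (gmtBpaEquiv n)) := by
    rw [(gmtBpaEquiv n).measurableEmbedding.integrable_map_iff]
    simpa [Function.comp_def] using hi
  rw [rgp_map hS] at h1 hi2
  rw [h1, integral_prod _ hi2]
  rfl

/-! ### elementary facts on products -/

theorem rgp_hor_add (y y' : E (n + 1)) : gmtHor (y + y') = gmtHor y + gmtHor y' := map_add (gmtHorL n) y y'

theorem rgp_hor_smul (c : ℝ) (y : E (n + 1)) : gmtHor (c • y) = c • gmtHor y := map_smul (gmtHorL n) c y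

theorem rgp_ver_add (y y' : E (n + 1)) : gmtVer (y + y') = gmtVer y + gmtVer y' := map_add (gmtVerL n) y y'

theorem rgp_ver_smul (c : ℝ) (y : E (n + 1)) : gmtVer (c • y) = c * gmtVer y := map_smul (gmtVerL n) c y

theorem rgp_join_zero : gmtJoin (0 : E n) 0 = 0 := by
  rw [← fl_inc_apply, map_zero]

theorem rg_prod_dil (x : E n) (t ρ : ℝ) (S : Set (E n)) :
    gmtDil (gmtJoin x t) ρ (gmtTimesR S) = gmtTimesR (gmtDil x ρ S) := by
  ext y
  show gmtHor (gmtJoin x t + ρ • y) ∈ S ↔ x + ρ • gmtHor y ∈ S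
  rw [rgp_hor_add, rgp_hor_smul, fl_hor_join]

theorem rg_prod_cone {C : Set (E n)} (hC : MeasurableSet C) (hc : GmtCone C) : GmtCone (gmtTimesR C) := by
  intro ρ hρ
  have h1 := rg_prod_dil (0 : E n) 0 ρ C
  rw [rgp_join_zero] at h1
  rw [h1]
  exact (gmtTimesR_ae_iff (measurableSet_gmtDil hC 0 ρ) hC).2 (hc ρ hρ)

/-- `O × id`. -/
theorem rg_prod_rot (O : E n ≃ₗᵢ[ℝ] E n) : ∃ O' : E (n + 1) ≃ₗᵢ[ℝ] E (n + 1),
    ∀ S : Set (E n), gmtRot O' (gmtTimesR S) = gmtTimesR (gmtRot O S) := by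
  set f : E (n + 1) →ₗ[ℝ] E (n + 1) :=
    ((flInc n : E n →L[ℝ] E (n + 1)) : E n →ₗ[ℝ] E (n + 1)).comp
        ((O.toLinearEquiv : E n →ₗ[ℝ] E n).comp ((gmtHorL n : E (n + 1) →L[ℝ] E n) : E (n + 1) →ₗ[ℝ] E n)) +
      ((gmtVerL n : E (n + 1) →L[ℝ] ℝ) : E (n + 1) →ₗ[ℝ] ℝ).smulRight (gmtEn n) with hf
  have hfy : ∀ y, f y = gmtJoin (O (gmtHor y)) (gmtVer y) := by
    intro y
    rw [fl_join_eq]
    rfl
  have hnorm : ∀ y, ‖f y‖ = ‖y‖ := by
    intro y
    have h1 : ‖f y‖ ^ 2 = ‖y‖ ^ 2 := by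
      rw [hfy, fl_norm_sq, fl_hor_join, fl_ver_join, O.norm_map, ← fl_norm_sq]
    exact (sq_eq_sq₀ (norm_nonneg _) (norm_nonneg _)).1 h1
  set O' : E (n + 1) ≃ₗᵢ[ℝ] E (n + 1) := LinearIsometry.toLinearIsometryEquiv ⟨f, hnorm⟩ rfl with hO'
  have hO'y : ∀ y, O' y = gmtJoin (O (gmtHor y)) (gmtVer y) := fun y => hfy y
  refine ⟨O', fun S => ?_⟩
  ext y
  rw [mem_gmtRot]
  show gmtHor (O'.symm y) ∈ S ↔ gmtHor y ∈ gmtRot O S
  rw [mem_gmtRot]
  have h1 : gmtHor y = O (gmtHor (O'.symm y)) := by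
    have h2 := hO'y (O'.symm y)
    rw [O'.apply_symm_apply] at h2
    have h3 := congrArg gmtHor h2
    rwa [fl_hor_join] at h3
  rw [h1, O.symm_apply_apply]

theorem rg_prod_half_eq (e : E n) : gmtTimesR (gmtHalf 0 e) = gmtHalf 0 (flInc n e) := by
  ext y
  show ⟪gmtHor y - 0, e⟫ < 0 ↔ ⟪y - 0, flInc n e⟫ < 0
  rw [sub_zero, sub_zero, fl_inner y, fl_inc_apply, fl_hor_join, fl_ver_join, mul_zero, add_zero]

theorem rg_prod_half {C : Set (E n)} (hC : MeasurableSet C) (h : IsHalf C) : IsHalf (gmtTimesR C) := by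
  obtain ⟨e, he, h1⟩ := h
  refine ⟨flInc n e, by rw [fl_norm_inc, he], ?_⟩
  rw [← rg_prod_half_eq]
  exact (gmtTimesR_ae_iff hC (measurableSet_gmtHalf 0 e)).2 h1

/-- homogeneity of the perimeter measure of a cone. -/
theorem rg_cone_ball {C : Set (E n)} (hC : MeasurableSet C) (hc : GmtCone C) {s : ℝ} (hs : 0 < s) :
    gmtMu C (ball 0 s) = ENNReal.ofReal (s ^ (n - 1)) * gmtMu C (ball 0 1) := by
  have h1 := gmtMu_gmtDil hC 0 hs (ball 0 s)
  have e1 : gmtDil (0 : E n) s (ball 0 s) = ball 0 1 := by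
    ext y
    simp only [gmtDil, mem_ofPred_eq, zero_add, mem_ball, dist_zero_right, norm_smul, Real.norm_eq_abs, abs_of_pos hs]
    constructor
    · intro h
      by_contra hcon
      have : s * 1 ≤ s * ‖y‖ := mul_le_mul_of_nonneg_left (not_lt.1 hcon) hs.le
      linarith
    · intro h
      have : s * ‖y‖ < s * 1 := mul_lt_mul_of_pos_left h hs
      linarith
  rw [e1, rg_mu_congr (measurableSet_gmtDil hC 0 s) hC (hc s hs)] at h1
  rcases Nat.eq_zero_or_pos n with rfl | hn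
  · have e2 : ball (0 : E 0) s = ball 0 1 := by
      ext y
      have : y = 0 := Subsingleton.elim _ _
      simp [this, hs]
    rw [e2]
    simp
  · have e3 : s ^ n = s * s ^ (n - 1) := by
      rw [← pow_succ', Nat.sub_add_cancel hn]
    rw [e3, ENNReal.ofReal_mul hs.le, mul_comm, mul_assoc] at h1
    have h2 : ENNReal.ofReal s ≠ 0 := by simpa using hs
    exact ((ENNReal.mul_right_inj h2 ENNReal.ofReal_ne_top).1 h1).symm

/-! ### the density of a product cone -/

/-- `∫_{-1}^{1} (1-t²)^{(n-1)/2} dt`. -/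
noncomputable def rgpJ (n : ℕ) : ℝ≥0∞ :=
  ∫⁻ t : ℝ, (Ioo (-1 : ℝ) 1).indicator (fun t => ENNReal.ofReal (Real.sqrt (1 - t ^ 2) ^ (n - 1))) t

theorem rgp_dens_eq {C : Set (E n)} (hC : GmtLF C univ) (hc : GmtCone C) :
    gmtMu (gmtTimesR C) (ball 0 1) = rgpJ n * gmtMu C (ball 0 1) := by
  have := rgp_sigmaFinite hC
  have hm : Measurable ((ball (0 : E (n + 1)) 1).indicator (fun _ => (1 : ℝ≥0∞))) :=
    measurable_const.indicator measurableSet_ball
  rw [← lintegral_indicator_one measurableSet_ball]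
  have e0 : ∫⁻ y, (ball (0 : E (n + 1)) 1).indicator 1 y ∂(gmtMu (gmtTimesR C)) =
      ∫⁻ y, (ball (0 : E (n + 1)) 1).indicator (fun _ => (1 : ℝ≥0∞)) y ∂(gmtMu (gmtTimesR C)) := rfl
  rw [e0, rgp_lintegral hC hm, lintegral_lintegral_swap
    (f := fun z t => (ball (0 : E (n + 1)) 1).indicator (fun _ => (1 : ℝ≥0∞)) (gmtJoin z t))
    (hm.comp fl_measurable_join).aemeasurable]
  unfold rgpJ
  rw [← lintegral_mul_const' _ _ (rgp_ball_ne_top hC 0 1)]
  refine lintegral_congr fun t => ?_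
  by_cases ht : t ∈ Ioo (-1 : ℝ) 1
  · rw [indicator_of_mem ht]
    have ht2 : t ^ 2 < 1 := by
      have := ht.1
      have := ht.2
      nlinarith
    have hs : 0 < Real.sqrt (1 - t ^ 2) := Real.sqrt_pos.2 (by linarith)
    rw [← rg_cone_ball hC.1 hc hs, ← lintegral_indicator_one measurableSet_ball]
    refine lintegral_congr fun z => ?_
    have hiff : gmtJoin z t ∈ ball (0 : E (n + 1)) 1 ↔ z ∈ ball (0 : E n) (Real.sqrt (1 - t ^ 2)) := by
      rw [mem_ball, mem_ball, dist_zero_right, dist_zero_right, Real.lt_sqrt (norm_nonneg _),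
        ← sq_lt_one_iff₀ (norm_nonneg _), fl_norm_sq, fl_hor_join, fl_ver_join]
      constructor <;> intro h <;> linarith
    by_cases hz : z ∈ ball (0 : E n) (Real.sqrt (1 - t ^ 2))
    · rw [indicator_of_mem hz, indicator_of_mem (hiff.2 hz)]
      rfl
    · rw [indicator_of_notMem hz, indicator_of_notMem (fun h => hz (hiff.1 h))]
  · rw [indicator_of_notMem ht, zero_mul]
    have h0 : ∀ z : E n, (ball (0 : E (n + 1)) 1).indicator (fun _ => (1 : ℝ≥0∞)) (gmtJoin z t) = 0 := by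
      intro z
      apply indicator_of_notMem
      intro h
      rw [mem_ball, dist_zero_right] at h
      have h1 := fl_abs_ver_le (gmtJoin z t)
      rw [fl_ver_join] at h1
      exact ht (abs_lt.1 (h1.trans_lt h))
    simp [h0]

theorem rgp_half_cone (e : E n) : GmtCone (gmtHalf 0 e) := by
  intro ρ hρ
  have : gmtDil (0 : E n) ρ (gmtHalf 0 e) = gmtHalf 0 e := by
    ext y
    simp only [gmtDil, gmtHalf, mem_ofPred_eq, zero_add, sub_zero, inner_smul_left]
    constructor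
    · intro h
      by_contra hcon
      have : 0 ≤ ρ * ⟪y, e⟫ := mul_nonneg hρ.le (not_lt.1 hcon)
      simp at h
      linarith
    · intro h
      simp
      exact mul_neg_of_pos_of_neg hρ h
  rw [this]
  exact ae_eq_refl _

theorem rgp_J_spec (hn : 1 ≤ n) : ENNReal.ofReal (gmtOm n) = rgpJ n * ENNReal.ofReal (gmtOm (n - 1)) := by
  obtain ⟨k, rfl⟩ : ∃ k, n = k + 1 := ⟨n - 1, by omega⟩
  have he : ‖(eb 0 : E (k + 1))‖ = 1 := by simp
  have h1 := rgp_dens_eq (gmtHalf_lf (0 : E (k + 1)) he) (rgp_half_cone _)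
  rw [rg_prod_half_eq, gmtMu_open _ isOpen_ball, gmtMu_open _ isOpen_ball,
    gmtP_half_ball (by omega) 0 (by rw [fl_norm_inc, he]) one_pos, gmtP_half_ball (by omega) 0 he one_pos] at h1
  simpa using h1

/-- the density at the vertex of a cone does not change when a line is split off. -/
theorem rg_prod_dens (hn : 1 ≤ n) {C : Set (E n)} (hC : GmtLF C univ) (hc : GmtCone C) {Θ : ℝ} (hΘ : 0 ≤ Θ)
    (h : gmtMu (gmtTimesR C) (ball 0 1) ≤ ENNReal.ofReal (Θ * gmtOm n)) :
    gmtMu C (ball 0 1) ≤ ENNReal.ofReal (Θ * gmtOm (n - 1)) := by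
  have hJ := rgp_J_spec hn
  have hp1 : ENNReal.ofReal (gmtOm n) ≠ 0 := by simpa using fl_om_pos n
  have hp2 : ENNReal.ofReal (gmtOm (n - 1)) ≠ 0 := by simpa using fl_om_pos (n - 1)
  have hJ0 : rgpJ n ≠ 0 := by
    intro h0
    rw [h0, zero_mul] at hJ
    exact hp1 hJ
  have hJt : rgpJ n ≠ ⊤ := by
    intro h0
    rw [h0, ENNReal.top_mul hp2] at hJ
    exact ENNReal.ofReal_ne_top hJ
  rw [rgp_dens_eq hC hc, ENNReal.ofReal_mul hΘ, hJ, ← mul_assoc, mul_comm (ENNReal.ofReal Θ), mul_assoc] at h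
  rw [ENNReal.ofReal_mul hΘ]
  exact (ENNReal.mul_le_mul_iff_right hJ0 hJt).1 h

/-! ### the normal of a product -/

theorem rgp_integrable_prod {S : Set (E n)} (hS : GmtLF S univ) {g : E (n + 1) → ℝ}
    (hi : Integrable g (gmtMu (gmtTimesR S))) :
    Integrable (fun p : E n × ℝ => g (gmtJoin p.1 p.2)) ((gmtMu S).prod (volume : Measure ℝ)) := by
  have hi2 : Integrable (fun p => g ((gmtBpaEquiv n).symm p)) ((gmtMu (gmtTimesR S)).map (gmtBpaEquiv n)) := by
    rw [(gmtBpaEquiv n).measurableEmbedding.integrable_map_iff]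
    simpa [Function.comp_def] using hi
  rw [rgp_map hS] at hi2
  exact hi2

/-- Fubini for the divergence (copy of the first half of `gpb_box_integral_le`). -/
theorem rgp_div_fubini {S : Set (E n)} (hS : MeasurableSet S) {U : Set (E (n + 1))} {T : E (n + 1) → E (n + 1)}
    (hT : GmtTest U T) : ∫ y in gmtTimesR S, gmtDiv T y = ∫ t, ∫ z in S, gmtDiv (gpbSl T t) z := by
  have hSm := gmtTimesR_measurableSet hS
  obtain ⟨hc, hcs, -⟩ := continuous_gmtDiv hT
  obtain ⟨hc2, hcs2⟩ := gpb_D2_props hT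
  have hi : Integrable (gmtDiv T) := hc.integrable_of_hasCompactSupport hcs
  have hi2 : Integrable (gpbD2 T) := hc2.integrable_of_hasCompactSupport hcs2
  have hi1 : Integrable (fun y => gmtDiv T y - gpbD2 T y) := hi.sub hi2
  have e0 : ∫ y in gmtTimesR S, gmtDiv T y =
      (∫ y in gmtTimesR S, (gmtDiv T y - gpbD2 T y)) + ∫ y in gmtTimesR S, gpbD2 T y := by
    rw [← integral_add hi1.integrableOn hi2.integrableOn]
    congr 1
    ext y
    ring
  have e2 : ∫ y in gmtTimesR S, gpbD2 T y = 0 := by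
    rw [← integral_indicator hSm, fl_integral_join (hi2.indicator hSm)]
    have : ∀ z : E n, ∫ t, (gmtTimesR S).indicator (gpbD2 T) (gmtJoin z t) = 0 := by
      intro z
      by_cases hz : z ∈ S
      · have : ∀ t, (gmtTimesR S).indicator (gpbD2 T) (gmtJoin z t) = gpbD2 T (gmtJoin z t) := by
          intro t
          apply indicator_of_mem
          show gmtHor (gmtJoin z t) ∈ S
          rwa [fl_hor_join]
        simp_rw [this]
        exact gpb_D2_integral hT z
      · have : ∀ t, (gmtTimesR S).indicator (gpbD2 T) (gmtJoin z t) = 0 := by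
          intro t
          apply indicator_of_notMem
          show gmtHor (gmtJoin z t) ∉ S
          rwa [fl_hor_join]
        simp_rw [this]
        simp
    simp_rw [this]
    simp
  set G : E (n + 1) → ℝ := (gmtTimesR S).indicator (fun y => gmtDiv T y - gpbD2 T y) with hG
  have hGi : Integrable G := hi1.indicator hSm
  have hGp := fl_integrable_join hGi
  have hval : ∀ (t : ℝ) (z : E n), G (gmtJoin z t) = S.indicator (gmtDiv (gpbSl T t)) z := by
    intro t z
    by_cases hz : z ∈ S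
    · rw [hG, indicator_of_mem (show gmtJoin z t ∈ gmtTimesR S by
        show gmtHor (gmtJoin z t) ∈ S
        rwa [fl_hor_join]), indicator_of_mem hz, gpb_div_split (hT.differentiable _)]
      unfold gpbD2
      ring
    · rw [hG, indicator_of_notMem (show gmtJoin z t ∉ gmtTimesR S by
        show gmtHor (gmtJoin z t) ∉ S
        rwa [fl_hor_join]), indicator_of_notMem hz]
  have e1 : ∫ y in gmtTimesR S, (gmtDiv T y - gpbD2 T y) =
      ∫ t, ∫ z in S, gmtDiv (gpbSl T t) z := by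
    rw [← integral_indicator hSm, fl_integral_join hGi,
      integral_integral_swap (f := fun z t => G (gmtJoin z t)) hGp]
    refine integral_congr_ae (Eventually.of_forall fun t => ?_)
    simp only
    rw [← integral_indicator hS]
    exact integral_congr_ae (Eventually.of_forall fun z => hval t z)
  rw [e0, e2, add_zero, e1]

theorem rgp_inner_inc (y : E (n + 1)) (v : E n) : ⟪y, flInc n v⟫ = ⟪gmtHor y, v⟫ := by
  rw [fl_inner, fl_inc_apply, fl_hor_join, fl_ver_join, mul_zero, add_zero]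

theorem rg_prod_nu {S : Set (E n)} (hS : GmtLF S univ) :
    ∀ᵐ y ∂(gmtMu (gmtTimesR S)), gmtNu (gmtTimesR S) y = flInc n (gmtNu S (gmtHor y)) := by
  have := rgp_sigmaFinite hS
  have hlf := (rg_prod_lf hS.1).2 hS
  have hν : Measurable fun y : E (n + 1) => flInc n (gmtNu S (gmtHor y)) :=
    (flInc n).continuous.measurable.comp ((measurable_gmtNu S).comp fl_continuous_hor.measurable)
  have h1 : ∀ᵐ y ∂(gmtMu (gmtTimesR S)), ‖flInc n (gmtNu S (gmtHor y))‖ = 1 := by
    have h2 := norm_gmtNu_ae isOpen_univ hS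
    rw [Measure.restrict_univ] at h2
    filter_upwards [rgp_ae hS h2] with y hy
    rw [fl_norm_inc, hy]
  have key := gmtMu_gmtNu_unique (U := univ) isOpen_univ (gmtTimesR_measurableSet hS.1) hν h1 (by simp)
    (fun K hK _ => gmtMu_compact_ne_top isOpen_univ hlf hK (subset_univ _)) (fun T hT => ?_)
  · filter_upwards [key.2.2] with y hy
    exact hy.symm
  · -- Gauss-Green
    obtain ⟨W, hW, M, hM, hsub⟩ := gmt_exists_box (U := (univ : Set (E n))) isOpen_univ hT.cpt (fun _ _ => trivial)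
    have hT' : GmtTest (gmtBox W (-M) M) T := ⟨hT.c1, hT.cpt, hsub⟩
    set g : E (n + 1) → ℝ := fun y => ⟪T y, flInc n (gmtNu S (gmtHor y))⟫ with hg
    have hgm : Measurable g := hT.c1.continuous.measurable.inner hν
    obtain ⟨c, hcb⟩ := hT.c1.continuous.bounded_above_of_compact_support hT.cpt
    have hgb : ∃ C : ℝ, ∀ y, |g y| ≤ C := by
      refine ⟨c, fun y => ?_⟩
      calc |g y| ≤ ‖T y‖ * ‖flInc n (gmtNu S (gmtHor y))‖ := abs_real_inner_le_norm _ _
        _ ≤ ‖T y‖ * 1 := by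
            refine mul_le_mul_of_nonneg_left ?_ (norm_nonneg _)
            rw [fl_norm_inc]
            exact norm_gmtNu_le_one S _
        _ ≤ c := by rw [mul_one]; exact hcb y
    have hgc : HasCompactSupport g := by
      refine hT.cpt.mono' fun y hy => ?_
      by_contra h
      apply hy
      simp only [hg]
      rw [image_eq_zero_of_notMem_tsupport h, inner_zero_left]
    obtain ⟨hgi, hgI⟩ := rg_prod_integral hS hgm hgb hgc
    rw [hgI, rgp_div_fubini hS.1 hT,
      integral_integral_swap (f := fun z t => g (gmtJoin z t)) (rgp_integrable_prod hS hgi)]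
    refine integral_congr_ae (Eventually.of_forall fun t => ?_)
    simp only
    rw [gmt_gauss_green isOpen_univ hS ((gpb_Sl_test hT' t).mono (subset_univ _))]
    refine integral_congr_ae (Eventually.of_forall fun z => ?_)
    simp only [hg]
    rw [rgp_inner_inc, fl_hor_join]
    rfl

/-! ### stationarity descends -/

/-- a smooth cut-off on the line with integral one. -/
theorem rgp_exists_chi : ∃ χ : ℝ → ℝ, ContDiff ℝ ∞ χ ∧ HasCompactSupport χ ∧ ∫ t, χ t = 1 := by
  let f : ContDiffBump (0 : ℝ) := ⟨1, 2, one_pos, by norm_num⟩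
  exact ⟨f.normed volume, f.contDiff_normed, f.hasCompactSupport_normed, f.integral_normed⟩

theorem rgp_F_testS {X : E n → E n} (hX : GmtTestS univ X) {χ : ℝ → ℝ} (hχ : ContDiff ℝ ∞ χ)
    (hχc : HasCompactSupport χ) : GmtTestS univ (gpbF χ X) := by
  refine ⟨?_, ?_, subset_univ _⟩
  · have h1 : ContDiff ℝ ∞ fun y : E (n + 1) => χ (gmtVer y) := hχ.comp (gmtVerL n).contDiff
    have h2 : ContDiff ℝ ∞ fun y : E (n + 1) => flInc n (X (gmtHor y)) :=
      (flInc n).contDiff.comp (hX.smooth.comp (gmtHorL n).contDiff)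
    exact h1.smul h2
  · exact ((hX.cpt.prod hχc).image fl_continuous_join).of_isClosed_subset (isClosed_tsupport _)
      (gpb_F_tsupport χ X)

theorem rgp_F_fderiv {χ : ℝ → ℝ} {X : E n → E n} {y : E (n + 1)} (hχ : DifferentiableAt ℝ χ (gmtVer y))
    (hX : DifferentiableAt ℝ X (gmtHor y)) (v : E n) :
    fderiv ℝ (gpbF χ X) y (flInc n v) = χ (gmtVer y) • flInc n (fderiv ℝ X (gmtHor y) v) := by
  have h1 : HasFDerivAt (fun y : E (n + 1) => χ (gmtVer y)) (deriv χ (gmtVer y) • (gmtVerL n)) y :=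
    hχ.hasDerivAt.comp_hasFDerivAt y (gmtVerL n).hasFDerivAt
  have h2 : HasFDerivAt (fun y : E (n + 1) => flInc n (X (gmtHor y)))
      ((flInc n).comp ((fderiv ℝ X (gmtHor y)).comp (gmtHorL n))) y :=
    (flInc n).hasFDerivAt.comp y (hX.hasFDerivAt.comp y (gmtHorL n).hasFDerivAt)
  have h3 := h1.smul h2
  have e : gpbF χ X = (fun y : E (n + 1) => χ (gmtVer y)) • fun y : E (n + 1) => flInc n (X (gmtHor y)) := rfl
  rw [e, h3.fderiv]
  have e1 : gmtHorL n (flInc n v) = v := by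
    show gmtHor (flInc n v) = v
    rw [fl_inc_apply, fl_hor_join]
  have e2 : gmtVerL n (flInc n v) = 0 := by
    show gmtVer (flInc n v) = 0
    rw [fl_inc_apply, fl_ver_join]
  simp [e1, e2]

/-- stationarity descends to the factor. -/
theorem rg_prod_st {S : Set (E n)} (hS : MeasurableSet S) (h : RgaSt (gmtTimesR S)) : RgaSt S := by
  have hlf : GmtLF S univ := (rg_prod_lf hS).1 h.lf
  refine ⟨hlf, fun X hX => ?_⟩
  obtain ⟨χ, hχ, hχc, hχ1⟩ := rgp_exists_chi
  have h0 := h.stat _ (rgp_F_testS hX hχ hχc)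
  have hXd : Differentiable ℝ X := hX.smooth.differentiable (by simp)
  have hχd : Differentiable ℝ χ := hχ.differentiable (by simp)
  have hDc : Continuous (fderiv ℝ X) := hX.smooth.continuous_fderiv (by simp)
  obtain ⟨hdc, hdcs, -⟩ := continuous_gmtDiv hX.test
  -- the integrand of `δS(X)`
  set k : E n → ℝ := fun z => gmtDiv X z - ⟪gmtNu S z, fderiv ℝ X z (gmtNu S z)⟫ with hk
  have hkm : Measurable k := by
    have h1 : Measurable fun z => fderiv ℝ X z (gmtNu S z) := by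
      have h2 : Continuous fun p : (E n →L[ℝ] E n) × E n => p.1 p.2 := isBoundedBilinearMap_apply.continuous
      exact h2.measurable.comp (hDc.measurable.prodMk (measurable_gmtNu S))
    exact hdc.measurable.sub ((measurable_gmtNu S).inner h1)
  have hk0 : ∀ z, z ∉ tsupport X → k z = 0 := by
    intro z hz
    simp only [hk]
    rw [gmtDiv_eq_zero_of_notMem hz, fderiv_of_notMem_tsupport (𝕜 := ℝ) hz]
    simp
  obtain ⟨c1, hc1⟩ := hdc.bounded_above_of_compact_support hdcs
  obtain ⟨c2, hc2⟩ := hDc.bounded_above_of_compact_support (hX.cpt.fderiv (𝕜 := ℝ))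
  obtain ⟨c3, hc3⟩ := hχ.continuous.bounded_above_of_compact_support hχc
  have hkb : ∀ z, |k z| ≤ c1 + c2 := by
    intro z
    have hν := norm_gmtNu_le_one S z
    have h1 : |⟪gmtNu S z, fderiv ℝ X z (gmtNu S z)⟫| ≤ c2 := by
      calc |⟪gmtNu S z, fderiv ℝ X z (gmtNu S z)⟫| ≤ ‖gmtNu S z‖ * ‖fderiv ℝ X z (gmtNu S z)‖ :=
            abs_real_inner_le_norm _ _
        _ ≤ 1 * (‖fderiv ℝ X z‖ * 1) := by
            refine mul_le_mul hν ?_ (norm_nonneg _) zero_le_one
            exact ((fderiv ℝ X z).le_opNorm _).trans (mul_le_mul_of_nonneg_left hν (norm_nonneg _))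
        _ ≤ c2 := by simpa using hc2 z
    have h2 : |gmtDiv X z| ≤ c1 := by simpa using hc1 z
    calc |k z| ≤ |gmtDiv X z| + |⟪gmtNu S z, fderiv ℝ X z (gmtNu S z)⟫| := abs_sub _ _
      _ ≤ c1 + c2 := add_le_add h2 h1
  set g : E (n + 1) → ℝ := fun y => χ (gmtVer y) * k (gmtHor y) with hg
  have hgm : Measurable g :=
    (hχ.continuous.measurable.comp fl_continuous_ver.measurable).mul (hkm.comp fl_continuous_hor.measurable)
  have hgb : ∃ C : ℝ, ∀ y, |g y| ≤ C := by
    refine ⟨c3 * (c1 + c2), fun y => ?_⟩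
    simp only [hg]
    rw [abs_mul]
    have h3 : |χ (gmtVer y)| ≤ c3 := by simpa using hc3 (gmtVer y)
    exact mul_le_mul h3 (hkb _) (abs_nonneg _) ((abs_nonneg _).trans h3)
  have hgc : HasCompactSupport g := by
    refine HasCompactSupport.intro ((hX.cpt.prod hχc).image fl_continuous_join) fun y hy => ?_
    simp only [hg]
    by_cases h1 : gmtHor y ∈ tsupport X
    · have h2 : gmtVer y ∉ tsupport χ := fun h2 => hy ⟨(gmtHor y, gmtVer y), ⟨h1, h2⟩, fl_join_hor_ver y⟩
      rw [image_eq_zero_of_notMem_tsupport h2, zero_mul]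
    · rw [hk0 _ h1, mul_zero]
  obtain ⟨-, hgI⟩ := rg_prod_integral hlf hgm hgb hgc
  have e1 : gmtDelta (gmtTimesR S) (gpbF χ X) = ∫ y, g y ∂(gmtMu (gmtTimesR S)) := by
    unfold gmtDelta
    refine integral_congr_ae ?_
    filter_upwards [rg_prod_nu hlf] with y hy
    rw [hy, gpb_F_div (hχd _) (hXd _), rgp_F_fderiv (hχd _) (hXd _), inner_smul_right, rgp_inner_inc,
      fl_inc_apply, fl_hor_join]
    simp only [hg, hk]
    ring
  rw [e1, hgI] at h0
  have e2 : ∀ z : E n, ∫ t : ℝ, g (gmtJoin z t) = k z := by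
    intro z
    simp only [hg, fl_ver_join, fl_hor_join]
    rw [integral_mul_const, hχ1, one_mul]
  simp only [e2] at h0
  exact h0

/-! ### blow-ups of products -/

theorem rgp_tensor {g : E n → ℝ} (hg : Continuous g) (hgc : HasCompactSupport g) {χ : ℝ → ℝ} (hχ : Continuous χ)
    (hχc : HasCompactSupport χ) :
    Continuous (fun y : E (n + 1) => g (gmtHor y) * χ (gmtVer y)) ∧
      HasCompactSupport (fun y : E (n + 1) => g (gmtHor y) * χ (gmtVer y)) := by
  refine ⟨(hg.comp fl_continuous_hor).mul (hχ.comp fl_continuous_ver), ?_⟩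
  refine HasCompactSupport.intro ((hgc.prod hχc).image fl_continuous_join) fun y hy => ?_
  by_cases h1 : gmtHor y ∈ tsupport g
  · have h2 : gmtVer y ∉ tsupport χ := fun h2 => hy ⟨(gmtHor y, gmtVer y), ⟨h1, h2⟩, fl_join_hor_ver y⟩
    rw [image_eq_zero_of_notMem_tsupport h2, mul_zero]
  · rw [image_eq_zero_of_notMem_tsupport h1, zero_mul]

theorem rgp_integral_tensor {S : Set (E n)} (hS : GmtLF S univ) {g : E n → ℝ} (hg : Continuous g)
    (hgc : HasCompactSupport g) {χ : ℝ → ℝ} (hχ : Continuous χ) (hχc : HasCompactSupport χ) (hχ1 : ∫ t, χ t = 1) :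
    ∫ y, g (gmtHor y) * χ (gmtVer y) ∂(gmtMu (gmtTimesR S)) = ∫ z, g z ∂(gmtMu S) := by
  obtain ⟨h1, h2⟩ := rgp_tensor hg hgc hχ hχc
  obtain ⟨c, hc⟩ := h1.bounded_above_of_compact_support h2
  rw [(rg_prod_integral hS h1.measurable ⟨c, fun y => by simpa using hc y⟩ h2).2]
  refine integral_congr_ae (Eventually.of_forall fun z => ?_)
  simp only [fl_hor_join, fl_ver_join]
  rw [integral_const_mul, hχ1, mul_one]

/-- blow-ups of a product are products of blow-ups. -/
theorem rg_prod_blow {S : Set (E n)} (hS : GmtLF S univ) {x : E n} {r : ℕ → ℝ} (hr : ∀ j, 0 < r j)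
    {T : Set (E (n + 1))} (hT : GmtLF T univ) (hb : BlowTo (gmtTimesR S) (gmtJoin x 0) r T) :
    ∃ T' : Set (E n), MeasurableSet T' ∧ T =ᵐ[volume] gmtTimesR T' ∧ BlowTo S x r T' := by
  obtain ⟨φ, hφ, h1, h2⟩ := hb
  simp only [rg_prod_dil] at h1 h2
  set A : ℕ → Set (E n) := fun j => gmtDil x (r (φ j)) S with hA
  have hAm : ∀ j, MeasurableSet (A j) := fun j => measurableSet_gmtDil hS.1 _ _
  have hAlf : ∀ j, GmtLF (A j) univ := fun j => hS.gmtDil x (hr (φ j))
  -- (i) invariance of the limit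
  have hinv : gmtEn n ∈ gmtSpine T := by
    rw [mem_gmtSpine]
    intro τ
    have h3 := gmtConv_affine (fun j => gmtTimesR_measurableSet (hAm j)) hT.1 h1
      (L := fun _ => ContinuousLinearEquiv.refl ℝ (E (n + 1))) (L' := ContinuousLinearEquiv.refl ℝ (E (n + 1)))
      tendsto_const_nhds (w := fun _ => τ • gmtEn n) (w' := τ • gmtEn n) tendsto_const_nhds
    have e : ∀ i, {y : E (n + 1) | τ • gmtEn n + (ContinuousLinearEquiv.refl ℝ (E (n + 1))) y ∈ gmtTimesR (A i)} =
        gmtTimesR (A i) := by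
      intro i
      ext y
      show gmtHor (τ • gmtEn n + y) ∈ A i ↔ gmtHor y ∈ A i
      rw [rgp_hor_add, rgp_hor_smul, fl_hor_en, smul_zero, zero_add]
    simp only [e] at h3
    have h4 := gmtConv_unique isOpen_univ h3 h1
    simp only [inter_univ] at h4
    unfold GmtInv
    have e2 : {y : E (n + 1) | y + τ • gmtEn n ∈ T} =
        {y : E (n + 1) | τ • gmtEn n + (ContinuousLinearEquiv.refl ℝ (E (n + 1))) y ∈ T} := by
      ext y
      show y + τ • gmtEn n ∈ T ↔ τ • gmtEn n + y ∈ T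
      rw [add_comm y (τ • gmtEn n)]
    rw [e2]
    exact h4
  -- (ii) splitting
  obtain ⟨T', hT', hTT⟩ := gmt_split_last hT.1 hinv
  have hT'lf : GmtLF T' univ := (rg_prod_lf hT').1 (rg_lf_congr hT (gmtTimesR_measurableSet hT') hTT)
  refine ⟨T', hT', hTT, φ, hφ, ?_, ?_⟩
  · -- (iii) convergence of the factors
    intro K hK _
    set K' : Set (E (n + 1)) := (fun p : E n × ℝ => gmtJoin p.1 p.2) '' (K ×ˢ Icc (0 : ℝ) 1) with hK'
    have hK'c : IsCompact K' := (hK.prod isCompact_Icc).image fl_continuous_join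
    refine tendsto_of_tendsto_of_tendsto_of_le_of_le tendsto_const_nhds (h1 K' hK'c (subset_univ _))
      (fun _ => zero_le) fun j => ?_
    have e1 := volume_timesR_box (symmDiff (A j) T') K (zero_le_one (α := ℝ))
    simp only [sub_zero, ENNReal.ofReal_one, mul_one] at e1
    show volume (symmDiff (A j) T' ∩ K) ≤ volume (symmDiff (gmtTimesR (A j)) T ∩ K')
    rw [← e1]
    have e2 : (gmtTimesR (symmDiff (A j) T') : Set (E (n + 1))) = symmDiff (gmtTimesR (A j)) (gmtTimesR T') := rfl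
    have e3 : (symmDiff (gmtTimesR (A j)) (gmtTimesR T') ∩ gmtBox K 0 1 : Set (E (n + 1))) =ᵐ[volume]
        (symmDiff (gmtTimesR (A j)) T ∩ gmtBox K 0 1 : Set (E (n + 1))) :=
      ((ae_eq_refl _).symmDiff hTT.symm).inter (ae_eq_refl _)
    rw [e2, measure_congr e3]
    refine measure_mono (inter_subset_inter_right _ fun y hy => ?_)
    exact ⟨(gmtHor y, gmtVer y), ⟨hy.1, Ioo_subset_Icc_self hy.2⟩, fl_join_hor_ver y⟩
  · -- (iv) convergence of the measures
    intro g hg hgc _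
    obtain ⟨χ, hχ, hχc, hχ1⟩ := rgp_exists_chi
    obtain ⟨h3, h4⟩ := rgp_tensor hg hgc hχ.continuous hχc
    have h5 := h2 _ h3 h4 (subset_univ _)
    rw [rg_mu_congr hT.1 (gmtTimesR_measurableSet hT') hTT,
      rgp_integral_tensor hT'lf hg hgc hχ.continuous hχc hχ1] at h5
    refine h5.congr fun j => ?_
    exact rgp_integral_tensor (hAlf j) hg hgc hχ.continuous hχc hχ1

end Claimed.Agent.R323
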