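import Claimed.Agent.R323.Nu.Main
import Claimed.Agent.R323.Rg.Prod
import Claimed.Agent.R323.Rg.Low
import Claimed.Agent.R323.Rg.AlMain

/-!
# Row 323, block D (Allard glue on `Lib/Gmt/Fl*`, `Hr*`; cones): CONTRACT.   Architect: helper36.

LOGIC (Federer reduction as in `Lib/Gmt/SpB`, by induction on the AMBIENT dimension).
* `RgClass k Θ K`: a class of entire stationary boundaries of `E k`, closed under blow-up without loss of mass, rotations, a.e. equality; cones of the class have density `≤ Θ` at the vertex.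
* `rgDown K C' := K (C' × ℝ)`; `rg_class_down`: `RgClass (n+1) Θ K → RgClass n Θ (rgDown K)` (file `Prod`).
* `RgQ k Θ`: in every class of `E k`, every cone with `0` in its boundary is a half space.
* `rg_cone_reg`: `RgQ n Θ` => a stationary cone `C ⊆ E (n+1)` whose blow-ups at `z ≠ 0` lie in a class is regular off `0`: the blow-up `C₁` at `z` is a cone (`rg_blow_cone`), `0 ∈ gmtBd C₁` (`rg_blow_bd`, lower density),
  invariant along `z` (`rg_blow_spine`); rotate, split (`gmt_split_last`): `C₁ ≅ C' × ℝ`, `C'` half space by `RgQ n`; Allard-lite (`rga_main`).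
* `RgQ 1` (`rg_one`), `RgQ 1 → RgQ 2` (`rg_two`, `Θ < 2`), `RgQ 2 → RgQ 3` (`rg_three`), `RgQ (k+1) → RgQ (k+2)` for `2 ≤ k < m` (`TT k`, `Θ σ_k < a_k` by `nuc_mono`).
* `rg_main`: `rg_cone_reg` for the cone `S` itself with `RgQ (m+1)`.
-/

set_option autoImplicit false
open scoped ContDiff ENNReal NNReal RealInnerProductSpace Topology
open MeasureTheory Metric Set Filter

namespace Claimed.Agent.R323

open Claimed.Agent.Gmt

/-! ### half spaces -/

theorem rg_half_mu {k : ℕ} (hk : 1 ≤ k) {S : Set (E k)} (hm : MeasurableSet S) (hS : IsHalf S) :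
    gmtMu S (ball 0 1) = ENNReal.ofReal (gmtOm (k - 1)) := by
  obtain ⟨e, he, h⟩ := hS
  rw [rg_mu_congr hm (measurableSet_gmtHalf 0 e) h, gmtMu_open _ isOpen_ball, gmtP_half_ball hk 0 he one_pos]
  simp

theorem rg_isHalf_eb (k : ℕ) : IsHalf (gmtHalf (0 : E (k + 1)) (eb 0)) :=
  ⟨eb 0, by simp, ae_eq_refl _⟩

theorem rg_sig_eq (m : ℕ) : sig m = ((m : ℝ) + 1) * gmtOm (m + 1) := by
  unfold sig linkArea
  have hom : 0 ≤ gmtOm (m + 1) := ENNReal.toReal_nonneg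
  rw [rg_half_mu (by omega) (measurableSet_gmtHalf _ _) (rg_isHalf_eb (m + 1))]
  simp only [Nat.add_succ_sub_one]
  rw [ENNReal.toReal_ofReal hom]
  push_cast
  ring

theorem rg_half_area (m : ℕ) (S : Set (E (m + 2))) (hm : MeasurableSet S) (hS : IsHalf S) : linkArea S = sig m := by
  unfold sig linkArea
  rw [rg_half_mu (by omega) hm hS, rg_half_mu (by omega) (measurableSet_gmtHalf _ _) (rg_isHalf_eb (m + 1))]

theorem rg_half_congr {k : ℕ} {S S' : Set (E k)} (h : S =ᵐ[volume] S') (hS : IsHalf S) : IsHalf S' := by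
  obtain ⟨e, he, h1⟩ := hS
  exact ⟨e, he, h.symm.trans h1⟩

theorem rg_rot_half {k : ℕ} (O : E k ≃ₗᵢ[ℝ] E k) (e : E k) : gmtRot O (gmtHalf 0 e) = gmtHalf 0 (O e) := by
  ext y
  rw [mem_gmtRot]
  simp only [gmtHalf, sub_zero, mem_ofPred_eq]
  rw [← O.inner_map_map (O.symm y) e, O.apply_symm_apply]

theorem rg_half_rot {k : ℕ} (O : E k ≃ₗᵢ[ℝ] E k) {S : Set (E k)} (hS : IsHalf (gmtRot O S)) : IsHalf S := by
  obtain ⟨e, he, h⟩ := hS
  refine ⟨O.symm e, by rw [O.symm.norm_map, he], ?_⟩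
  rw [← gmt_spa_rot_congr_iff O, rg_rot_half, O.apply_symm_apply]
  exact h

/-! ### classes -/

/-- a class of entire stationary boundaries, closed under blow-up without loss of mass. -/
structure RgClass (k : ℕ) (Θ : ℝ) (K : Set (E k) → Prop) : Prop where
  st : ∀ S, K S → RgaSt S
  dens : ∀ S, K S → GmtCone S → gmtMu S (ball 0 1) ≤ ENNReal.ofReal (Θ * gmtOm (k - 1))
  blow : ∀ S, K S → ∀ x, ∀ r : ℕ → ℝ, (∀ j, 0 < r j) → Tendsto r atTop (𝓝 0) → ∃ S', K S' ∧ BlowTo S x r S'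
  congr : ∀ S S', K S → MeasurableSet S' → (S : Set (E k)) =ᵐ[volume] S' → K S'
  rot : ∀ S, K S → ∀ O : E k ≃ₗᵢ[ℝ] E k, K (gmtRot O S)

theorem rg_class_of_blow {k : ℕ} {Θ : ℝ} {K : Set (E k) → Prop} (h : BlowClass k Θ K) : RgClass k Θ K where
  st := fun S hS => ⟨h.lf S hS, h.stat S hS⟩
  dens := fun S hS _ => by simpa using h.dens S hS 0 1 one_pos
  blow := h.blow
  congr := h.congr
  rot := h.rot

/-- the class of the factors. -/
def rgDown {n : ℕ} (K : Set (E (n + 1)) → Prop) : Set (E n) → Prop := fun S => MeasurableSet S ∧ K (gmtTimesR S)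

theorem rg_class_down {n : ℕ} (hn : 1 ≤ n) {Θ : ℝ} (hΘ : 0 ≤ Θ) {K : Set (E (n + 1)) → Prop}
    (h : RgClass (n + 1) Θ K) : RgClass n Θ (rgDown K) where
  st := fun S hS => rg_prod_st hS.1 (h.st _ hS.2)
  dens := fun S hS hc => rg_prod_dens hn (rg_prod_st hS.1 (h.st _ hS.2)).lf hc hΘ
    (by simpa using h.dens _ hS.2 (rg_prod_cone hS.1 hc))
  blow := by
    intro S hS x r hr hr0
    obtain ⟨T, hT, hb⟩ := h.blow _ hS.2 (gmtJoin x 0) r hr hr0
    obtain ⟨T', hT', hTT, hb'⟩ := rg_prod_blow (rg_prod_st hS.1 (h.st _ hS.2)).lf hr (h.st _ hT).lf hb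
    exact ⟨T', ⟨hT', h.congr _ _ hT (gmtTimesR_measurableSet hT') hTT⟩, hb'⟩
  congr := fun S S' hS hS' hSS =>
    ⟨hS', h.congr _ _ hS.2 (gmtTimesR_measurableSet hS') ((gmtTimesR_ae_iff hS.1 hS').2 hSS)⟩
  rot := by
    intro S hS O
    obtain ⟨O', hO'⟩ := rg_prod_rot O
    exact ⟨measurableSet_gmtRot O hS.1, hO' S ▸ h.rot _ hS.2 O'⟩

/-- in every class of `E k`, cones through `0` are half spaces. -/
def RgQ (k : ℕ) (Θ : ℝ) : Prop :=
  ∀ K : Set (E k) → Prop, RgClass k Θ K → ∀ C, K C → GmtCone C → (0 : E k) ∈ gmtBd C → IsHalf C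

/-! ### the reduction step -/

theorem rg_cone_reg {n : ℕ} (hn : 1 ≤ n) {Θ : ℝ} (hΘ : 0 ≤ Θ) (hQ : RgQ n Θ) {K : Set (E (n + 1)) → Prop}
    (hK : RgClass (n + 1) Θ K) {C : Set (E (n + 1))} (hC : RgaSt C) (hc : GmtCone C)
    (hb : ∀ x, x ≠ 0 → ∀ r : ℕ → ℝ, (∀ j, 0 < r j) → Tendsto r atTop (𝓝 0) → ∃ S', K S' ∧ BlowTo C x r S') :
    ∀ z ∈ gmtBd C, z ≠ 0 → GmtReg C z := by
  intro z hz hz0
  have hn1 : 1 ≤ n + 1 := by omega
  set r : ℕ → ℝ := fun j => 1 / ((j : ℝ) + 1) with hrdef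
  have hr : ∀ j, 0 < r j := fun j => by positivity
  have hr0 : Tendsto r atTop (𝓝 0) := tendsto_one_div_add_atTop_nhds_zero_nat
  obtain ⟨C₁, hC₁, hb₁⟩ := hb z hz0 r hr hr0
  have hst₁ := hK.st _ hC₁
  have hc₁ := (rg_blow_cone hn1 hC hst₁ hr hr0 hb₁).1
  have h0₁ := rg_blow_bd hn1 hC hst₁ hz hr hr0 hb₁
  have hsp₁ := rg_blow_spine hn1 hC hc hst₁ hr hr0 hb₁
  -- rotate
  obtain ⟨O, hO⟩ := gmt_exists_rot z
  have hC₂ := hK.rot _ hC₁ O
  have hc₂ := gmtRot_cone O hc₁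
  have hsp₂ : gmtEn n ∈ gmtSpine (gmtRot O C₁) := by
    have h1 := (mem_gmtSpine_gmtRot O C₁ z).2 hsp₁
    rw [hO] at h1
    have h2 := (gmtSpine (gmtRot O C₁)).smul_mem (‖z‖⁻¹) h1
    rwa [smul_smul, inv_mul_cancel₀ (norm_ne_zero_iff.2 hz0), one_smul] at h2
  have h0₂ : (0 : E (n + 1)) ∈ gmtBd (gmtRot O C₁) := by
    unfold gmtRot
    rw [gmtBd_gmtBlow _ _ one_pos]
    show gmtAff _ 0 1 0 ∈ gmtBd C₁
    simpa [gmtAff] using h0₁
  -- split
  obtain ⟨C', hC', hCC⟩ := gmt_split_last (measurableSet_gmtRot O hst₁.meas) hsp₂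
  have hK' : rgDown K C' := ⟨hC', hK.congr _ _ hC₂ (gmtTimesR_measurableSet hC') hCC⟩
  have hc' : GmtCone C' := gmtTimesR_cone hC' (GmtCone.congr hCC hc₂)
  have h0' : (0 : E n) ∈ gmtBd C' := by
    rw [gmtBd_congr hCC, gmtBd_timesR] at h0₂
    have : gmtHor (0 : E (n + 1)) ∈ gmtBd C' := h0₂
    simpa [gmtHor] using this
  have hh' := hQ _ (rg_class_down hn hΘ hK) C' hK' hc' h0'
  have hh₁ : IsHalf C₁ := rg_half_rot O (rg_half_congr hCC.symm (rg_prod_half hC' hh'))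
  obtain ⟨e, he, hae⟩ := hh₁
  exact rga_main (by omega) hC hz he hr hr0 (rg_blow_congr hb₁ hst₁.meas (measurableSet_gmtHalf 0 e) hae)

theorem rg_mincone {n : ℕ} (hn : 1 ≤ n) {Θ : ℝ} (hΘ : 0 ≤ Θ) (hQ : RgQ n Θ) {K : Set (E (n + 1)) → Prop}
    (hK : RgClass (n + 1) Θ K) {C : Set (E (n + 1))} (hC : K C) (hc : GmtCone C) (h0 : (0 : E (n + 1)) ∈ gmtBd C) :
    MinCone (n + 1) C where
  meas := (hK.st _ hC).meas
  cone := hc
  lf := (hK.st _ hC).lf
  vert := h0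
  reg := rg_cone_reg hn hΘ hQ hK (hK.st _ hC) hc fun x _ r hr hr0 => hK.blow _ hC x r hr hr0
  stat := (hK.st _ hC).stat

theorem rg_high (k : ℕ) (hT : TT k) {C : Set (E (k + 2))} (hC : MinCone (k + 2) C) {Θ : ℝ} (hΘ0 : 0 ≤ Θ)
    (hΘ : Θ * sig k < cliffMin k) (hd : gmtMu C (ball 0 1) ≤ ENNReal.ofReal (Θ * gmtOm (k + 1))) : IsHalf C := by
  by_contra hnh
  have h1 := hT C hC hnh
  have hom : 0 ≤ gmtOm (k + 1) := ENNReal.toReal_nonneg
  have h2 : (gmtMu C (ball 0 1)).toReal ≤ Θ * gmtOm (k + 1) :=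
    ENNReal.toReal_le_of_le_ofReal (mul_nonneg hΘ0 hom) hd
  have h3 : linkArea C ≤ Θ * sig k := by
    unfold linkArea
    rw [rg_sig_eq]
    push_cast
    have : (0 : ℝ) ≤ (k : ℝ) + 1 := by positivity
    nlinarith
  linarith

/-! ### the induction -/

theorem rg_Q_all (m : ℕ) (hm : 2 ≤ m) (IH : ∀ k, 2 ≤ k → k < m → TT k) (Θ : ℝ) (hΘ0 : 0 ≤ Θ)
    (hΘ : Θ * sig m < cliffMin m) : ∀ k, k ≤ m → RgQ (k + 1) Θ := by
  have hσ : ∀ j, 0 < sig j := nuc_sig_pos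
  have hlt : ∀ j, 2 ≤ j → j ≤ m → Θ * sig j < cliffMin j := by
    intro j hj hjm
    have h1 := nuc_mono j m hj hjm
    have h2 : Θ < cliffMin m / sig m := by rwa [lt_div_iff₀ (hσ m)]
    have h3 : Θ < cliffMin j / sig j := h2.trans_le h1
    rwa [lt_div_iff₀ (hσ j)] at h3
  have h2 : Θ < 2 := by
    have h1 := nuc_lt_two m hm
    have h3 : Θ * sig m < 2 * sig m := hΘ.trans h1
    exact lt_of_mul_lt_mul_right h3 (hσ m).le
  intro k
  induction k with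
  | zero =>
    intro _ K hK C hC hc h0
    exact rg_one (hK.st _ hC).lf hc h0
  | succ k ih =>
    intro hk K hK C hC hc h0
    have hQ := ih (by omega)
    have hmc : MinCone (k + 1 + 1) C := rg_mincone (by omega) hΘ0 hQ hK hC hc h0
    have hd := hK.dens _ hC hc
    rcases Nat.lt_or_ge k 2 with hk2 | hk2
    · interval_cases k
      · exact rg_two hmc h2 hd
      · exact rg_three hmc
    · obtain ⟨j, rfl⟩ : ∃ j, k = j + 1 := ⟨k - 1, by omega⟩
      exact rg_high (j + 1) (IH _ (by omega) (by omega)) hmc hΘ0 (hlt _ (by omega) (by omega)) hd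

theorem rg_main (m : ℕ) (hm : 2 ≤ m) (IH : ∀ k, 2 ≤ k → k < m → TT k) (K : Set (E (m + 2)) → Prop) (S : Set (E (m + 2)))
    (a : ℝ) (ha0 : 0 < a) (ha : a < cliffMin m) (hK : BlowClass (m + 2) (a / sig m) K) (hS : SphLim (m + 2) K S a) :
    MinCone (m + 2) S := by
  have hσ := nuc_sig_pos m
  have hΘ0 : 0 ≤ a / sig m := (div_pos ha0 hσ).le
  have hΘ : a / sig m * sig m < cliffMin m := by rwa [div_mul_cancel₀ _ hσ.ne']
  have hst : RgaSt S := ⟨hS.lf, hS.stat⟩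
  refine ⟨hS.meas, hS.cone, hS.lf, ?_, ?_, hS.stat⟩
  · rw [gmtBd_iff_gmtMu hS.meas]
    intro ρ hρ
    rw [rg_cone_ball hS.meas hS.cone hρ]
    have h1 : 0 < (gmtMu S (ball 0 1)).toReal := by
      have h2 := hS.area
      unfold linkArea at h2
      by_contra hcon
      have h3 : (gmtMu S (ball 0 1)).toReal = 0 := le_antisymm (not_lt.1 hcon) ENNReal.toReal_nonneg
      rw [h3, mul_zero] at h2
      linarith
    exact ENNReal.mul_pos (by simpa using pow_pos hρ _) (ENNReal.toReal_pos_iff.1 h1).1.ne'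
  · exact rg_cone_reg (n := m + 1) (by omega) hΘ0 (rg_Q_all m hm IH _ hΘ0 hΘ m le_rfl) (rg_class_of_blow hK) hst
      hS.cone hS.blow

end Claimed.Agent.R323
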